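import Vale.Agent.P353.AN.L.Lin
import Vale.Agent.P353.AN.E.GluD

/-! # P353, all `N`, block L, auxiliary lemmas for `L-Crd` (prover helper655): weighted norm of the global profile, measurable
representative of a section -/

open MeasureTheory Filter Topology Matrix
open scoped ContDiff ENNReal

namespace Vale.Agent.P353.Z.AL

variable {d dh dm r ds : ℕ} {F : Type*} [NormedAddCommGroup F] [InnerProductSpace ℂ F]

/-- polynomial times Gaussian -/
theorem crd655_poly (n : ℕ) {c : ℝ} (hc : 0 < c) : ∃ M : ℝ, 0 ≤ M ∧ ∀ t : ℝ, 0 ≤ t →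
    (1 + t) ^ n * Real.exp (-(c * t)) ≤ M * Real.exp (-(c / 2 * t)) := by
  refine ⟨n.factorial * (2 / c) ^ n * Real.exp (c / 2), by positivity, fun t ht => ?_⟩
  have h1 := Real.pow_div_factorial_le_exp (c / 2 * (1 + t)) (by positivity) n
  have hf : (0 : ℝ) < n.factorial := by exact_mod_cast n.factorial_pos
  rw [div_le_iff₀ hf, mul_pow] at h1
  have h2 : (1 + t) ^ n ≤ n.factorial * (2 / c) ^ n * Real.exp (c / 2) * Real.exp (c / 2 * t) := by
    have h3 : (1 + t) ^ n = (2 / c) ^ n * ((c / 2) ^ n * (1 + t) ^ n) := by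
      rw [← mul_assoc, ← mul_pow, div_mul_div_comm, mul_comm 2 c, div_self (by positivity), one_pow, one_mul]
    rw [h3]
    calc (2 / c) ^ n * ((c / 2) ^ n * (1 + t) ^ n) ≤ (2 / c) ^ n * (Real.exp (c / 2 * (1 + t)) * n.factorial) := by
          gcongr
      _ = _ := by
          rw [mul_add, mul_one, Real.exp_add]
          ring
  calc (1 + t) ^ n * Real.exp (-(c * t)) ≤ n.factorial * (2 / c) ^ n * Real.exp (c / 2) * Real.exp (c / 2 * t) *
        Real.exp (-(c * t)) := by gcongr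
    _ = _ := by
        rw [mul_assoc _ (Real.exp (c / 2 * t)), ← Real.exp_add]
        congr 2
        ring

/-- the weighted moments of the Gaussian profile are bounded over a compact set -/
theorem crd655_mom {κ : ℝ} (hκ : 0 < κ) {A : Set (Cfg r)} (hA : IsCompact A)
    {Om : Cfg r → Matrix (Fin dm) (Fin dm) ℝ} {D : Cfg r → Fin 9 → Matrix (Fin dm) (Fin dm) ℝ}
    (hO : ∀ B C, ContinuousOn (fun η => Om η B C) A) (hI : ∀ η ∈ A, IsOm κ (D η) (Om η)) :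
    ∃ C : ℝ, 0 ≤ C ∧ ∀ η ∈ A, ∫⁻ X : Cfg dm, ENNReal.ofReal ((1 + ‖X‖ ^ 2) ^ (dm + 1)) *
      ‖((AN.Nf κ (Om η) * Real.exp (-(1 / 2) * AN.qX (Om η) X) : ℝ) : ℂ)‖ₑ ^ 2 ≤ ENNReal.ofReal C := by
  obtain ⟨c, hc, hcl⟩ := lin_ulow hA (fun η X => AN.qX (Om η) X) (lin_qX_cont hO) (fun η => AN.gau_qX_smul (Om η))
    (fun η hη => AN.gau_qX_pos (hI η hη))
  obtain ⟨N, hN⟩ := hA.exists_bound_of_continuousOn (lin_Nf_cont hκ hA hO hI)
  obtain ⟨M, hM, hMl⟩ := crd655_poly (dm + 1) hc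
  have hgi : Integrable fun X : Cfg dm => Real.exp (-(c / 2 * ‖X‖ ^ 2)) := AN.gau_int_sq (half_pos hc)
  refine ⟨N ^ 2 * M * ∫ X : Cfg dm, Real.exp (-(c / 2 * ‖X‖ ^ 2)),
    mul_nonneg (by positivity) (integral_nonneg fun X => (Real.exp_pos _).le), fun η hη => ?_⟩
  rw [← integral_const_mul, ofReal_integral_eq_lintegral_ofReal (hgi.const_mul _)
    (Eventually.of_forall fun X => by positivity)]
  refine lintegral_mono fun X => ?_
  rw [← ofReal_norm, ← ENNReal.ofReal_pow (norm_nonneg _), ← ENNReal.ofReal_mul (by positivity)]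
  refine ENNReal.ofReal_le_ofReal ?_
  rw [Complex.norm_real, norm_mul, mul_pow, Real.norm_eq_abs (Real.exp _), abs_of_pos (Real.exp_pos _), ← Real.exp_nat_mul]
  have h1 : ‖AN.Nf κ (Om η)‖ ^ 2 ≤ N ^ 2 := by
    have := hN η hη
    gcongr
  have h2 : Real.exp (((2 : ℕ) : ℝ) * (-(1 / 2) * AN.qX (Om η) X)) ≤ Real.exp (-(c * ‖X‖ ^ 2)) := by
    rw [Real.exp_le_exp]
    have := hcl η hη X
    push_cast
    linarith
  calc (1 + ‖X‖ ^ 2) ^ (dm + 1) * (‖AN.Nf κ (Om η)‖ ^ 2 * Real.exp (((2 : ℕ) : ℝ) * (-(1 / 2) * AN.qX (Om η) X)))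
      ≤ (1 + ‖X‖ ^ 2) ^ (dm + 1) * (N ^ 2 * Real.exp (-(c * ‖X‖ ^ 2))) := by gcongr
    _ = N ^ 2 * ((1 + ‖X‖ ^ 2) ^ (dm + 1) * Real.exp (-(c * ‖X‖ ^ 2))) := by ring
    _ ≤ N ^ 2 * (M * Real.exp (-(c / 2 * ‖X‖ ^ 2))) :=
        mul_le_mul_of_nonneg_left (hMl _ (by positivity)) (sq_nonneg N)
    _ = _ := by ring

/-- the cutoff is measurable -/
theorem crd655_chi (R : ℝ) : Measurable fun q : Cfg r × Cfg ds × Cfg dm => chi R q := by
  unfold chi
  refine Measurable.ite ?_ measurable_const measurable_const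
  have m1 : Measurable fun q : Cfg r × Cfg ds × Cfg dm => ‖q.2.1‖ := by fun_prop
  have m2 : Measurable fun q : Cfg r × Cfg ds × Cfg dm => ‖q.2.2‖ := by fun_prop
  exact (measurableSet_le m1 measurable_const).inter (measurableSet_le m2 measurable_const)

theorem crd655_chi_le (R : ℝ) (q : Cfg r × Cfg ds × Cfg dm) : ‖((chi R q : ℝ) : ℂ)‖ ≤ 1 := by
  rw [Complex.norm_real]
  unfold chi
  split_ifs <;> simp

/-- the global profile is strongly measurable -/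
theorem crd655_sm {κ : ℝ} (hκ : 0 < κ) {A : Set (Cfg r)} (hA : IsCompact A)
    {Om : Cfg r → Matrix (Fin dm) (Fin dm) ℝ} {D : Cfg r → Fin 9 → Matrix (Fin dm) (Fin dm) ℝ}
    (hO : ∀ B C, ContinuousOn (fun η => Om η B C) A) (hI : ∀ η ∈ A, IsOm κ (D η) (Om η))
    {a : Cfg r → Cfg ds → F} (ham : StronglyMeasurable (fun q : Cfg r × Cfg ds => a q.1 q.2))
    (has : ∀ η s, a η s ≠ 0 → η ∈ A) (R : ℝ) :
    StronglyMeasurable (fun q : Cfg r × Cfg ds × Cfg dm => ((chi R q : ℝ) : ℂ) • AN.bG κ Om a q) := by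
  classical
  set T2 : Set (Cfg r × Cfg ds × Cfg dm) := A ×ˢ Set.univ with hT2
  have hT2m : MeasurableSet T2 := hA.isClosed.measurableSet.prod MeasurableSet.univ
  set G : Cfg r × Cfg ds × Cfg dm → ℂ := fun q =>
    ((AN.Nf κ (Om q.1) * Real.exp (-(1 / 2) * AN.qX (Om q.1) q.2.2) : ℝ) : ℂ) with hG
  have hcc : ContinuousOn G T2 := by
    have h1 : ContinuousOn (fun q : Cfg r × Cfg ds × Cfg dm => AN.Nf κ (Om q.1)) T2 :=
      (lin_Nf_cont hκ hA hO hI).comp (f := fun q : Cfg r × Cfg ds × Cfg dm => q.1) continuous_fst.continuousOn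
        fun q hq => hq.1
    have h2 : ContinuousOn (fun q : Cfg r × Cfg ds × Cfg dm => AN.qX (Om q.1) q.2.2) T2 :=
      (lin_qX_cont hO).comp (f := fun q : Cfg r × Cfg ds × Cfg dm => (q.1, q.2.2)) (by fun_prop)
        fun q hq => ⟨hq.1, Set.mem_univ _⟩
    exact Complex.continuous_ofReal.comp_continuousOn
      (h1.mul (Real.continuous_exp.comp_continuousOn (continuousOn_const.mul h2)))
  have hGm : Measurable (T2.indicator G) := by
    have h := hcc.measurable_piecewise (g := 0) continuousOn_const hT2m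
    rwa [Set.piecewise_eq_indicator] at h
  have hpr : Measurable fun q : Cfg r × Cfg ds × Cfg dm => (q.1, q.2.1) := by fun_prop
  have h3 : StronglyMeasurable fun q : Cfg r × Cfg ds × Cfg dm => a q.1 q.2.1 := ham.comp_measurable hpr
  have h4 : StronglyMeasurable fun q : Cfg r × Cfg ds × Cfg dm => ((chi R q : ℝ) : ℂ) :=
    (Complex.measurable_ofReal.comp (crd655_chi R)).stronglyMeasurable
  have h5 := h4.smul (hGm.stronglyMeasurable.smul h3)
  convert h5 using 1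
  funext q
  by_cases hq : q ∈ T2
  · simp only [Pi.smul_apply', AN.bG, Set.indicator_of_mem hq, hG]
  · have h6 : a q.1 q.2.1 = 0 := by
      by_contra h
      exact hq ⟨has _ _ h, Set.mem_univ _⟩
    simp only [Pi.smul_apply', AN.bG, h6, smul_zero]

/-- **weighted norm of the global profile** -/
theorem crd655_wM {κ : ℝ} (hκ : 0 < κ) {A : Set (Cfg r)} (hA : IsCompact A)
    {Om : Cfg r → Matrix (Fin dm) (Fin dm) ℝ} {D : Cfg r → Fin 9 → Matrix (Fin dm) (Fin dm) ℝ}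
    (hO : ∀ B C, ContinuousOn (fun η => Om η B C) A) (hI : ∀ η ∈ A, IsOm κ (D η) (Om η)) :
    ∃ C : ℝ, 0 ≤ C ∧ ∀ a : Cfg r → Cfg ds → F, StronglyMeasurable (fun q : Cfg r × Cfg ds => a q.1 q.2) → Sec2 A a →
      ∀ R : ℝ, StronglyMeasurable (fun q : Cfg r × Cfg ds × Cfg dm => ((chi R q : ℝ) : ℂ) • AN.bG κ Om a q) ∧
        MemLp (fun q : Cfg r × Cfg ds × Cfg dm => ((chi R q : ℝ) : ℂ) • AN.bG κ Om a q) 2 (AN.wM r ds dm) ∧
        eLpNorm (fun q : Cfg r × Cfg ds × Cfg dm => ((chi R q : ℝ) : ℂ) • AN.bG κ Om a q) 2 (AN.wM r ds dm) ≤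
          ENNReal.ofReal (C * Real.sqrt (n2 a)) := by
  obtain ⟨C, hC, hCl⟩ := crd655_mom (dm := dm) hκ hA hO hI
  refine ⟨Real.sqrt C, Real.sqrt_nonneg _, fun a ham ha R => ?_⟩
  have hsm := crd655_sm hκ hA hO hI ham ha.2 R
  set b : Cfg r × Cfg ds × Cfg dm → F := fun q => ((chi R q : ℝ) : ℂ) • AN.bG κ Om a q with hb
  set w : Cfg r × Cfg ds × Cfg dm → ℝ≥0∞ := fun q => ENNReal.ofReal ((1 + ‖q.2.2‖ ^ 2) ^ (dm + 1)) with hw
  have hwm : Measurable w := by fun_prop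
  have hbm : Measurable fun q => ‖b q‖ₑ ^ (2 : ℕ) := hsm.enorm.pow_const _
  have hn2 : ∫⁻ q : Cfg r × Cfg ds, ‖a q.1 q.2‖ₑ ^ (2 : ℕ) ∂(volume.prod volume) = ENNReal.ofReal (n2 a) := by
    unfold n2
    rw [ofReal_integral_eq_lintegral_ofReal (ha.1.integrable_norm_pow two_ne_zero) (Eventually.of_forall fun q => by positivity)]
    refine lintegral_congr fun q => ?_
    rw [← ofReal_norm, ← ENNReal.ofReal_pow (norm_nonneg _)]
  have hn0 : 0 ≤ n2 a := integral_nonneg fun q => by positivity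
  have hin : ∀ η s, ∫⁻ X : Cfg dm, w (η, s, X) * ‖b (η, s, X)‖ₑ ^ (2 : ℕ) ≤ ENNReal.ofReal C * ‖a η s‖ₑ ^ (2 : ℕ) := by
    intro η s
    by_cases hη : η ∈ A
    · refine le_trans ?_ (mul_le_mul_left (hCl η hη) (‖a η s‖ₑ ^ (2 : ℕ)))
      rw [← lintegral_mul_const' _ _ (by finiteness)]
      refine lintegral_mono fun X => ?_
      simp only [hw, hb, AN.bG, enorm_smul, mul_assoc]
      gcongr
      rw [mul_pow, mul_pow]
      have h1 : ‖((chi R ((η, s, X) : Cfg r × Cfg ds × Cfg dm) : ℝ) : ℂ)‖ₑ ^ 2 ≤ 1 := by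
        have h2 := crd655_chi_le R ((η, s, X) : Cfg r × Cfg ds × Cfg dm)
        have h3 : ‖((chi R ((η, s, X) : Cfg r × Cfg ds × Cfg dm) : ℝ) : ℂ)‖ₑ ≤ 1 := by
          rw [← ofReal_norm]
          exact ENNReal.ofReal_le_one.2 h2
        exact pow_le_one₀ bot_le h3
      calc _ ≤ 1 * (‖((AN.Nf κ (Om η) * Real.exp (-(1 / 2) * AN.qX (Om η) X) : ℝ) : ℂ)‖ₑ ^ 2 * ‖a η s‖ₑ ^ 2) := by
            gcongr
        _ = _ := one_mul _
    · have h6 : a η s = 0 := by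
        by_contra h
        exact hη (ha.2 _ _ h)
      simp [hb, AN.bG, h6]
  have key : ∫⁻ q, ‖b q‖ₑ ^ (2 : ℕ) ∂(AN.wM r ds dm) ≤ ENNReal.ofReal C * ENNReal.ofReal (n2 a) := by
    unfold AN.wM
    rw [lintegral_withDensity_eq_lintegral_mul _ hwm hbm]
    have hm : Measurable fun q : Cfg r × Cfg ds × Cfg dm => w q * ‖b q‖ₑ ^ (2 : ℕ) := hwm.mul hbm
    have ham2 : Measurable fun q : Cfg r × Cfg ds => ‖a q.1 q.2‖ₑ ^ (2 : ℕ) := ham.enorm.pow_const _
    calc ∫⁻ q : Cfg r × Cfg ds × Cfg dm, w q * ‖b q‖ₑ ^ (2 : ℕ) ∂(volume.prod (volume.prod volume))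
        = ∫⁻ η : Cfg r, ∫⁻ p : Cfg ds × Cfg dm, w (η, p) * ‖b (η, p)‖ₑ ^ (2 : ℕ) ∂(volume.prod volume) :=
          lintegral_prod _ hm.aemeasurable
      _ = ∫⁻ η : Cfg r, ∫⁻ s : Cfg ds, ∫⁻ X : Cfg dm, w (η, s, X) * ‖b (η, s, X)‖ₑ ^ (2 : ℕ) := by
          refine lintegral_congr fun η => ?_
          exact lintegral_prod _ (hm.comp measurable_prodMk_left).aemeasurable
      _ ≤ ∫⁻ η : Cfg r, ∫⁻ s : Cfg ds, ENNReal.ofReal C * ‖a η s‖ₑ ^ (2 : ℕ) :=
          lintegral_mono fun η => lintegral_mono fun s => hin η s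
      _ = ENNReal.ofReal C * ∫⁻ η : Cfg r, ∫⁻ s : Cfg ds, ‖a η s‖ₑ ^ (2 : ℕ) := by
          rw [← lintegral_const_mul' _ _ ENNReal.ofReal_ne_top]
          refine lintegral_congr fun η => ?_
          rw [lintegral_const_mul' _ _ ENNReal.ofReal_ne_top]
      _ = ENNReal.ofReal C * ENNReal.ofReal (n2 a) := by
          rw [← hn2, lintegral_prod _ ham2.aemeasurable]
  have hle : eLpNorm b 2 (AN.wM r ds dm) ≤ ENNReal.ofReal (Real.sqrt C * Real.sqrt (n2 a)) := by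
    have h1 := eLpNorm_nnreal_pow_eq_lintegral (f := b) (μ := AN.wM r ds dm) (p := 2) two_ne_zero
    have h2 : eLpNorm b 2 (AN.wM r ds dm) ^ (2 : ℝ) ≤ ENNReal.ofReal (Real.sqrt C * Real.sqrt (n2 a)) ^ (2 : ℝ) := by
      have h3 : eLpNorm b 2 (AN.wM r ds dm) ^ (2 : ℝ) = ∫⁻ q, ‖b q‖ₑ ^ (2 : ℕ) ∂(AN.wM r ds dm) := by
        have h4 := h1
        simp only [NNReal.coe_ofNat, ENNReal.coe_ofNat] at h4
        rw [h4]
        refine lintegral_congr fun q => ?_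
        exact_mod_cast ENNReal.rpow_natCast _ 2
      rw [h3]
      refine key.trans (le_of_eq ?_)
      rw [← ENNReal.ofReal_mul hC, ENNReal.ofReal_rpow_of_nonneg (by positivity) (by norm_num)]
      congr 1
      rw [← Real.sqrt_mul hC]
      have h5 := Real.sq_sqrt (mul_nonneg hC hn0)
      exact_mod_cast h5.symm
    exact (ENNReal.rpow_le_rpow_iff (by norm_num)).1 h2
  exact ⟨hsm, ⟨hsm.aestronglyMeasurable, hle.trans_lt ENNReal.ofReal_lt_top⟩, hle⟩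

/-- **strongly measurable representative of a section** -/
theorem crd655_rep (κ : ℝ) (φ : Spl dh dm d) (ψ : Spl r ds dh) (Om : Cfg r → Matrix (Fin dm) (Fin dm) ℝ) {A : Set (Cfg r)}
    (hA : MeasurableSet A) {a : Cfg r → Cfg ds → F} (ha : Sec2 A a) :
    ∃ a' : Cfg r → Cfg ds → F, StronglyMeasurable (fun q : Cfg r × Cfg ds => a' q.1 q.2) ∧ Sec2 A a' ∧ n2 a' = n2 a ∧
      ∀ R, 0 < R → ∀ u : Cfg d → F, ZZ κ φ ψ Om a' R u = ZZ κ φ ψ Om a R u := by
  set B : Set (Cfg r × Cfg ds) := A ×ˢ Set.univ with hB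
  have hBm : MeasurableSet B := hA.prod MeasurableSet.univ
  set g : Cfg r × Cfg ds → F := B.indicator (ha.1.1.mk _) with hg
  have hgm : StronglyMeasurable g := (ha.1.1.stronglyMeasurable_mk).indicator hBm
  have hga : (fun q : Cfg r × Cfg ds => a q.1 q.2) =ᵐ[volume.prod volume] g := by
    filter_upwards [ha.1.1.ae_eq_mk] with q hq
    by_cases hqB : q ∈ B
    · rw [hg, Set.indicator_of_mem hqB, ← hq]
    · rw [hg, Set.indicator_of_notMem hqB]
      by_contra h0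
      exact hqB ⟨ha.2 q.1 q.2 h0, Set.mem_univ _⟩
  refine ⟨fun η s => g (η, s), hgm, ⟨ha.1.ae_eq hga, fun η s h0 => ?_⟩, ?_, fun R hR u => ?_⟩
  · by_contra h1
    exact h0 (Set.indicator_of_notMem (fun h2 : (η, s) ∈ B => h1 h2.1) _)
  · unfold n2
    refine integral_congr_ae ?_
    filter_upwards [hga] with q hq
    simp only [hq]
  · have q1 : ∀ᵐ y : Cfg dh, a (R⁻¹ • AN.hz ψ y) (AN.hs ψ y) = g (R⁻¹ • AN.hz ψ y, AN.hs ψ y) :=
      (AE.gd655_qmp (AE.gd655L ψ R) (AE.gd655L_surj ψ hR.ne') (volume : Measure (Cfg dh))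
        ((volume : Measure (Cfg r)).prod (volume : Measure (Cfg ds)))).ae hga
    have q2 : ∀ᵐ x : Cfg d, a (R⁻¹ • AN.hz ψ (AN.zy φ x)) (AN.hs ψ (AN.zy φ x)) =
        g (R⁻¹ • AN.hz ψ (AN.zy φ x), AN.hs ψ (AN.zy φ x)) :=
      (AE.gd655_qmp (AE.gd655Z φ) (AE.gd655Z_surj φ) (volume : Measure (Cfg d)) (volume : Measure (Cfg dh))).ae q1
    unfold ZZ
    refine integral_congr_ae ?_
    filter_upwards [q2] with x hx
    simp only [AN.Zb, AN.bG, hx]

end Vale.Agent.P353.Z.AL
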