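import Vale.Agent.P353.AN.L.StmtU
import Vale.Agent.P353.AN.L.CrdB

/-! # P353, all `N`, block L: `CrdOfStmt` (prover helper655) -/

open MeasureTheory Filter Topology Matrix
open scoped ContDiff ENNReal

namespace Vale.Agent.P353.Z.AL

variable {d dh dm r ds : ℕ} {F : Type*} [NormedAddCommGroup F] [InnerProductSpace ℂ F]

/-- a compact set without the origin lies in a shell -/
theorem crd655_shell {A : Set (Cfg r)} (hA : IsCompact A) (h0 : (0 : Cfg r) ∉ A) :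
    ∃ s t : ℝ, 0 < s ∧ s < t ∧ A ⊆ AD.shl r s t := by
  rcases A.eq_empty_or_nonempty with rfl | hne
  · exact ⟨1, 2, one_pos, one_lt_two, Set.empty_subset _⟩
  obtain ⟨x, hx, hmin⟩ := hA.exists_isMinOn hne continuous_norm.continuousOn
  obtain ⟨y, hy, hmax⟩ := hA.exists_isMaxOn hne continuous_norm.continuousOn
  have hx0 : 0 < ‖x‖ := norm_pos_iff.2 fun h => h0 (h ▸ hx)
  have hxy : ‖x‖ ≤ ‖y‖ := hmin hy
  refine ⟨‖x‖ / 2, ‖y‖ + 1, half_pos hx0, by linarith, fun z hz => ?_⟩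
  have h1 : ‖x‖ ≤ ‖z‖ := hmin hz
  have h2 : ‖z‖ ≤ ‖y‖ := hmax hz
  exact ⟨by linarith, by linarith⟩

/-- `Rg ⊆ Reg` -/
theorem crd655_reg (S : Setup d F) (φ : Spl dh dm d) (ψ : Spl r ds dh) : Rg S φ ψ ⊆ AN.Reg S φ ψ := by
  intro η hη x hx
  refine Matrix.eq_zero_of_mulVec_eq_zero hη ?_
  rw [Matrix.sum_mulVec]
  refine Finset.sum_eq_zero fun i _ => ?_
  have h1 : (S.Dz φ ψ η i).mulVec x = 0 := hx i
  rw [← Matrix.mulVec_mulVec, h1, Matrix.mulVec_zero]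

/-- **L-Crd** -/
theorem crd_of (S : Setup d F) : CrdOfStmt S := by
  intro hG _ hRad hSup hF dh dm r ds φ ψ z₀ hstd L Om K U hB A hA hAR h0 R u hu
  obtain ⟨s, t, hs, hst, hAs⟩ := crd655_shell hA h0
  obtain ⟨u', Cu, hu'i, hu'e, hu'n, -⟩ := hRad R u hu s t hs hst
  obtain ⟨R₀, hR₀, hS⟩ := hSup d dh dm r ds φ ψ S.κ Om s t A hs hst hA hAs
  have hcen : AN.IsZ S φ ψ := fun a B C => hstd.cen a B C
  obtain ⟨δ, C, R₁, hδ, hC, hR₁, hK⟩ := hG hF dh dm r ds φ ψ A hstd.std.sub hcen hA (hAR.trans (crd655_reg S φ ψ))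
  have hdet : ∀ η ∈ A, (∑ i, DM (AX.Mz S φ (spsw ψ)) η i * DM (AX.Mz S φ (spsw ψ)) η i).det ≠ 0 := by
    intro η hη
    have h := hAR hη
    simp only [Rg, Set.mem_ofPred_eq] at h
    simp only [AX.DM_Dz]
    exact h
  have hO : ∀ B C, ContinuousOn (fun η => Om η B C) A := fun B C =>
    (hB.om_smooth B C).continuousOn.mono fun η hη => hdet η hη
  have hI : ∀ η ∈ A, IsOm S.κ (DM (AX.Mz S φ (spsw ψ)) η) (Om η) := fun η hη => hB.om η (hdet η hη)
  obtain ⟨Cw, hCw, hw⟩ := crd655_wM (F := F) (ds := ds) S.κ_pos hA hO hI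
  refine ⟨C * Cw * Real.sqrt Cu, by positivity, fun a ha => ?_⟩
  obtain ⟨a', ham, ha', hn, hZ⟩ := crd655_rep S.κ φ ψ Om hA.isClosed.measurableSet ha
  filter_upwards [hu.lim.eventually_ge_atTop R₀, hu.lim.eventually_ge_atTop R₁,
    hu.lim.eventually_ge_atTop ((δ⁻¹) ^ 2)] with n h1 h2 h3
  have hRn := hu.pos n
  rw [← hn, ← hZ (R n) hRn (u n), (hS (R n) h1 a' ha'.2).2 (u n) (u' n) (fun x hx => (hu'e n x hx.1.le hx.2.le).symm)]
  obtain ⟨hsm, hml, hle⟩ := hw a' ham ha' (R n)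
  have hsq : δ⁻¹ ≤ Real.sqrt (R n) := Real.le_sqrt_of_sq_le h3
  have hsq1 : 1 ≤ δ * Real.sqrt (R n) := by
    rw [inv_le_iff_one_le_mul₀ hδ] at hsq
    linarith [mul_comm δ (Real.sqrt (R n))]
  have hss : Real.sqrt (R n) * Real.sqrt (R n) = R n := Real.mul_self_sqrt hRn.le
  have hsup : ∀ q : Cfg r × Cfg ds × Cfg dm, ((chi (R n) q : ℝ) : ℂ) • AN.bG S.κ Om a' q ≠ 0 →
      q.1 ∈ A ∧ ‖q.2.1‖ ≤ δ * R n ∧ ‖q.2.2‖ ≤ δ * (R n * Real.sqrt (R n)) := by
    intro q hq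
    have hc : chi (R n) q ≠ 0 := by
      intro h
      exact hq (by rw [h, Complex.ofReal_zero, zero_smul])
    have hc' : ‖q.2.1‖ ≤ Real.sqrt (R n) ∧ ‖q.2.2‖ ≤ R n := by
      by_contra h
      exact hc (if_neg h)
    have haq : a' q.1 q.2.1 ≠ 0 := by
      intro h
      exact hq (by simp only [AN.bG, h, smul_zero])
    refine ⟨ha'.2 _ _ haq, hc'.1.trans ?_, hc'.2.trans ?_⟩
    · calc Real.sqrt (R n) = 1 * Real.sqrt (R n) := (one_mul _).symm
        _ ≤ (δ * Real.sqrt (R n)) * Real.sqrt (R n) := by gcongr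
        _ = δ * R n := by rw [mul_assoc, hss]
    · calc R n = 1 * R n := (one_mul _).symm
        _ ≤ (δ * Real.sqrt (R n)) * R n := by gcongr
        _ = _ := by ring
  have hb := hK (R n) h2 _ hsm hsup hml (u' n) (hu'i n).1 (hu'i n).2
  have hum : MemLp (u' n) 2 (volume : Measure (Cfg d)) := (hu'i n).1.memLp
  have hun : eLpNorm (u' n) 2 volume ≤ ENNReal.ofReal (Real.sqrt Cu) := by
    rw [hum.eLpNorm_eq_integral_rpow_norm two_ne_zero ENNReal.ofNat_ne_top]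
    refine ENNReal.ofReal_le_ofReal ?_
    rw [Real.sqrt_eq_rpow, ENNReal.toReal_ofNat, one_div]
    refine Real.rpow_le_rpow (integral_nonneg fun x => by positivity) ?_ (by norm_num)
    refine le_trans (le_of_eq ?_) (hu'n n)
    refine integral_congr_ae (Eventually.of_forall fun x => ?_)
    exact Real.rpow_natCast _ 2
  have hfin : ‖ZZ S.κ φ ψ Om a' (R n) (u' n)‖ₑ ≤
      ENNReal.ofReal (C * (Cw * Real.sqrt (n2 a')) * Real.sqrt Cu) := by
    rw [ENNReal.ofReal_mul (by positivity), ENNReal.ofReal_mul hC.le]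
    exact hb.trans (mul_le_mul' (mul_le_mul' le_rfl hle) hun)
  rw [← ofReal_norm, ENNReal.ofReal_le_ofReal_iff (by positivity)] at hfin
  linarith [hfin]

end Vale.Agent.P353.Z.AL
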