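import Vale.Agent.P353.AN.L.Stmt

/-! # P353, all `N`, block L: data of a stratum exist -/

open MeasureTheory Filter Topology Matrix
open scoped ContDiff

namespace Vale.Agent.P353.Z.AL

variable {d dh dm r ds n : ℕ} {F : Type*} [NormedAddCommGroup F] [InnerProductSpace ℂ F]

namespace Dat533

lemma coef {o : Fin n → Cfg d → F} (ho : ∀ j, MemLp (o j) 2 (volume : Measure (Cfg d)))
    (hO : ∀ j k, ∫ x, inner ℂ (o j x) (o k x) = if j = k then 1 else 0) {g : Cfg d → F} {c : Fin n → ℂ}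
    (hg : ∀ᵐ x ∂(volume : Measure (Cfg d)), g x = ∑ j, c j • o j x) (i : Fin n) :
    ∫ x, inner ℂ (o i x) (g x) = c i := by
  have h1 : ∫ x, inner ℂ (o i x) (g x) = ∫ x, inner ℂ (o i x) (∑ j, c j • o j x) := by
    refine integral_congr_ae ?_
    filter_upwards [hg] with x hx
    rw [hx]
  rw [h1]
  simp only [inner_sum, inner_smul_right]
  rw [integral_finsetSum _ fun k _ => (integrable_inner_memLp (ho i) (ho k)).const_mul _]
  simp only [integral_const_mul, hO]
  simp

lemma zm_zero (S : Setup d F) : AD.ZM S (fun _ : Cfg d => (0 : F)) := by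
  have hQ : ∀ β (x : Cfg d), S.Q β (fun _ : Cfg d => (0 : F)) x = 0 := by
    intro β x
    simp [Setup.Q, pd]
  refine ⟨fun _ _ => 0, fun _ => ⟨⟨contDiff_const, ?_⟩, fun C x => ?_⟩, ⟨fun _ => ?_, ?_, ?_⟩, ?_⟩
  · exact HasCompactSupport.zero
  · simp [Setup.G, pd]
  · exact MemLp.zero'
  · exact MemLp.zero'
  · simp [nsq]
  · simp [AD.En, nsq, hQ]

lemma zm_sum {S : Setup d F} (hL : ZMLStmt S) {ι : Type*} (t : Finset ι) (o : ι → Cfg d → F) (c : ι → ℂ)
    (h : ∀ j, AD.ZM S (o j)) : AD.ZM S (fun x => ∑ j ∈ t, c j • o j x) := by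
  classical
  induction t using Finset.induction_on with
  | empty =>
    simp only [Finset.sum_empty]
    exact zm_zero S
  | insert a t ha ih =>
    simp only [Finset.sum_insert ha]
    exact hL.1 _ _ (hL.2.1 (c a) _ (h a)) ih

/-- orthonormal basis of the zero modes with values in `K` -/
theorem basis (S : Setup d F) (hL : ZMLStmt S) (hF : ZMFStmt S) (hI : AD.ICStmt S) (K : Submodule ℂ F) :
    ∃ (n : ℕ) (o : Fin n → Cfg d → F), (∀ j, MemLp (o j) 2 (volume : Measure (Cfg d))) ∧ (∀ j, AD.ZM S (o j)) ∧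
      (∀ j k, ∫ x, inner ℂ (o j x) (o k x) = if j = k then 1 else 0) ∧
      (∀ j, ∀ᵐ s ∂(volume : Measure (Cfg d)), o j s ∈ K) ∧
      ∀ o', AD.ZM S o' → (∀ᵐ s ∂(volume : Measure (Cfg d)), o' s ∈ K) →
        ∃ c : Fin n → ℂ, ∀ᵐ s ∂(volume : Measure (Cfg d)), o' s = ∑ j, c j • o j s := by
  obtain ⟨n₀, o₀, C, -, hz, hO, hin⟩ := hI
  have hfull := hF n₀ o₀ C hz hO hin
  have hm : ∀ j, MemLp (o₀ j) 2 (volume : Measure (Cfg d)) := fun j => hL.2.2.2.1 _ (hz j)
  -- combinations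
  let fc : EuclideanSpace ℂ (Fin n₀) → Cfg d → F := fun c x => ∑ j, c j • o₀ j x
  have hfc : ∀ c x, fc c x = ∑ j, c j • o₀ j x := fun _ _ => rfl
  let V : Submodule ℂ (EuclideanSpace ℂ (Fin n₀)) :=
    { carrier := {c | ∀ᵐ x ∂(volume : Measure (Cfg d)), fc c x ∈ K}
      add_mem' := by
        intro a b ha hb
        change ∀ᵐ x ∂(volume : Measure (Cfg d)), fc (a + b) x ∈ K
        filter_upwards [ha, hb] with x hx hy
        have : fc (a + b) x = fc a x + fc b x := by
          simp only [hfc, PiLp.add_apply, add_smul, Finset.sum_add_distrib]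
        rw [this]
        exact K.add_mem hx hy
      zero_mem' := by
        refine ae_of_all _ fun x => ?_
        have : fc 0 x = 0 := by simp [hfc]
        rw [this]
        exact K.zero_mem
      smul_mem' := by
        intro c a ha
        change ∀ᵐ x ∂(volume : Measure (Cfg d)), fc (c • a) x ∈ K
        filter_upwards [ha] with x hx
        have : fc (c • a) x = c • fc a x := by
          simp only [hfc, PiLp.smul_apply, smul_eq_mul, mul_smul, Finset.smul_sum]
        rw [this]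
        exact K.smul_mem c hx }
  have hV : ∀ c, c ∈ V ↔ ∀ᵐ x ∂(volume : Measure (Cfg d)), fc c x ∈ K := fun _ => Iff.rfl
  let b := stdOrthonormalBasis ℂ V
  have hin2 : ∀ c c' : EuclideanSpace ℂ (Fin n₀), ∫ x, inner ℂ (fc c x) (fc c' x) = inner ℂ c c' := by
    intro c c'
    simp only [hfc, sum_inner, inner_smul_left]
    rw [integral_finsetSum _ fun k _ => ?_]
    · have h2 : ∀ i, ∫ x, (starRingEnd ℂ) (c i) * inner ℂ (o₀ i x) (∑ j, c' j • o₀ j x) =
          (starRingEnd ℂ) (c i) * c' i := by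
        intro i
        rw [integral_const_mul, coef hm hO (ae_of_all _ fun _ => rfl)]
      simp only [h2, PiLp.inner_apply, RCLike.inner_apply]
      exact Finset.sum_congr rfl fun i _ => mul_comm _ _
    · refine Integrable.const_mul (integrable_inner_memLp (hm k) ?_) _
      exact memLp_finsetSum _ fun j _ => (hm j).const_smul _
  refine ⟨Module.finrank ℂ V, fun k => fc (b k : EuclideanSpace ℂ (Fin n₀)), fun k => ?_, fun k => ?_,
    fun j k => ?_, fun k => ?_, ?_⟩
  · exact memLp_finsetSum _ fun j _ => (hm j).const_smul _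
  · exact zm_sum hL Finset.univ o₀ _ hz
  · rw [hin2, ← Submodule.coe_inner]
    exact orthonormal_iff_ite.1 b.orthonormal j k
  · exact (hV _).1 (b k).2
  · intro o' ho' hK
    set c : EuclideanSpace ℂ (Fin n₀) := WithLp.toLp 2 fun j => ∫ z, inner ℂ (o₀ j z) (o' z) with hc
    have h1 : ∀ᵐ x ∂(volume : Measure (Cfg d)), o' x = fc c x := by
      filter_upwards [hfull o' ho'] with x hx
      rw [hx]
    have hcV : c ∈ V := by
      rw [hV]
      filter_upwards [h1, hK] with x hx hy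
      rw [← hx]
      exact hy
    refine ⟨fun k => b.repr ⟨c, hcV⟩ k, ?_⟩
    filter_upwards [h1] with x hx
    rw [hx]
    have h2 : c = ∑ k, b.repr ⟨c, hcV⟩ k • (b k : EuclideanSpace ℂ (Fin n₀)) := by
      have h3 := congrArg (Submodule.subtype V) (b.sum_repr ⟨c, hcV⟩)
      rw [map_sum] at h3
      simpa using h3.symm
    have hlin : ∀ (m : ℕ) (a : Fin m → ℂ) (e : Fin m → EuclideanSpace ℂ (Fin n₀)),
        fc (∑ k, a k • e k) x = ∑ k, a k • fc (e k) x := by
      intro m a e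
      simp only [hfc, Finset.smul_sum, smul_smul]
      rw [Finset.sum_comm]
      refine Finset.sum_congr rfl fun j _ => ?_
      rw [← Finset.sum_smul]
      congr 1
      simp
    conv_lhs => rw [h2]
    exact hlin _ _ _

/-- matrices of the operators `θ^z` -/
noncomputable def tz (θ : F →L[ℂ] F) (o : Fin n → Cfg d → F) : Matrix (Fin n) (Fin n) ℂ :=
  Matrix.of fun j k => ∫ x, inner ℂ (o j x) (θ (o k x))

lemma tz_herm {θ : F →L[ℂ] F} (hθ : ∀ v w : F, inner ℂ (θ v) w = inner ℂ v (θ w)) (o : Fin n → Cfg d → F) :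
    star (tz θ o) = tz θ o := by
  ext j k
  rw [Matrix.star_apply]
  simp only [tz, Matrix.of_apply, RCLike.star_def]
  rw [← integral_conj]
  refine integral_congr_ae (ae_of_all _ fun x => ?_)
  simp only [inner_conj_symm, hθ]

lemma tz_ae {θ : F →L[ℂ] F} {o : Fin n → Cfg d → F} (ho : ∀ j, MemLp (o j) 2 (volume : Measure (Cfg d)))
    (hO : ∀ j k, ∫ x, inner ℂ (o j x) (o k x) = if j = k then 1 else 0)
    (hf : ∀ k, ∃ c : Fin n → ℂ, ∀ᵐ s ∂(volume : Measure (Cfg d)), θ (o k s) = ∑ j, c j • o j s) (k : Fin n) :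
    ∀ᵐ s ∂(volume : Measure (Cfg d)), θ (o k s) = ∑ j, tz θ o j k • o j s := by
  obtain ⟨c, hc⟩ := hf k
  filter_upwards [hc] with s hs
  rw [hs]
  refine Finset.sum_congr rfl fun j _ => ?_
  rw [tz, Matrix.of_apply, coef ho hO hc j]

lemma tz_mul {θ θ' : F →L[ℂ] F} {o : Fin n → Cfg d → F} (ho : ∀ j, MemLp (o j) 2 (volume : Measure (Cfg d)))
    (hO : ∀ j k, ∫ x, inner ℂ (o j x) (o k x) = if j = k then 1 else 0)
    (hf : ∀ k, ∃ c : Fin n → ℂ, ∀ᵐ s ∂(volume : Measure (Cfg d)), θ (o k s) = ∑ j, c j • o j s)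
    (hf' : ∀ k, ∃ c : Fin n → ℂ, ∀ᵐ s ∂(volume : Measure (Cfg d)), θ' (o k s) = ∑ j, c j • o j s) (k : Fin n) :
    ∀ᵐ s ∂(volume : Measure (Cfg d)), θ (θ' (o k s)) = ∑ i, (tz θ o * tz θ' o) i k • o i s := by
  have h1 := tz_ae ho hO hf' k
  have h2 : ∀ᵐ s ∂(volume : Measure (Cfg d)), ∀ j, θ (o j s) = ∑ i, tz θ o i j • o i s :=
    ae_all_iff.2 fun j => tz_ae ho hO hf j
  filter_upwards [h1, h2] with s hs1 hs2
  rw [hs1, map_sum]
  simp only [map_smul, hs2, Finset.smul_sum, smul_smul, Matrix.mul_apply, Finset.sum_smul]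
  rw [Finset.sum_comm]
  refine Finset.sum_congr rfl fun i _ => Finset.sum_congr rfl fun j _ => ?_
  rw [mul_comm]

lemma tz_anti {θ θ' : F →L[ℂ] F} {o : Fin n → Cfg d → F} (ho : ∀ j, MemLp (o j) 2 (volume : Measure (Cfg d)))
    (hO : ∀ j k, ∫ x, inner ℂ (o j x) (o k x) = if j = k then 1 else 0)
    (hf : ∀ k, ∃ c : Fin n → ℂ, ∀ᵐ s ∂(volume : Measure (Cfg d)), θ (o k s) = ∑ j, c j • o j s)
    (hf' : ∀ k, ∃ c : Fin n → ℂ, ∀ᵐ s ∂(volume : Measure (Cfg d)), θ' (o k s) = ∑ j, c j • o j s) (z : ℂ)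
    (ha : ∀ v, θ (θ' v) + θ' (θ v) = z • v) : tz θ o * tz θ' o + tz θ' o * tz θ o = z • 1 := by
  ext i k
  have h1 := tz_mul ho hO hf hf' k
  have h2 := tz_mul ho hO hf' hf k
  have h3 : ∀ᵐ s ∂(volume : Measure (Cfg d)), z • o k s =
      ∑ i, (tz θ o * tz θ' o + tz θ' o * tz θ o) i k • o i s := by
    filter_upwards [h1, h2] with s hs1 hs2
    simp only [Matrix.add_apply, add_smul, Finset.sum_add_distrib]
    rw [← hs1, ← hs2, ha]
  have h4 : ∀ᵐ s ∂(volume : Measure (Cfg d)), z • o k s =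
      ∑ i, (z • (1 : Matrix (Fin n) (Fin n) ℂ)) i k • o i s := by
    refine ae_of_all _ fun s => ?_
    simp only [Matrix.smul_apply, Matrix.one_apply, smul_eq_mul, mul_ite, mul_one, mul_zero, ite_smul, zero_smul,
      Finset.sum_ite_eq', Finset.mem_univ, if_true]
  rw [← coef ho hO h3 i, coef ho hO h4 i]

/-- the flat Clifford system of the centre fermions -/
noncomputable def TT (S : Setup d F) (θ : Fin 16 → Fin r → F →L[ℂ] F) (o : Fin n → Cfg ds → F)
    (hsa : ∀ α A (v w : F), inner ℂ (θ α A v) w = inner ℂ v (θ α A w))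
    (han : ∀ α A β B, tz (θ α A) o * tz (θ β B) o + tz (θ β B) o * tz (θ α A) o =
      (if α = β ∧ A = B then (1 : ℂ) else 0) • 1) : Setup r (Ek n) where
  g := S.g
  g_symm := S.g_symm
  g_anti := S.g_anti
  th := fun α A => Matrix.toEuclideanCLM (𝕜 := ℂ) (tz (θ α A) o)
  th_anti := by
    intro α A β B
    rw [← map_mul, ← map_mul, ← map_add, han]
    split_ifs with h
    · rw [one_smul, map_one]
    · rw [zero_smul, map_zero]
  κ := 1
  κ_pos := one_pos
  f := fun _ _ _ => 0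
  f_swap := by simp
  f_cyc := by simp
  f_jac := by simp
  g_real := S.g_real
  th_sa := by
    intro α A v w
    have h1 : star (Matrix.toEuclideanCLM (𝕜 := ℂ) (tz (θ α A) o)) = Matrix.toEuclideanCLM (𝕜 := ℂ) (tz (θ α A) o) := by
      rw [← map_star, tz_herm (hsa α A)]
    rw [ContinuousLinearMap.star_eq_adjoint] at h1
    conv_lhs => rw [← h1]
    exact ContinuousLinearMap.adjoint_inner_left _ _ _

end Dat533

open Dat533 in
/-- **L-Dat** -/
theorem dat_of (S : Setup d F) : DatOfStmt S := by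
  intro hBun hRoot hZ hfin dh dm r ds φ ψ z₀ h hIC
  obtain ⟨Kc, E, l, hRD⟩ := hRoot r dm (AX.Mz S φ (spsw ψ)) _ (AX.tor_Mz h)
  have hB := hBun dh dm φ hfin r (AX.Mz S φ (spsw ψ)) _ Kc E l hRD
  have hcen : S.IsCen φ ψ := fun a B C => h.cen a B C
  obtain ⟨n, o, ho, hz, hO, hK, hfull⟩ := basis h.ss (hZ ds h.ss).1 (hZ ds h.ss).2 hIC
    (S.Kr φ (1 - Complex.I • S.J0 Kc))
  have hf : ∀ α (A : Fin r) k, ∃ c : Fin n → ℂ, ∀ᵐ s ∂(volume : Measure (Cfg ds)),
      S.th α (φ (Sum.inl (ψ (Sum.inl A)))) (o k s) = ∑ j, c j • o j s := by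
    intro α A k
    refine hfull (fun s => S.th α (φ (Sum.inl (ψ (Sum.inl A)))) (o k s)) ?_ ?_
    · refine (hZ ds h.ss).1.2.2.2.2 _ (Or.inr ?_) _ (hz k)
      intro β B
      have h1 := S.th_anti α (φ (Sum.inl (ψ (Sum.inl A)))) β (φ (Sum.inl (ψ (Sum.inr B))))
      rw [if_neg] at h1
      · exact eq_neg_of_add_eq_zero_left h1
      · simp
    · filter_upwards [hK k] with s hs
      exact hB.K_th α (ψ (Sum.inl A)) _ hs
  have han : ∀ α (A : Fin r) β (B : Fin r), tz (S.th α (φ (Sum.inl (ψ (Sum.inl A))))) o *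
      tz (S.th β (φ (Sum.inl (ψ (Sum.inl B))))) o + tz (S.th β (φ (Sum.inl (ψ (Sum.inl B))))) o *
      tz (S.th α (φ (Sum.inl (ψ (Sum.inl A))))) o = (if α = β ∧ A = B then (1 : ℂ) else 0) • 1 := by
    intro α A β B
    refine tz_anti ho hO (hf α A) (hf β B) _ fun v => ?_
    have h1 := congrArg (fun T : F →L[ℂ] F => T v)
      (S.th_anti α (φ (Sum.inl (ψ (Sum.inl A)))) β (φ (Sum.inl (ψ (Sum.inl B)))))
    have h2 : (α = β ∧ φ (Sum.inl (ψ (Sum.inl A))) = φ (Sum.inl (ψ (Sum.inl B)))) ↔ α = β ∧ A = B := by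
      simp
    simp only [h2] at h1
    refine h1.trans ?_
    split_ifs <;> simp
  exact ⟨Finset.univ.image l, OmE S.κ E l, S.Kr φ (1 - Complex.I • S.J0 Kc), S.UU φ E l, n, o,
    TT S (fun α A => S.th α (φ (Sum.inl (ψ (Sum.inl A))))) o (fun α A => S.th_sa α _) han,
    { sub := h.std.sub
      cen := hcen
      bun := hB
      mem := ho
      zm := hz
      ort := hO
      val := hK
      gam := rfl
      thT := by
        intro α A k
        filter_upwards [tz_ae ho hO (hf α A) k] with s hs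
        rw [hs]
        refine Finset.sum_congr rfl fun j _ => ?_
        congr 1
        simp [TT]
      full := hfull }⟩

end Vale.Agent.P353.Z.AL
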