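import Vale.Agent.P353.AN.L.StmtB

/-! # P353, all `N`, block L: the limit equation (helper876) -/

open MeasureTheory Filter Topology Matrix
open scoped ContDiff

namespace Vale.Agent.P353.Z.AL

variable {d dh dm r ds n : ℕ} {F : Type*} [NormedAddCommGroup F] [InnerProductSpace ℂ F]

lemma leq_shell {A : Set (Cfg r)} (hA : IsCompact A) (h0 : (0 : Cfg r) ∉ A) :
    ∃ s t : ℝ, 0 < s ∧ s < t ∧ A ⊆ AD.shl r s t := by
  rcases A.eq_empty_or_nonempty with rfl | hne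
  · exact ⟨1, 2, one_pos, one_lt_two, Set.empty_subset _⟩
  obtain ⟨x, hx, hmin⟩ := hA.exists_isMinOn hne continuous_norm.continuousOn
  obtain ⟨y, hy, hmax⟩ := hA.exists_isMaxOn hne continuous_norm.continuousOn
  have hx0 : 0 < ‖x‖ := norm_pos_iff.2 fun h => h0 (h ▸ hx)
  have hxy : ‖x‖ ≤ ‖y‖ := hmax hx
  refine ⟨‖x‖ / 2, ‖y‖ + 1, by positivity, by linarith, fun z hz => ⟨?_, ?_⟩⟩
  · have h1 : ‖x‖ ≤ ‖z‖ := hmin hz
    linarith
  · have h1 : ‖z‖ ≤ ‖y‖ := hmax hz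
    linarith

lemma leq_ZZ_smul (κ : ℝ) (φ : Spl dh dm d) (ψ : Spl r ds dh) (Om : Cfg r → Matrix (Fin dm) (Fin dm) ℝ)
    (a : Cfg r → Cfg ds → F) (R : ℝ) (c : ℂ) (u : Cfg d → F) :
    ZZ κ φ ψ Om a R (fun x => c • u x) = c * ZZ κ φ ψ Om a R u := by
  simp only [ZZ, inner_smul_right]
  exact integral_const_mul _ _

lemma leq_ZZ_zero (κ : ℝ) (φ : Spl dh dm d) (ψ : Spl r ds dh) (Om : Cfg r → Matrix (Fin dm) (Fin dm) ℝ)
    (R : ℝ) (u : Cfg d → F) : ZZ κ φ ψ Om (fun _ _ => (0 : F)) R u = 0 := by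
  simp [ZZ, AN.Zb, AN.bG]

lemma leq_mas (S : Setup d F) (R : ℝ) (β : Fin 16) (u : Cfg d → F) (A : Set (Cfg d)) :
    AD.mas (fun x => ((R : ℝ) : ℂ) • S.Q β u x) A = R ^ 2 * ∫ x in A, ‖S.Q β u x‖ ^ 2 := by
  rw [AD.mas, ← integral_const_mul]
  congr 1
  funext x
  rw [norm_smul, mul_pow, Complex.norm_real, Real.norm_eq_abs, sq_abs]

lemma leq_mas_le (S : Setup d F) (R : ℝ) (β : Fin 16) (u : Cfg d → F) (A : Set (Cfg d)) :
    AD.mas (fun x => ((R : ℝ) : ℂ) • S.Q β u x) A ≤ R ^ 2 * AD.ena S u A := by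
  rw [leq_mas]
  refine mul_le_mul_of_nonneg_left ?_ (sq_nonneg _)
  exact Finset.single_le_sum (f := fun β => ∫ x in A, ‖S.Q β u x‖ ^ 2)
    (fun β _ => integral_nonneg fun x => sq_nonneg _) (Finset.mem_univ β)

omit [InnerProductSpace ℂ F] in
lemma leq_mas_nonneg (u : Cfg d → F) (A : Set (Cfg d)) : 0 ≤ AD.mas u A :=
  integral_nonneg fun _ => sq_nonneg _

lemma leq_ena_nonneg (S : Setup d F) (u : Cfg d → F) (A : Set (Cfg d)) : 0 ≤ AD.ena S u A :=
  Finset.sum_nonneg fun _ _ => integral_nonneg fun _ => sq_nonneg _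

lemma leq_tend {z : ℕ → ℂ} {c : ℝ} {m : ℕ → ℝ} (hm : Tendsto m atTop (𝓝 0))
    (h : ∀ e : ℝ, 0 < e → ∀ᶠ k in atTop, ‖z k‖ ≤ c * Real.sqrt (m k) + e) : Tendsto z atTop (𝓝 0) := by
  rw [Metric.tendsto_nhds]
  intro e he
  have h1 : Tendsto (fun k => c * Real.sqrt (m k)) atTop (𝓝 (c * Real.sqrt 0)) :=
    ((Real.continuous_sqrt.tendsto 0).comp hm).const_mul c
  rw [Real.sqrt_zero, mul_zero] at h1
  have h2 : ∀ᶠ k in atTop, c * Real.sqrt (m k) < e / 2 := h1.eventually_lt_const (by linarith)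
  filter_upwards [h (e / 2) (by linarith), h2] with k hk hk2
  rw [dist_zero_right]
  linarith

lemma leq_QN (S : Setup d F) (N : Fin 9 → Matrix (Fin 16) (Fin 16) ℂ) (x : ℝ) (β : Fin 16) (u : Cfg d → F) :
    AE.QN S N (0 / x) β u = S.Q β u := by
  funext y
  simp [AE.QN]

lemma leq_ginv {S : Setup d F} {u : Cfg d → F} (h : AD.GInv S u) : AE.GI S u := ⟨h.1, h.2⟩

lemma leq_ginvQ {S : Setup d F} (hQ : AE.QInvStmt S) {u : Cfg d → F} (h : AD.GInv S u) (R : ℝ) (β : Fin 16) :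
    AD.GInv S (fun x => ((R : ℝ) : ℂ) • S.Q β u x) := by
  have h1 := hQ (AN.N0 S) (0 / 1) β u (leq_ginv h)
  rw [leq_QN] at h1
  have h0 : HasCompactSupport (fun x => ((R : ℝ) : ℂ) • S.Q β u x) := by
    refine h1.tst.2.mono fun x hx => ?_
    rw [Function.mem_support] at hx ⊢
    exact fun h => hx (by rw [h, smul_zero])
  refine ⟨⟨contDiff_const.smul h1.tst.1, h0⟩, fun C x => ?_⟩
  have h2 := h1.inv C x
  have h3 : ∀ i B, pd i B (fun y => ((R : ℝ) : ℂ) • S.Q β u y) x = ((R : ℝ) : ℂ) • pd i B (S.Q β u) x := by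
    intro i B
    rw [pd_csmul (differentiableAt_const _) (h1.tst.diff x)]
    simp
  have h4 : S.G C (fun y => ((R : ℝ) : ℂ) • S.Q β u y) x = ((R : ℝ) : ℂ) • S.G C (S.Q β u) x := by
    simp only [Setup.G, h3, map_smul, smul_add, Finset.smul_sum]
    simp only [smul_comm ((R : ℝ) : ℂ)]
  rw [h4, h2, smul_zero]

/-! ### sharp cutoffs are admissible -/

lemma leq_meas_chi (R : ℝ) : Measurable (chi R : Cfg r × Cfg ds × Cfg dm → ℝ) := by
  classical
  unfold chi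
  refine Measurable.ite ?_ measurable_const measurable_const
  have h1 : IsClosed {q : Cfg r × Cfg ds × Cfg dm | ‖q.2.1‖ ≤ Real.sqrt R} :=
    isClosed_le (continuous_norm.comp (continuous_fst.comp continuous_snd)) continuous_const
  have h2 : IsClosed {q : Cfg r × Cfg ds × Cfg dm | ‖q.2.2‖ ≤ R} :=
    isClosed_le (continuous_norm.comp (continuous_snd.comp continuous_snd)) continuous_const
  exact (h1.inter h2).measurableSet

lemma leq_cutA {R : ℕ → ℝ} {δ : ℝ} (hδ : 0 < δ) (hR : Tendsto R atTop atTop) (h1 : ∀ k, 1 ≤ R k)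
    (h2 : ∀ k, 1 ≤ δ ^ 2 * R k) :
    AE.CutA (r := r) (ds := ds) (dm := dm) δ R (fun k => chi (R k)) where
  meas := fun k => leq_meas_chi _
  bd := fun k q => by
    unfold chi
    split_ifs
    · exact ⟨zero_le_one, le_rfl⟩
    · exact ⟨le_rfl, zero_le_one⟩
  lim := fun q => by
    have h3 : ∀ᶠ k in atTop, ‖q.2.1‖ ^ 2 ≤ R k := hR.eventually_ge_atTop _
    have h4 : ∀ᶠ k in atTop, ‖q.2.2‖ ≤ R k := hR.eventually_ge_atTop _
    refine tendsto_const_nhds.congr' ?_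
    filter_upwards [h3, h4] with k hk hk'
    unfold chi
    rw [if_pos]
    exact ⟨Real.le_sqrt_of_sq_le hk, hk'⟩
  sup := fun k q hq => by
    unfold chi at hq
    split_ifs at hq with h
    · have hR0 : 0 ≤ R k := zero_le_one.trans (h1 k)
      have hs : 0 ≤ Real.sqrt (R k) := Real.sqrt_nonneg _
      have hss : Real.sqrt (R k) * Real.sqrt (R k) = R k := Real.mul_self_sqrt hR0
      have h5 : 1 ≤ δ * Real.sqrt (R k) := by
        by_contra hlt
        have h6 : δ * Real.sqrt (R k) < 1 := not_le.1 hlt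
        have h7 : 0 ≤ δ * Real.sqrt (R k) := by positivity
        have h8 : (δ * Real.sqrt (R k)) * (δ * Real.sqrt (R k)) < 1 := by nlinarith
        have h9 : (δ * Real.sqrt (R k)) * (δ * Real.sqrt (R k)) = δ ^ 2 * R k := by
          calc (δ * Real.sqrt (R k)) * (δ * Real.sqrt (R k)) = δ ^ 2 * (Real.sqrt (R k) * Real.sqrt (R k)) := by ring
            _ = δ ^ 2 * R k := by rw [hss]
        linarith [h2 k]
      refine ⟨h.1.trans ?_, h.2.trans ?_⟩
      · nlinarith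
      · nlinarith
    · exact absurd rfl hq

/-! ### the section `U DF_β (ζ o_j)` -/

lemma leq_vec (S : Setup d F) {φ : Spl dh dm d} {ψ : Spl r ds dh} {L : Finset (Fin r → ℝ)}
    {Om : Cfg r → Matrix (Fin dm) (Fin dm) ℝ} {K : Submodule ℂ F} {U : Cfg r → F →L[ℂ] F} {o : Fin n → Cfg ds → F}
    {T : Setup r (Ek n)} (D : Dat S φ ψ L Om K U o T) (j : Fin n) (β : Fin 16) :
    ∀ᵐ s ∂(volume : Measure (Cfg ds)), ∀ i A, S.vec (S.g i) (φ (Sum.inl (ψ (Sum.inl A)))) β (o j s) =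
      ∑ k, (T.vec (T.g i) A β (EuclideanSpace.single j 1)) k • o k s := by
  have h1 : ∀ᵐ s ∂(volume : Measure (Cfg ds)), ∀ α A, S.th α (φ (Sum.inl (ψ (Sum.inl A)))) (o j s) =
      ∑ k, (T.th α A (EuclideanSpace.single j 1)) k • o k s := by
    rw [ae_all_iff]
    intro α
    rw [ae_all_iff]
    intro A
    exact D.thT α A j
  filter_upwards [h1] with s hs i A
  simp only [CS.vec, _root_.sum_apply, _root_.smul_apply, hs, D.gam]
  simp only [Finset.smul_sum, smul_smul]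
  rw [Finset.sum_comm]
  refine Finset.sum_congr rfl fun k _ => ?_
  rw [← Finset.sum_smul]
  congr 1

lemma leq_sec (S : Setup d F) {φ : Spl dh dm d} {ψ : Spl r ds dh} {L : Finset (Fin r → ℝ)}
    {Om : Cfg r → Matrix (Fin dm) (Fin dm) ℝ} {K : Submodule ℂ F} {U : Cfg r → F →L[ℂ] F} {o : Fin n → Cfg ds → F}
    {T : Setup r (Ek n)} (D : Dat S φ ψ L Om K U o T) (j : Fin n) (β : Fin 16) {ζ : Cfg r → ℂ}
    (hζ : ContDiff ℝ ∞ ζ) (N : Fin 9 → Matrix (Fin 16) (Fin 16) ℂ) :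
    ∀ᵐ s ∂(volume : Measure (Cfg ds)), ∀ η, U η (S.DF φ ψ N 0 β (pp ζ (o j)) η s) =
      sc U o (T.Q0 β (fun η => ζ η • EuclideanSpace.single j (1 : ℂ))) η s := by
  filter_upwards [leq_vec S D j β] with s hs η
  have hd : DifferentiableAt ℝ ζ η := (hζ.differentiable (by simp)) η
  have h1 : ∀ i A, pd i A (fun y' => pp ζ (o j) y' s) η = (pd i A ζ η) • o j s := by
    intro i A
    have h2 := pd_csmul (i := i) (A := A) (c := ζ) (u := fun _ : Cfg r => o j s) hd (differentiableAt_const _)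
    rw [show pd i A (fun _ : Cfg r => o j s) η = 0 by simp [pd], smul_zero, add_zero] at h2
    exact h2
  have h3 : ∀ i A, pd i A (fun η => ζ η • (EuclideanSpace.single j (1 : ℂ) : Ek n)) η =
      (pd i A ζ η) • EuclideanSpace.single j (1 : ℂ) := by
    intro i A
    have h2 := pd_csmul (i := i) (A := A) (c := ζ) (u := fun _ : Cfg r => (EuclideanSpace.single j (1 : ℂ) : Ek n)) hd
      (differentiableAt_const _)
    rw [show pd i A (fun _ : Cfg r => (EuclideanSpace.single j (1 : ℂ) : Ek n)) η = 0 by simp [pd], smul_zero,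
      add_zero] at h2
    exact h2
  simp only [Setup.DF, h1, Complex.ofReal_zero, zero_smul, add_zero, map_smul, map_sum, hs, sc, Setup.Q0, h3,
    PiLp.smul_apply, smul_eq_mul]
  have h4 : ∀ k, (∑ i, ∑ A, (pd i A ζ η) • T.vec (T.g i) A β (EuclideanSpace.single j (1 : ℂ))) k =
      ∑ i, ∑ A, pd i A ζ η * (T.vec (T.g i) A β (EuclideanSpace.single j (1 : ℂ))) k := by
    intro k
    simp
  simp only [h4, Finset.smul_sum, Finset.mul_sum, Finset.sum_smul, smul_smul]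
  have h5 : ∀ i : Fin 9, (∑ A : Fin r, ∑ k : Fin n, (-Complex.I * (pd i A ζ η *
      (T.vec (T.g i) A β (EuclideanSpace.single j (1 : ℂ))) k)) • U η (o k s)) = ∑ k : Fin n, ∑ A : Fin r,
      (-Complex.I * (pd i A ζ η * (T.vec (T.g i) A β (EuclideanSpace.single j (1 : ℂ))) k)) • U η (o k s) :=
    fun i => Finset.sum_comm
  simp only [h5]
  rw [Finset.sum_comm]

/-! ### assembly -/

lemma leq_Q0_off (T : Setup r (Ek n)) (β : Fin 16) {b : Cfg r → Ek n} {x : Cfg r} (hx : x ∉ tsupport b) :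
    T.Q0 β b x = 0 := by
  have h : fderiv ℝ b x = 0 := by
    by_contra h
    exact hx (support_fderiv_subset ℝ h)
  simp [Setup.Q0, pd, h]

lemma leq_tstQ0 (T : Setup r (Ek n)) (β : Fin 16) {b : Cfg r → Ek n} (hb : Setup.Tst b) :
    Setup.Tst (T.Q0 β b) := by
  refine ⟨?_, HasCompactSupport.intro hb.2 fun x hx => leq_Q0_off T β hx⟩
  have h : T.Q0 β b = fun x => (-Complex.I) • ∑ i, ∑ A, T.vec (T.g i) A β (pd i A b x) := rfl
  rw [h]
  exact (contDiff_const (c := -Complex.I)).smul (ContDiff.sum fun i _ => ContDiff.sum fun A _ =>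
    ((T.vec (T.g i) A β).restrictScalars ℝ).contDiff.comp (contDiff_pd hb.1))

lemma leq_Rg (S : Setup d F) {φ : Spl dh dm d} {ψ : Spl r ds dh} {L : Finset (Fin r → ℝ)}
    {Om : Cfg r → Matrix (Fin dm) (Fin dm) ℝ} {K : Submodule ℂ F} {U : Cfg r → F →L[ℂ] F}
    (hB : AX.Bun S φ (AX.Mz S φ (spsw ψ)) L Om K U) {η : Cfg r} (h : η ∉ Coll L) : η ∈ Rg S φ ψ := by
  have h1 := hB.det η h
  rw [AX.DM_Dz] at h1
  exact h1

lemma leq_one (S : Setup d F) {φ : Spl dh dm d} {ψ : Spl r ds dh} {L : Finset (Fin r → ℝ)}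
    {Om : Cfg r → Matrix (Fin dm) (Fin dm) ℝ} {K : Submodule ℂ F} {U : Cfg r → F →L[ℂ] F} {o : Fin n → Cfg ds → F}
    {T : Setup r (Ek n)}
    (hG : ∀ (dh dm r ds : ℕ) (φ : Spl dh dm d) (ψ : Spl r ds dh), AE.GLimLStmt S φ ψ)
    (hFr : AN.FrameStmt S) (hQ : AE.QInvStmt S) (hZm : ∀ (e : ℕ) (T : Setup e F), AE.ZmStmt T)
    (hUB : UBStmt S) (hLin : LinStmt S) (hIso : IsoStmt S) (hF : FiniteDimensional ℂ F) (hc : AN.Cless S)
    {z₀ : Cfg r} (h2 : AD.Std2 S φ (spsw ψ) z₀) (D : Dat S φ ψ L Om K U o T) {R : ℕ → ℝ}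
    {u : ℕ → Cfg d → F} (hS : AD.Sq S R u) (hV : VanE S R u) (β : Fin 16) {ζ : Cfg r → ℂ}
    (hζ : ContDiff ℝ ∞ ζ) (hζc : HasCompactSupport ζ) (hζL : Disjoint (tsupport ζ) (Coll L))
    (hζ0 : (0 : Cfg r) ∉ tsupport ζ) (j : Fin n) :
    Sec2 (tsupport ζ) (sc U o (T.Q0 β (fun η => ζ η • EuclideanSpace.single j (1 : ℂ)))) ∧
    Tendsto (fun k => ZZ S.κ φ ψ Om (sc U o (T.Q0 β (fun η => ζ η • EuclideanSpace.single j (1 : ℂ))))
      (R k) (u k)) atTop (𝓝 0) := by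
  have hAc : IsCompact (tsupport ζ) := hζc
  obtain ⟨s, t, hs, hst, hA⟩ := leq_shell hAc hζ0
  have hAL : tsupport ζ ⊆ (Coll L)ᶜ := hζL.subset_compl_right
  have hARg : tsupport ζ ⊆ Rg S φ ψ := fun η hη => leq_Rg S D.bun (hAL hη)
  have hb0T : Setup.Tst (fun η => ζ η • (EuclideanSpace.single j (1 : ℂ) : Ek n)) :=
    ⟨hζ.smul contDiff_const, hζc.smul_right⟩
  have hb0s : tsupport (fun η => ζ η • (EuclideanSpace.single j (1 : ℂ) : Ek n)) ⊆ tsupport ζ :=
    tsupport_smul_subset_left _ _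
  generalize hb0 : (fun η => ζ η • (EuclideanSpace.single j (1 : ℂ) : Ek n)) = b0 at hb0T hb0s ⊢
  have hb1T : Setup.Tst (T.Q0 β b0) := leq_tstQ0 T β hb0T
  have hb1z : ∀ x, x ∉ tsupport ζ → T.Q0 β b0 x = 0 := fun x hx => leq_Q0_off T β fun h => hx (hb0s h)
  have hs0 : Sec2 (tsupport ζ) (sc U o b0) :=
    (hIso dh dm r ds n φ ψ L Om K U o T D (tsupport ζ) hAc hAL b0
      (hb0T.1.continuous.memLp_of_hasCompactSupport hb0T.2) fun x hx => by
        rw [← hb0]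
        simp only [image_eq_zero_of_notMem_tsupport hx, zero_smul]).1
  have hs1 : Sec2 (tsupport ζ) (sc U o (T.Q0 β b0)) :=
    (hIso dh dm r ds n φ ψ L Om K U o T D (tsupport ζ) hAc hAL (T.Q0 β b0)
      (hb1T.1.continuous.memLp_of_hasCompactSupport hb1T.2) hb1z).1
  refine ⟨hs1, ?_⟩
  have e0 : (fun η s => U η (pp ζ (o j) η s)) = sc U o b0 := by
    funext η s
    rw [← hb0]
    simp [pp, sc]
  have hs2 : ∃ a1 : Cfg r → Cfg ds → F, (a1 = fun η s => U η (S.DF φ ψ (AN.N0 S) 0 β (pp ζ (o j)) η s)) ∧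
      (∀ᵐ q : Cfg r × Cfg ds ∂(volume.prod volume), a1 q.1 q.2 = sc U o (T.Q0 β b0) q.1 q.2) ∧
      Sec2 (tsupport ζ) a1 := by
    have hae : ∀ᵐ q : Cfg r × Cfg ds ∂(volume.prod volume),
        U q.1 (S.DF φ ψ (AN.N0 S) 0 β (pp ζ (o j)) q.1 q.2) = sc U o (T.Q0 β b0) q.1 q.2 := by
      have h := leq_sec S D j β hζ (AN.N0 S)
      rw [hb0] at h
      exact (Measure.quasiMeasurePreserving_snd.ae h).mono fun q hq => hq q.1
    refine ⟨_, rfl, hae, hs1.1.ae_eq (hae.mono fun q hq => hq.symm), fun η s h => ?_⟩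
    by_contra hη
    apply h
    have h3 : fderiv ℝ ζ η = 0 := by
      by_contra h3
      exact hη (support_fderiv_subset ℝ h3)
    have h1 : ∀ i A, pd i A (fun y' => pp ζ (o j) y' s) η = 0 := by
      intro i A
      have h2 := pd_csmul (i := i) (A := A) (c := ζ) (u := fun _ : Cfg r => o j s)
        ((hζ.differentiable (by simp)) η) (differentiableAt_const _)
      rw [h3, image_eq_zero_of_notMem_tsupport hη] at h2
      simpa [pp] using h2
    simp [Setup.DF, h1]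
  obtain ⟨a1, ha1, hae, hs2⟩ := hs2
  have hM : SqM S R u := ⟨hS.inv, hS.pos, hS.lim, fun s t hs hst => by
    obtain ⟨C, hC⟩ := hS.bd s t hs hst
    exact ⟨C, fun k => le_trans (le_add_of_nonneg_right
      (mul_nonneg (sq_nonneg _) (leq_ena_nonneg _ _ _))) (hC k)⟩⟩
  have hM' : SqM S R (fun k x => ((R k : ℝ) : ℂ) • S.Q β (u k) x) :=
    ⟨fun k => leq_ginvQ hQ (hS.inv k) _ β, hS.pos, hS.lim, fun s t hs hst => by
      obtain ⟨C, hC⟩ := hS.bd s t hs hst
      exact ⟨C, fun k => (leq_mas_le S _ β _ _).trans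
        (le_trans (le_add_of_nonneg_left (leq_mas_nonneg _ _)) (hC k))⟩⟩
  obtain ⟨C, hC, hUB'⟩ := hUB hF hc dh dm r ds φ ψ z₀ h2 L Om K U D.bun
  have H1 : Tendsto (fun k => ((R k : ℝ) : ℂ) * ZZ S.κ φ ψ Om (sc U o b0) (R k) (S.Q β (u k))) atTop (𝓝 0) := by
    have h3 : Tendsto (fun k => AD.mas (fun x => ((R k : ℝ) : ℂ) • S.Q β (u k) x)
        (AD.shl d (s * R k) (t * R k))) atTop (𝓝 0) :=
      squeeze_zero (fun k => leq_mas_nonneg _ _) (fun k => leq_mas_le S _ β _ _) (hV s t hs hst)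
    have h4 := leq_tend (c := C * Real.sqrt (n2 (sc U o b0))) h3
      (fun e he => hUB' s t hs hst _ hAc hA hARg R _ hM' _ hs0 e he)
    exact h4.congr fun k => leq_ZZ_smul _ _ _ _ _ _ _ _
  have H2 : Tendsto (fun k => ZZ S.κ φ ψ Om (sc U o (T.Q0 β b0)) (R k) (u k) -
      ZZ S.κ φ ψ Om a1 (R k) (u k)) atTop (𝓝 0) := by
    have hc2 : Sec2 (tsupport ζ) (fun η s => sc U o (T.Q0 β b0) η s - a1 η s) := by
      refine ⟨hs1.1.sub hs2.1, fun η s h => ?_⟩
      by_contra hη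
      apply h
      have h3 : sc U o (T.Q0 β b0) η s = 0 := by
        by_contra h3
        exact hη (hs1.2 η s h3)
      have h4 : a1 η s = 0 := by
        by_contra h4
        exact hη (hs2.2 η s h4)
      change sc U o (T.Q0 β b0) η s - a1 η s = 0
      rw [h3, h4, sub_zero]
    have hn : n2 (fun η s => sc U o (T.Q0 β b0) η s - a1 η s) = 0 := by
      rw [n2]
      refine integral_eq_zero_of_ae (hae.mono fun q hq => ?_)
      change ‖sc U o (T.Q0 β b0) q.1 q.2 - a1 q.1 q.2‖ ^ 2 = 0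
      rw [hq, sub_self, norm_zero]
      norm_num
    have h5 : ∀ k, ZZ S.κ φ ψ Om (fun η s => sc U o (T.Q0 β b0) η s - a1 η s) (R k) (u k) =
        ZZ S.κ φ ψ Om (sc U o (T.Q0 β b0)) (R k) (u k) - ZZ S.κ φ ψ Om a1 (R k) (u k) := by
      intro k
      have h6 := (hLin hF dh dm r ds φ ψ L Om K U D.bun _ hAc hARg (R k) (hS.pos k) (u k)
        (hS.inv k).1).2.1 _ _ hc2 hs2
      simp only [sub_add_cancel] at h6
      rw [eq_sub_iff_add_eq]
      exact h6.symm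
    refine Tendsto.congr h5 ?_
    refine leq_tend (c := 0) (m := fun _ => 0) tendsto_const_nhds fun e he => ?_
    have h6 := hUB' s t hs hst _ hAc hA hARg R u hM _ hc2 e he
    rw [hn] at h6
    simpa using h6
  obtain ⟨δ, hδ, hG'⟩ := hG dh dm r ds φ ψ hF D.sub D.cen (AN.N0 S) hFr.1 L Om K U D.bun ζ hζ hζc hζL hζ0
  have hIZ : AE.IZm (S.int φ ψ D.sub D.cen) K (o j) :=
    hZm ds (S.int φ ψ D.sub D.cen) hF K (fun α A v hv => D.bun.K_th α (ψ (Sum.inr A)) v hv) (o j) (D.zm j)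
      (D.mem j) (D.val j)
  obtain ⟨m0, hm0⟩ := (hS.lim.eventually_ge_atTop (max 1 (1 / δ ^ 2))).exists_forall_of_atTop
  have hlim : Tendsto (fun k => R (k + m0)) atTop atTop := hS.lim.comp (tendsto_add_atTop_nat m0)
  have hone : ∀ k, 1 ≤ R (k + m0) := fun k => (le_max_left _ _).trans (hm0 _ (Nat.le_add_left _ _))
  have htwo : ∀ k, 1 ≤ δ ^ 2 * R (k + m0) := fun k => by
    have h3 : 1 / δ ^ 2 ≤ R (k + m0) := (le_max_right _ _).trans (hm0 _ (Nat.le_add_left _ _))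
    rw [div_le_iff₀ (by positivity)] at h3
    linarith
  have H3 := hG' 0 le_rfl (o j) hIZ (fun k => R (k + m0)) (fun k => u (k + m0)) hone hlim
    (fun k => leq_ginv (hS.inv _)) (fun s t hs hst => by
      obtain ⟨C', hC'⟩ := hS.bd s t hs hst
      refine ⟨C', fun k => ?_⟩
      have h7 := hC' (k + m0)
      simp only [leq_QN]
      exact h7) (fun k => chi (R (k + m0))) (leq_cutA hδ hlim hone htwo) β
  simp only [leq_QN] at H3
  have H4 : Tendsto (fun k => ZZ S.κ φ ψ Om a1 (R (k + m0)) (u (k + m0))) atTop (𝓝 0) := by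
    have h8 := (H1.comp (tendsto_add_atTop_nat m0)).sub H3
    rw [sub_zero] at h8
    refine h8.congr fun k => ?_
    rw [ha1, ← e0]
    simp only [Function.comp_apply, ZZ, AE.ZL]
    ring
  have H5 := (tendsto_add_atTop_iff_nat (f := fun k => ZZ S.κ φ ψ Om a1 (R k) (u k)) m0).1 H4
  have H6 := H2.add H5
  rw [add_zero] at H6
  exact H6.congr fun k => sub_add_cancel _ _

lemma leq_ZZ_sum {κ : ℝ} {φ : Spl dh dm d} {ψ : Spl r ds dh} {Om : Cfg r → Matrix (Fin dm) (Fin dm) ℝ}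
    {R : ℝ} {u : Cfg d → F} {A : Set (Cfg r)}
    (hadd : ∀ a a' : Cfg r → Cfg ds → F, Sec2 A a → Sec2 A a' → ZZ κ φ ψ Om (fun η s => a η s + a' η s) R u =
      ZZ κ φ ψ Om a R u + ZZ κ φ ψ Om a' R u) {ι : Type*} (I : Finset ι) (a : ι → Cfg r → Cfg ds → F)
    (ha : ∀ i ∈ I, Sec2 A (a i)) :
    Sec2 A (fun η s => ∑ i ∈ I, a i η s) ∧
      ZZ κ φ ψ Om (fun η s => ∑ i ∈ I, a i η s) R u = ∑ i ∈ I, ZZ κ φ ψ Om (a i) R u := by
  classical
  induction I using Finset.induction_on with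
  | empty =>
    simp only [Finset.sum_empty]
    exact ⟨⟨MemLp.zero', fun η s h => absurd rfl h⟩, leq_ZZ_zero _ _ _ _ _ _⟩
  | insert i I hi ih =>
    obtain ⟨h1, h2⟩ := ih fun k hk => ha k (Finset.mem_insert_of_mem hk)
    have h3 := ha i (Finset.mem_insert_self _ _)
    simp only [Finset.sum_insert hi]
    refine ⟨⟨h3.1.add h1.1, fun η s h => ?_⟩, ?_⟩
    · by_contra hη
      apply h
      have h4 : a i η s = 0 := by
        by_contra h4
        exact hη (h3.2 η s h4)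
      have h5 : ∑ k ∈ I, a k η s = 0 := by
        by_contra h5
        exact hη (h1.2 η s h5)
      change a i η s + ∑ k ∈ I, a k η s = 0
      rw [h4, h5, add_zero]
    · rw [← h2]
      exact hadd _ _ h3 h1

theorem eq_of (S : Setup d F) : LEqOfStmt S := by
  intro hG hFr hQ hZm hUB hLin hIso hF hc dh dm r ds n φ ψ z₀ h2 L Om K U o T D R u hS hV β b hb
  have hbT : Setup.Tst b := hb.1.1
  have hbc : IsCompact (tsupport b) := hbT.2
  have hbL : tsupport b ⊆ (Coll L)ᶜ := hb.1.2.subset_compl_right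
  have hζ : ∀ j, ContDiff ℝ ∞ (fun η => b η j) := fun j => by
    exact ((EuclideanSpace.proj j : EuclideanSpace ℂ (Fin n) →L[ℂ] ℂ).restrictScalars ℝ).contDiff.comp hbT.1
  have hsub : ∀ j, tsupport (fun η => b η j) ⊆ tsupport b := fun j => by
    refine closure_mono fun η hη => ?_
    rw [Function.mem_support] at hη ⊢
    intro h
    exact hη (by rw [h]; rfl)
  have hζc : ∀ j, HasCompactSupport (fun η => b η j) := fun j =>
    hbc.of_isClosed_subset (isClosed_tsupport _) (hsub j)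
  have H : ∀ j, _ := fun j => leq_one S hG hFr hQ hZm hUB hLin hIso hF hc h2 D hS hV β (hζ j) (hζc j)
    (hb.1.2.mono_left (hsub j)) (fun h => hb.2 (hsub j h)) j
  have hbs : b = fun η => ∑ j, b η j • (EuclideanSpace.single j (1 : ℂ) : Ek n) := by
    funext η
    ext k
    simp [Pi.single_apply]
  have hQ0 : ∀ η, T.Q0 β b η = ∑ j, T.Q0 β (fun η => b η j • (EuclideanSpace.single j (1 : ℂ) : Ek n)) η := by
    intro η
    have h3 : ∀ i A, pd i A b η = ∑ j, pd i A (fun η => b η j • (EuclideanSpace.single j (1 : ℂ) : Ek n)) η := by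
      intro i A
      conv_lhs => rw [hbs]
      exact pd_sum Finset.univ fun j _ =>
        (((hζ j).smul contDiff_const).differentiable (by simp)) η
    simp only [Setup.Q0, h3, map_sum]
    rw [← Finset.smul_sum]
    congr 1
    have h4 : ∀ i : Fin 9, (∑ A : Fin r, ∑ j : Fin n, (T.vec (T.g i) A β)
        (pd i A (fun η => b η j • (EuclideanSpace.single j (1 : ℂ) : Ek n)) η)) = ∑ j : Fin n, ∑ A : Fin r,
        (T.vec (T.g i) A β) (pd i A (fun η => b η j • (EuclideanSpace.single j (1 : ℂ) : Ek n)) η) :=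
      fun i => Finset.sum_comm
    simp only [h4]
    rw [Finset.sum_comm]
  have hsc : sc U o (T.Q0 β b) = fun η s => ∑ j,
      sc U o (T.Q0 β (fun η => b η j • (EuclideanSpace.single j (1 : ℂ) : Ek n))) η s := by
    funext η s
    simp only [sc, hQ0]
    rw [Finset.sum_comm]
    refine Finset.sum_congr rfl fun k _ => ?_
    rw [← Finset.sum_smul]
    congr 1
    simp
  have key : ∀ k, ZZ S.κ φ ψ Om (sc U o (T.Q0 β b)) (R k) (u k) = ∑ j, ZZ S.κ φ ψ Om
      (sc U o (T.Q0 β (fun η => b η j • (EuclideanSpace.single j (1 : ℂ) : Ek n)))) (R k) (u k) := by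
    intro k
    rw [hsc]
    exact (leq_ZZ_sum (hLin hF dh dm r ds φ ψ L Om K U D.bun _ hbc (fun η hη => leq_Rg S D.bun (hbL hη))
      (R k) (hS.pos k) (u k) (hS.inv k).1).2.1 Finset.univ _ fun j _ =>
        ⟨(H j).1.1, fun η s h => hsub j ((H j).1.2 η s h)⟩).2
  rw [funext key]
  have H7 := tendsto_finsetSum Finset.univ fun j _ => (H j).2
  simpa using H7

end Vale.Agent.P353.Z.AL
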