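import Vale.Agent.P353.AN.L.StmtU

/-! # P353, all `N`, block L: `GluAStmt` from `GluCStmt` -/

open MeasureTheory Filter Topology Matrix
open scoped ContDiff

namespace Vale.Agent.P353.Z.AL

variable {d dh dm r ds n : ℕ} {F : Type*} [NormedAddCommGroup F] [InnerProductSpace ℂ F]

theorem glb_cmb (ψ : Spl r ds dh) (ys : Cfg ds) (yz : Cfg r) : AD.cmb (spsw ψ) ys yz = cmb ψ yz ys := by
  ext ⟨i, A⟩
  obtain ⟨a, rfl⟩ := ψ.surjective A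
  rcases a with a | a <;> simp [cmb, AD.cmb, spsw]

theorem glb_Dz (S : Setup d F) (φ : Spl dh dm d) (ψ : Spl r ds dh) (η : Cfg r) :
    AD.Dz S φ (spsw ψ) η = S.Dz φ ψ η := by
  funext i
  rw [AD.Dz, Setup.Dz, glb_cmb]

theorem glb_Dz_cont (S : Setup d F) (φ : Spl dh dm d) (ψ : Spl r ds dh) (i : Fin 9) :
    Continuous fun η : Cfg r => S.Dz φ ψ η i := by
  have h : (fun η : Cfg r => S.Dz φ ψ η i) = fun η => ∑ a, η (i, a) • AX.Mz S φ (spsw ψ) a := by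
    funext η
    rw [← AX.DM_Dz]
    rfl
  rw [h]
  fun_prop

theorem glb_open (S : Setup d F) (φ : Spl dh dm d) (ψ : Spl r ds dh) : IsOpen (R8 S φ ψ) := by
  have h : Continuous fun η : Cfg r => (S.Dz φ ψ η 8).det := (glb_Dz_cont S φ ψ 8).matrix_det
  exact isOpen_ne.preimage h

theorem glb_hz_cont (ψ : Spl r ds dh) : Continuous (AN.hz ψ) := by
  refine (PiLp.continuous_toLp 2 _).comp (continuous_pi fun p => ?_)
  fun_prop

theorem glb_hs_cont (ψ : Spl r ds dh) : Continuous (AN.hs ψ) := by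
  refine (PiLp.continuous_toLp 2 _).comp (continuous_pi fun p => ?_)
  fun_prop

theorem glb_Nr_meas (ψ : Spl r ds dh) {A : Set (Cfg r)} (hA : IsClosed A) (dm : ℕ) (R ε : ℝ) :
    MeasurableSet (Nr ψ A dm R ε) := by
  have h1 : MeasurableSet {p : Cfg dh × Wsp dm | R⁻¹ • AN.hz ψ p.1 ∈ A} :=
    (hA.preimage (((glb_hz_cont ψ).comp continuous_fst).const_smul R⁻¹)).measurableSet
  have h2 : MeasurableSet {p : Cfg dh × Wsp dm | ‖AN.hs ψ p.1‖ < ε * R} :=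
    (isOpen_Iio.preimage ((glb_hs_cont ψ).comp continuous_fst).norm).measurableSet
  have h3 : MeasurableSet {p : Cfg dh × Wsp dm | ‖p.2‖ < ε * R} :=
    (isOpen_Iio.preimage continuous_snd.norm).measurableSet
  exact h1.inter (h2.inter h3)

theorem glb_Rg {S : Setup d F} {φ : Spl dh dm d} {ψ : Spl r ds dh} {z₀ : Cfg r} (h : AD.Std2 S φ (spsw ψ) z₀) {η : Cfg r}
    (hη : η ∈ R8 S φ ψ) : η ∈ Rg S φ ψ := by
  have hF : Frz (S.Dz φ ψ η) := by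
    rw [← glb_Dz]
    refine AX.frz_Dz h η ?_
    rw [glb_Dz]
    exact hη
  intro h0
  obtain ⟨v, hv, hv0⟩ := Matrix.exists_mulVec_eq_zero_iff.2 h0
  have h1 : ∀ i, v ⬝ᵥ ((S.Dz φ ψ η i * S.Dz φ ψ η i) *ᵥ v) = -((S.Dz φ ψ η i *ᵥ v) ⬝ᵥ (S.Dz φ ψ η i *ᵥ v)) := by
    intro i
    rw [← Matrix.mulVec_mulVec, Matrix.dotProduct_mulVec, ← Matrix.mulVec_transpose, hF.anti, Matrix.neg_mulVec,
      neg_dotProduct]
  have h2 : ∑ i, (S.Dz φ ψ η i *ᵥ v) ⬝ᵥ (S.Dz φ ψ η i *ᵥ v) = 0 := by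
    have h3 : v ⬝ᵥ ((∑ i, S.Dz φ ψ η i * S.Dz φ ψ η i) *ᵥ v) = 0 := by rw [hv0, dotProduct_zero]
    rw [Matrix.sum_mulVec, dotProduct_sum] at h3
    simp only [h1, Finset.sum_neg_distrib, neg_eq_zero] at h3
    exact h3
  have h4 : ∀ i, 0 ≤ (S.Dz φ ψ η i *ᵥ v) ⬝ᵥ (S.Dz φ ψ η i *ᵥ v) := fun i =>
    Finset.sum_nonneg fun _ _ => mul_self_nonneg _
  have h5 := (Finset.sum_eq_zero_iff_of_nonneg fun i _ => h4 i).1 h2 8 (Finset.mem_univ _)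
  have h6 : S.Dz φ ψ η 8 *ᵥ v = 0 := dotProduct_self_eq_zero.1 h5
  exact hη (Matrix.exists_mulVec_eq_zero_iff.1 ⟨v, hv, h6⟩)

theorem glb_Sl (S : Setup d F) (φ : Spl dh dm d) (ψ : Spl r ds dh) (Om : Cfg r → Matrix (Fin dm) (Fin dm) ℝ)
    {A B : Set (Cfg r)} (hA : IsClosed A) (hAB : B ⊆ A) (ε : ℝ) {a : Cfg r → Cfg ds → F} (ha : ∀ η s, a η s ≠ 0 → η ∈ B)
    (R : ℝ) (u : Cfg d → F) : Sl S φ ψ Om A ε a R u = Sl S φ ψ Om B ε a R u := by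
  rw [Sl, Sl]
  refine setIntegral_eq_of_subset_of_forall_sdiff_eq_zero (glb_Nr_meas ψ hA dm R ε) ?_ ?_
  · intro p hp
    exact ⟨hAB hp.1, hp.2⟩
  · rintro p ⟨hp, hp'⟩
    have h1 : R⁻¹ • AN.hz ψ p.1 ∉ B := fun h => hp' ⟨h, hp.2⟩
    have h2 : a (R⁻¹ • AN.hz ψ p.1) (AN.hs ψ p.1) = 0 := by
      by_contra h
      exact h1 (ha _ _ h)
    simp [AN.Ts0, AN.vG, h2]

theorem gluA_ofC (S : Setup d F) : GluAOfCStmt S := by
  intro hC hF dh dm r ds φ ψ z₀ h hz L Om K U hB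
  have h8 : z₀ ∈ R8 S φ ψ := by
    have := h.std.inv
    rw [glb_cmb] at this
    exact this
  obtain ⟨ε₁, hε₁, hball⟩ := Metric.isOpen_iff.1 (glb_open S φ ψ) z₀ h8
  set ε₂ : ℝ := min (ε₁ / 2) (‖z₀‖ / 2) with hε₂
  have hz0 : 0 < ‖z₀‖ := norm_pos_iff.2 hz
  have hε₂p : 0 < ε₂ := lt_min (by linarith) (by linarith)
  have hsub : Metric.closedBall z₀ ε₂ ⊆ R8 S φ ψ := by
    intro η hη
    refine hball ?_
    have h1 : dist η z₀ ≤ ε₂ := hη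
    have h2 : ε₂ ≤ ε₁ / 2 := min_le_left _ _
    exact lt_of_le_of_lt (h1.trans h2) (by linarith)
  have h0 : (0 : Cfg r) ∉ Metric.closedBall z₀ ε₂ := by
    intro h1
    have h2 : dist (0 : Cfg r) z₀ ≤ ε₂ := h1
    rw [dist_zero_left] at h2
    have h3 : ε₂ ≤ ‖z₀‖ / 2 := min_le_right _ _
    linarith
  obtain ⟨ε₀, hε₀, hmain⟩ := hC hF dh dm r ds φ ψ z₀ h L Om K U hB (Metric.closedBall z₀ ε₂)
    (isCompact_closedBall _ _) hsub h0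
  refine ⟨min ε₀ ε₂, lt_min hε₀ hε₂p, ?_, ?_⟩
  · intro η hη
    have h1 : η ∈ Metric.closedBall z₀ ε₂ := Metric.closedBall_subset_closedBall (min_le_right _ _) hη
    exact ⟨hsub h1, glb_Rg h (hsub h1)⟩
  · intro ε hε hε' R u hu a ha
    have h1 : Metric.closedBall z₀ ε ⊆ Metric.closedBall z₀ ε₂ :=
      Metric.closedBall_subset_closedBall (hε'.trans (min_le_right _ _))
    have h2 := hmain ε hε (hε'.trans (min_le_left _ _)) R u hu a ⟨ha.1, fun η s hs => h1 (ha.2 η s hs)⟩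
    refine h2.congr fun n => ?_
    rw [glb_Sl S φ ψ Om Metric.isClosed_closedBall h1 ε ha.2]

end Vale.Agent.P353.Z.AL
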