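import Vale.Agent.P353.AN.L.GluB
import Vale.Agent.P353.AN.GL.Mea
import Vale.Agent.P353.AN.GL.Sup
import Vale.Agent.P353.AN.GL.Pc
import Vale.Agent.P353.AN.D.CutLoc

/-! # P353, all `N`, block L: geometry of the slice regions and a.e. equality (part of `GluAOfStmt`) -/

open MeasureTheory Filter Topology Matrix
open scoped ContDiff

namespace Vale.Agent.P353.Z.AL

set_option linter.unusedSectionVars false

variable {d dh dm r ds n : ℕ} {F : Type*} [NormedAddCommGroup F] [InnerProductSpace ℂ F]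

theorem gc459_cmb (ψ : Spl r ds dh) (η : Cfg r) : AD.cmb (spsw ψ) 0 η = AN.cmb ψ η 0 := by
  ext ⟨i, A⟩
  obtain ⟨a, rfl⟩ := ψ.surjective A
  rcases a with a | a <;> simp [AN.cmb, AD.cmb, spsw]

theorem gc459_Dz (S : Setup d F) (φ : Spl dh dm d) (ψ : Spl r ds dh) (η : Cfg r) :
    AD.Dz S φ (spsw ψ) η = AN.Dz S φ ψ η := by
  funext i
  rw [AD.Dz, gc459_cmb, AN.Dz]

theorem gc459_norm (ψ : Spl r ds dh) (y : Cfg dh) :
    ‖y‖ ^ 2 = ‖AN.hz ψ y‖ ^ 2 + ‖AN.hs ψ y‖ ^ 2 := by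
  rw [EuclideanSpace.norm_sq_eq, EuclideanSpace.norm_sq_eq, EuclideanSpace.norm_sq_eq, Fintype.sum_prod_type,
    Fintype.sum_prod_type, Fintype.sum_prod_type, ← Finset.sum_add_distrib]
  refine Finset.sum_congr rfl fun i _ => ?_
  rw [← ψ.sum_comp, Fintype.sum_sum_type]
  rfl

theorem gc459_hz (ψ : Spl r ds dh) (z : Cfg r) (R : ℝ) (y : Cfg dh) :
    AN.hz ψ (y - R • AN.cmb ψ z 0) = AN.hz ψ y - R • z := by
  ext p
  simp [AN.hz, AN.cmb]

theorem gc459_hs (ψ : Spl r ds dh) (z : Cfg r) (R : ℝ) (y : Cfg dh) :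
    AN.hs ψ (y - R • AN.cmb ψ z 0) = AN.hs ψ y := by
  ext p
  simp [AN.hs, AN.cmb]

theorem gc459_cmbn (ψ : Spl r ds dh) (z : Cfg r) : ‖(AN.cmb ψ z 0 : Cfg dh)‖ = ‖z‖ := by
  have h := gc459_norm ψ (AN.cmb ψ z 0)
  have h1 : AN.hz ψ (AN.cmb ψ z 0) = z := by ext p; simp [AN.hz, AN.cmb]
  have h2 : AN.hs ψ (AN.cmb ψ z (0 : Cfg ds)) = 0 := by ext p; simp [AN.hs, AN.cmb]
  rw [h1, h2, norm_zero] at h
  have h3 : ‖(AN.cmb ψ z 0 : Cfg dh)‖ ^ 2 = ‖z‖ ^ 2 := by linarith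
  exact (sq_eq_sq₀ (norm_nonneg _) (norm_nonneg _)).1 h3

/-- distance of a point to `R z` in terms of the scaled centre part -/
theorem gc459_dist (ψ : Spl r ds dh) (z : Cfg r) {R : ℝ} (hR : 0 < R) (y : Cfg dh) :
    ‖y - R • AN.cmb ψ z 0‖ ^ 2 = (R * ‖R⁻¹ • AN.hz ψ y - z‖) ^ 2 + ‖AN.hs ψ y‖ ^ 2 := by
  rw [gc459_norm ψ, gc459_hz, gc459_hs]
  have h1 : AN.hz ψ y - R • z = R • (R⁻¹ • AN.hz ψ y - z) := by rw [smul_sub, smul_inv_smul₀ hR.ne']
  rw [h1, norm_smul, Real.norm_eq_abs, abs_of_pos hR]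

/-- `Nr ⊆ Nb` -/
theorem gc459_sub (ψ : Spl r ds dh) (z₀ : Cfg r) {ε e R : ℝ} (hε : 0 < ε) (he : 2 * ε ≤ e) (hR : 0 < R) :
    Nr ψ (Metric.closedBall z₀ ε) dm R ε ⊆ AN.Nb (AN.cmb ψ z₀ 0) dm R e := by
  rintro p ⟨h1, h2, h3⟩
  have hεR : 0 < ε * R := by positivity
  have he' : 2 * (ε * R) ≤ e * R := by nlinarith
  refine ⟨?_, by linarith⟩
  have h4 := gc459_dist ψ z₀ hR p.1
  rw [Metric.mem_closedBall, dist_eq_norm] at h1
  have h5 : R * ‖R⁻¹ • AN.hz ψ p.1 - z₀‖ ≤ ε * R := by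
    rw [mul_comm]
    exact mul_le_mul_of_nonneg_right h1 hR.le
  have h6 : ‖p.1 - R • AN.cmb ψ z₀ 0‖ ^ 2 < (2 * (ε * R)) ^ 2 := by
    rw [h4]
    have := norm_nonneg (AN.hs ψ p.1)
    have : 0 ≤ R * ‖R⁻¹ • AN.hz ψ p.1 - z₀‖ := by positivity
    nlinarith
  have h7 : ‖p.1 - R • AN.cmb ψ z₀ 0‖ < 2 * (ε * R) := lt_of_pow_lt_pow_left₀ 2 (by positivity) h6
  linarith

/-- points of the slice ball lie in a shell -/
theorem gc459_shl (φ : Spl dh dm d) (ψ : Spl r ds dh) (z₀ : Cfg r) (hz : z₀ ≠ 0) {e R : ℝ} (he : e ≤ ‖z₀‖ / 4)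
    (hR : 0 < R) {p : Cfg dh × Wsp dm} (hp : p ∈ AN.Nb (AN.cmb ψ z₀ 0) dm R e) :
    ‖z₀‖ / 2 * R < ‖emb φ p.1 p.2‖ ∧ ‖emb φ p.1 p.2‖ < 2 * ‖z₀‖ * R := by
  have hz0 : 0 < ‖z₀‖ := norm_pos_iff.2 hz
  obtain ⟨h1, h2⟩ := hp
  have he' : e * R ≤ ‖z₀‖ / 4 * R := mul_le_mul_of_nonneg_right he hR.le
  have hn : ‖R • (AN.cmb ψ z₀ 0 : Cfg dh)‖ = R * ‖z₀‖ := by
    rw [norm_smul, Real.norm_eq_abs, abs_of_pos hR, gc459_cmbn]
  have h3 := norm_sub_norm_le (R • (AN.cmb ψ z₀ 0 : Cfg dh)) p.1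
  have h4 := norm_sub_norm_le p.1 (R • (AN.cmb ψ z₀ 0 : Cfg dh))
  rw [norm_sub_rev] at h3
  rw [hn] at h3 h4
  have hE := AD.cl930_emb_norm φ p.1 p.2
  have h0 : 0 < ‖z₀‖ * R := by positivity
  have hp1 := norm_nonneg p.1
  have hp2 := norm_nonneg p.2
  constructor
  · refine lt_of_pow_lt_pow_left₀ 2 (norm_nonneg _) ?_
    rw [hE]
    nlinarith
  · refine lt_of_pow_lt_pow_left₀ 2 (by positivity) ?_
    rw [hE]
    nlinarith

/-- on the support of the section the two regions agree outside the tail -/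
theorem gc459_iff (ψ : Spl r ds dh) (z₀ z : Cfg r) {ε e δ R : ℝ} (hR : 0 < R) (he : 0 < e) (hδ : δ ≤ e / 2)
    {p : Cfg dh × Wsp dm} (hA : R⁻¹ • AN.hz ψ p.1 ∈ Metric.closedBall z₀ ε) (hz : ‖R⁻¹ • AN.hz ψ p.1 - z‖ ≤ δ)
    (hB : ¬ (min (e / 2) ε * R ≤ ‖AN.hs ψ p.1‖ ∨ min (e / 2) ε * R ≤ ‖p.2‖)) :
    (p ∈ AN.Nb (AN.cmb ψ z 0) dm R e ↔ p ∈ Nr ψ (Metric.closedBall z₀ ε) dm R ε) := by
  push Not at hB
  obtain ⟨hB1, hB2⟩ := hB
  have m1 : min (e / 2) ε * R ≤ e / 2 * R := mul_le_mul_of_nonneg_right (min_le_left _ _) hR.le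
  have m2 : min (e / 2) ε * R ≤ ε * R := mul_le_mul_of_nonneg_right (min_le_right _ _) hR.le
  have heR : 0 < e * R := by positivity
  have h1 : p ∈ AN.Nb (AN.cmb ψ z 0) dm R e := by
    refine ⟨?_, by linarith⟩
    have h4 := gc459_dist ψ z hR p.1
    have h5 : R * ‖R⁻¹ • AN.hz ψ p.1 - z‖ ≤ e / 2 * R := by
      rw [mul_comm]
      exact mul_le_mul_of_nonneg_right (hz.trans hδ) hR.le
    have h6 : ‖p.1 - R • AN.cmb ψ z 0‖ ^ 2 < (e * R) ^ 2 := by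
      rw [h4]
      have := norm_nonneg (AN.hs ψ p.1)
      have : 0 ≤ R * ‖R⁻¹ • AN.hz ψ p.1 - z‖ := by positivity
      nlinarith
    exact lt_of_pow_lt_pow_left₀ 2 (by positivity) h6
  have h2 : p ∈ Nr ψ (Metric.closedBall z₀ ε) dm R ε := ⟨hA, by linarith, by linarith⟩
  exact ⟨fun _ => h2, fun _ => h1⟩

theorem gc459_nr_meas (ψ : Spl r ds dh) (z₀ : Cfg r) (ε R e : ℝ) :
    MeasurableSet (Nr ψ (Metric.closedBall z₀ ε) dm R e) := by
  have h0 : Continuous fun p : Cfg dh × Wsp dm => AN.hz ψ p.1 := (AN.mea824_chz ψ).comp continuous_fst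
  have h1 : Measurable fun p : Cfg dh × Wsp dm => R⁻¹ • AN.hz ψ p.1 := (h0.const_smul R⁻¹).measurable
  have h2 : Measurable fun p : Cfg dh × Wsp dm => ‖AN.hs ψ p.1‖ :=
    ((AN.mea824_chs ψ).comp continuous_fst).norm.measurable
  have h3 : Measurable fun p : Cfg dh × Wsp dm => ‖p.2‖ := continuous_snd.norm.measurable
  exact (h1 Metric.isClosed_closedBall.measurableSet).inter
    ((measurableSet_lt h2 measurable_const).inter (measurableSet_lt h3 measurable_const))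

theorem gc459_tail_meas (ψ : Spl r ds dh) (e R : ℝ) :
    MeasurableSet {p : Cfg dh × Wsp dm | e * R ≤ ‖AN.hs ψ p.1‖ ∨ e * R ≤ ‖p.2‖} := by
  have h2 : Measurable fun p : Cfg dh × Wsp dm => ‖AN.hs ψ p.1‖ :=
    ((AN.mea824_chs ψ).comp continuous_fst).norm.measurable
  have h3 : Measurable fun p : Cfg dh × Wsp dm => ‖p.2‖ := continuous_snd.norm.measurable
  exact (measurableSet_le measurable_const h2).union (measurableSet_le measurable_const h3)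

/-! ## almost everywhere equality -/

/-- scaling of the centre variable is quasi measure preserving -/
theorem gc459_qs {R : ℝ} (hR : 0 < R) :
    Measure.QuasiMeasurePreserving (fun q : Cfg r × Cfg ds => ((R⁻¹ • q.1, q.2) : Cfg r × Cfg ds))
      (volume.prod volume) (volume.prod volume) := by
  have hm : Measurable (fun q : Cfg r × Cfg ds => ((R⁻¹ • q.1, q.2) : Cfg r × Cfg ds)) := by fun_prop
  refine ⟨hm, ?_⟩
  have e1 := AN.wgt_map_smul (ι := Fin 9 × Fin r) R⁻¹ (inv_ne_zero hR.ne')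
  have e2 : Measure.map (fun q : Cfg r × Cfg ds => ((R⁻¹ • q.1, q.2) : Cfg r × Cfg ds)) (volume.prod volume) =
      (Measure.map (fun x : Cfg r => R⁻¹ • x) volume).prod (Measure.map id (volume : Measure (Cfg ds))) := by
    rw [Measure.map_prod_map _ _ (measurable_const_smul _) measurable_id]
    rfl
  rw [e2, e1, Measure.map_id, Measure.prod_smul_left]
  exact Measure.smul_absolutelyContinuous

theorem gc459_qz (φ : Spl dh dm d) (ψ : Spl r ds dh) {R : ℝ} (hR : 0 < R) :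
    Measure.QuasiMeasurePreserving (fun x : Cfg d => ((R⁻¹ • AN.hz ψ (AN.zy φ x), AN.hs ψ (AN.zy φ x)) : Cfg r × Cfg ds))
      volume (volume.prod volume) := by
  have h1 := (AN.wgt_mp φ ψ).quasiMeasurePreserving
  have h2 := (measurePreserving_prodAssoc (volume : Measure (Cfg r)) (volume : Measure (Cfg ds))
    (volume : Measure (Cfg dm))).symm.quasiMeasurePreserving
  have h3 : Measure.QuasiMeasurePreserving (Prod.fst : (Cfg r × Cfg ds) × Cfg dm → Cfg r × Cfg ds)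
    ((volume.prod volume).prod volume) (volume.prod volume) := Measure.quasiMeasurePreserving_fst
  exact (gc459_qs hR).comp (h3.comp (h2.comp h1))

theorem gc459_qy (ψ : Spl r ds dh) {R : ℝ} (hR : 0 < R) :
    Measure.QuasiMeasurePreserving
      (fun p : Cfg dh × Wsp dm => ((R⁻¹ • AN.hz ψ p.1, AN.hs ψ p.1) : Cfg r × Cfg ds))
      (volume.prod volume) (volume.prod volume) := by
  have h1 := (AN.mea824_hzs ψ).quasiMeasurePreserving
  have h3 : Measure.QuasiMeasurePreserving (Prod.fst : Cfg dh × Wsp dm → Cfg dh)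
    (volume.prod volume) volume := Measure.quasiMeasurePreserving_fst
  exact (gc459_qs hR).comp (h1.comp h3)

/-- the global functional only depends on the class of the section -/
theorem gc459_ZZ (κ : ℝ) (φ : Spl dh dm d) (ψ : Spl r ds dh) (Om : Cfg r → Matrix (Fin dm) (Fin dm) ℝ)
    {a a' : Cfg r → Cfg ds → F} (h : ∀ᵐ q : Cfg r × Cfg ds ∂(volume.prod volume), a q.1 q.2 = a' q.1 q.2)
    {R : ℝ} (hR : 0 < R) (u : Cfg d → F) : ZZ κ φ ψ Om a R u = ZZ κ φ ψ Om a' R u := by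
  unfold ZZ
  refine integral_congr_ae ?_
  filter_upwards [(gc459_qz φ ψ hR).ae h] with x hx
  simp only [AN.Zb, AN.bG, hx]

theorem gc459_Sl (S : Setup d F) (φ : Spl dh dm d) (ψ : Spl r ds dh) (Om : Cfg r → Matrix (Fin dm) (Fin dm) ℝ)
    (A : Set (Cfg r)) (ε : ℝ) {a a' : Cfg r → Cfg ds → F}
    (h : ∀ᵐ q : Cfg r × Cfg ds ∂(volume.prod volume), a q.1 q.2 = a' q.1 q.2)
    {R : ℝ} (hR : 0 < R) (u : Cfg d → F) : Sl S φ ψ Om A ε a R u = Sl S φ ψ Om A ε a' R u := by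
  unfold Sl
  refine integral_congr_ae (ae_restrict_of_ae ?_)
  filter_upwards [(gc459_qy ψ hR).ae h] with x hx
  simp only [AN.Ts0, AN.vG, hx]

end Vale.Agent.P353.Z.AL
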