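import Vale.Agent.P353.AN.L.GluAC
import Vale.Agent.P353.AN.L.GluC
import Vale.Agent.P353.AN.GL.SfuC
import Vale.Agent.P353.AN.GL.SfuE

/-! # P353, all `N`, block L: `GluCStmt` (prover helper182)

Global functional = slice functional over compact subsets of `R8`. -/

open MeasureTheory Filter Topology Matrix
open scoped ContDiff

namespace Vale.Agent.P353.Z.AL

variable {d dh dm r ds : ℕ} {F : Type*} [NormedAddCommGroup F] [InnerProductSpace ℂ F]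

/-! ### geometry -/

theorem glc_std {S : Setup d F} {φ : Spl dh dm d} {ψ : Spl r ds dh} {z₀ : Cfg r} (h : AD.Std2 S φ (spsw ψ) z₀)
    {z : Cfg r} (hz : z ∈ R8 S φ ψ) : AN.Std S φ (AN.cmb ψ z 0) where
  sub := h.std.sub
  cen := by
    intro i B C
    rw [← ψ.sum_comp, Fintype.sum_sum_type]
    have h1 : ∀ a, S.f (φ (Sum.inl (ψ (Sum.inl a)))) (φ (Sum.inl B)) (φ (Sum.inl C)) = 0 := fun a => h.cen a B C
    simp only [h1, zero_mul, Finset.sum_const_zero, zero_add]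
    refine Finset.sum_eq_zero fun b _ => ?_
    simp [AN.cmb]
  inv := hz

/-- the part of the slice over `R · closedBall z δ` lies in the slice ball -/
theorem glc_sub (ψ : Spl r ds dh) (z : Cfg r) {δ ε e R : ℝ} (he : 0 < e) (hδ : δ ≤ e / 2) (hε : ε ≤ e / 2) (hR : 0 < R) :
    Nr ψ (Metric.closedBall z δ) dm R ε ⊆ AN.Nb (AN.cmb ψ z 0) dm R e := by
  rintro p ⟨h1, h2, h3⟩
  have heR : 0 < e * R := by positivity
  have m1 : ε * R ≤ e / 2 * R := mul_le_mul_of_nonneg_right hε hR.le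
  refine ⟨?_, by linarith⟩
  have h4 := gc459_dist ψ z hR p.1
  rw [Metric.mem_closedBall, dist_eq_norm] at h1
  have h5 : R * ‖R⁻¹ • AN.hz ψ p.1 - z‖ ≤ e / 2 * R := by
    rw [mul_comm]
    exact mul_le_mul_of_nonneg_right (h1.trans hδ) hR.le
  have h6 : ‖p.1 - R • AN.cmb ψ z 0‖ ^ 2 < (e * R) ^ 2 := by
    rw [h4]
    have := norm_nonneg (AN.hs ψ p.1)
    have : 0 ≤ R * ‖R⁻¹ • AN.hz ψ p.1 - z‖ := by positivity
    nlinarith
  exact lt_of_pow_lt_pow_left₀ 2 (by positivity) h6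

theorem glc_T0 {S : Setup d F} {φ : Spl dh dm d} {ψ : Spl r ds dh} {Om : Cfg r → Matrix (Fin dm) (Fin dm) ℝ}
    {A : Set (Cfg r)} {a : Cfg r → Cfg ds → F} (ha : ∀ η s, a η s ≠ 0 → η ∈ A) {R : ℝ} {p : Cfg dh × Wsp dm}
    (h : AN.Ts0 ψ (AN.vG S φ ψ Om a) R p.1 p.2 ≠ 0) : R⁻¹ • AN.hz ψ p.1 ∈ A := by
  by_contra hc
  have h2 : a (R⁻¹ • AN.hz ψ p.1) (AN.hs ψ p.1) = 0 := by
    by_contra h
    exact hc (ha _ _ h)
  exact h (by simp [AN.Ts0, AN.vG, h2])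

/-! ### cutoffs -/

open Classical in
/-- admissible cutoffs -/
noncomputable def glcX (δ R : ℝ) (q : Cfg r × Cfg ds × Cfg dm) : ℝ := if 1 ≤ δ * Real.sqrt R then chi R q else 0

theorem glcX_meas (δ R : ℝ) : Measurable (glcX δ R : Cfg r × Cfg ds × Cfg dm → ℝ) := by
  have hchi : Measurable fun q : Cfg r × Cfg ds × Cfg dm => chi R q := by
    unfold chi
    refine Measurable.ite ?_ measurable_const measurable_const
    have m1 : Measurable fun q : Cfg r × Cfg ds × Cfg dm => ‖q.2.1‖ := by fun_prop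
    have m2 : Measurable fun q : Cfg r × Cfg ds × Cfg dm => ‖q.2.2‖ := by fun_prop
    exact (measurableSet_le m1 measurable_const).inter (measurableSet_le m2 measurable_const)
  unfold glcX
  split_ifs
  · exact hchi
  · exact measurable_const

theorem glcX_bd (δ R : ℝ) (q : Cfg r × Cfg ds × Cfg dm) : 0 ≤ glcX δ R q ∧ glcX δ R q ≤ 1 := by
  unfold glcX chi
  split_ifs <;> simp

theorem glcX_supp {δ R : ℝ} (hR : 0 < R) (q : Cfg r × Cfg ds × Cfg dm) (h : glcX δ R q ≠ 0) :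
    ‖q.2.1‖ ≤ δ * R ∧ ‖q.2.2‖ ≤ δ * (R * Real.sqrt R) := by
  have hs : 0 < Real.sqrt R := Real.sqrt_pos.2 hR
  have hss : Real.sqrt R * Real.sqrt R = R := Real.mul_self_sqrt hR.le
  unfold glcX chi at h
  split_ifs at h with h1 h2
  · obtain ⟨h2, h3⟩ := h2
    constructor
    · calc ‖q.2.1‖ ≤ 1 * Real.sqrt R := by rw [one_mul]; exact h2
        _ ≤ (δ * Real.sqrt R) * Real.sqrt R := mul_le_mul_of_nonneg_right h1 hs.le
        _ = δ * R := by rw [mul_assoc, hss]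
    · calc ‖q.2.2‖ ≤ 1 * R := by rw [one_mul]; exact h3
        _ ≤ (δ * Real.sqrt R) * R := mul_le_mul_of_nonneg_right h1 hR.le
        _ = δ * (R * Real.sqrt R) := by ring
  · exact absurd rfl h
  · exact absurd rfl h

theorem glcX_ev {δ : ℝ} (hδ : 0 < δ) {R : ℕ → ℝ} (hlim : Tendsto R atTop atTop) :
    ∀ᶠ n in atTop, (glcX δ (R n) : Cfg r × Cfg ds × Cfg dm → ℝ) = chi (R n) := by
  have h1 : Tendsto (fun n => δ * Real.sqrt (R n)) atTop atTop :=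
    (Real.tendsto_sqrt_atTop.comp hlim).const_mul_atTop hδ
  filter_upwards [h1.eventually_ge_atTop 1] with n hn
  funext q
  rw [glcX, if_pos hn]

theorem glcX_lim {δ : ℝ} (hδ : 0 < δ) {R : ℕ → ℝ} (hlim : Tendsto R atTop atTop) (q : Cfg r × Cfg ds × Cfg dm) :
    Tendsto (fun n => glcX δ (R n) q) atTop (𝓝 1) := by
  refine tendsto_nhds_of_eventually_eq ?_
  filter_upwards [glcX_ev (r := r) (ds := ds) (dm := dm) hδ hlim,
    (Real.tendsto_sqrt_atTop.comp hlim).eventually_ge_atTop ‖q.2.1‖, hlim.eventually_ge_atTop ‖q.2.2‖] with n h1 h2 h3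
  rw [h1, chi, if_pos ⟨h2, h3⟩]

/-! ### frozen data -/

theorem glc_frz {S : Setup d F} {φ : Spl dh dm d} {ψ : Spl r ds dh} {z₀ : Cfg r} (h : AD.Std2 S φ (spsw ψ) z₀)
    {η : Cfg r} (hη : η ∈ R8 S φ ψ) : Frz (AN.Dz S φ ψ η) := by
  have h1 : Frz (AD.Dz S φ (spsw ψ) η) := by
    refine AX.frz_Dz h η ?_
    rw [glb_Dz]
    exact hη
  rw [gc459_Dz] at h1
  exact h1

theorem glc_det {S : Setup d F} {φ : Spl dh dm d} {ψ : Spl r ds dh} {z₀ : Cfg r} (h : AD.Std2 S φ (spsw ψ) z₀)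
    {η : Cfg r} (hη : η ∈ R8 S φ ψ) :
    (∑ i, DM (AX.Mz S φ (spsw ψ)) η i * DM (AX.Mz S φ (spsw ψ)) η i).det ≠ 0 := by
  have h1 := glb_Rg h hη
  simp only [Rg, Set.mem_ofPred_eq] at h1
  simp only [AX.DM_Dz]
  exact h1

theorem glc_om {S : Setup d F} {φ : Spl dh dm d} {ψ : Spl r ds dh} {z₀ : Cfg r} (h : AD.Std2 S φ (spsw ψ) z₀)
    {L : Finset (Fin r → ℝ)} {Om : Cfg r → Matrix (Fin dm) (Fin dm) ℝ} {K : Submodule ℂ F} {U : Cfg r → F →L[ℂ] F}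
    (hB : AX.Bun S φ (AX.Mz S φ (spsw ψ)) L Om K U) {η : Cfg r} (hη : η ∈ R8 S φ ψ) :
    IsOm S.κ (AN.Dz S φ ψ η) (Om η) := by
  have h1 := hB.om η (glc_det h hη)
  rw [AX.DM_Dz] at h1
  exact h1

theorem glc_omc {S : Setup d F} {φ : Spl dh dm d} {ψ : Spl r ds dh} {z₀ : Cfg r} (h : AD.Std2 S φ (spsw ψ) z₀)
    {L : Finset (Fin r → ℝ)} {Om : Cfg r → Matrix (Fin dm) (Fin dm) ℝ} {K : Submodule ℂ F} {U : Cfg r → F →L[ℂ] F}
    (hB : AX.Bun S φ (AX.Mz S φ (spsw ψ)) L Om K U) : ContinuousOn Om (R8 S φ ψ) :=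
  continuousOn_pi.2 fun A => continuousOn_pi.2 fun B =>
    (hB.om_smooth A B).continuousOn.mono fun _ hη => glc_det h hη

/-- the integral over the slice ball is bounded by the mass -/
theorem glc_mass {S : Setup d F} {φ : Spl dh dm d} {u : Cfg d → F} (hu : Setup.Tst u) {T : Set (Cfg d)}
    {N : Set (Cfg dh × Wsp dm)} {c C : ℝ} (hc : 0 < c)
    (h : ∫ x in T, ‖u x‖ ^ 2 = c * ∫ p in N, ‖S.res φ u p.1 p.2‖ ^ 2 ∂(volume.prod volume))
    (hC : ∫ x, ‖u x‖ ^ 2 ≤ C) : ∫ p in N, ‖S.res φ u p.1 p.2‖ ^ 2 ∂(volume.prod volume) ≤ C / c := by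
  rw [le_div_iff₀ hc, mul_comm, ← h]
  exact (AN.SfuA.int_le hu T).trans hC

/-! ### local form -/

theorem glc_loc0 (S : Setup d F) (hfin : FiniteDimensional ℂ F) (hGlu : AN.GluStmt S) (hN : AN.NormStmt S)
    (hM : AN.MeaStmt S) (hGau : AN.GauStmt) (hAlg : AlgStmt) (hRad : RadStmt S) (hSup : SupZStmt F)
    (hTail : TailStmt S) (hVG : VGStmt S)
    (φ : Spl dh dm d) (ψ : Spl r ds dh) {z₀ : Cfg r} (h2 : AD.Std2 S φ (spsw ψ) z₀)
    {L : Finset (Fin r → ℝ)} {Om : Cfg r → Matrix (Fin dm) (Fin dm) ℝ} {K : Submodule ℂ F} {U : Cfg r → F →L[ℂ] F}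
    (hB : AX.Bun S φ (AX.Mz S φ (spsw ψ)) L Om K U) {z : Cfg r} (hz : z ∈ R8 S φ ψ) (hz0 : z ≠ 0) :
    ∃ δ ε₀ : ℝ, 0 < δ ∧ 0 < ε₀ ∧ ∀ ε : ℝ, 0 < ε → ε ≤ ε₀ → ∀ (R : ℕ → ℝ) (u : ℕ → Cfg d → F), SqM S R u →
      ∀ a : Cfg r → Cfg ds → F, StronglyMeasurable (fun q : Cfg r × Cfg ds => a q.1 q.2) →
      Sec2 (Metric.closedBall z δ) a →
      Tendsto (fun n => ZZ S.κ φ ψ Om a (R n) (u n) - Sl S φ ψ Om (Metric.closedBall z δ) ε a (R n) (u n))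
        atTop (𝓝 0) := by
  have hstd := glc_std h2 hz
  have hIsZ : AN.IsZ S φ ψ := fun a B C => h2.cen a B C
  obtain ⟨εG0, hεG0, hG⟩ := hGlu hfin dh dm r ds φ ψ z hIsZ hstd
  obtain ⟨εN, ρN, hεN, hρN, hNn⟩ := hN dh dm φ (AN.cmb ψ z 0) hstd
  have hzn : 0 < ‖z‖ := norm_pos_iff.2 hz0
  obtain ⟨e, hedef⟩ : ∃ e, e = min (min εG0 εN) (‖z‖ / 4) := ⟨_, rfl⟩
  have he : 0 < e := by rw [hedef]; exact lt_min (lt_min hεG0 hεN) (by linarith)
  have he1 : e ≤ εG0 := by rw [hedef]; exact (min_le_left _ _).trans (min_le_left _ _)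
  have he2 : e ≤ εN := by rw [hedef]; exact (min_le_left _ _).trans (min_le_right _ _)
  have he3 : e ≤ ‖z‖ / 4 := by rw [hedef]; exact min_le_right _ _
  obtain ⟨cN, δN, hcN, -, hNR⟩ := hNn e ρN he he2 hρN le_rfl
  obtain ⟨δ₀, hδ₀, hG1⟩ := hG e he he1
  obtain ⟨ρ8, hρ8, hball⟩ := Metric.isOpen_iff.1 (glb_open S φ ψ) z hz
  obtain ⟨δ, hδdef⟩ : ∃ δ, δ = min δ₀ (min (e / 2) (ρ8 / 3)) := ⟨_, rfl⟩
  have hδ : 0 < δ := by rw [hδdef]; exact lt_min hδ₀ (lt_min (by linarith) (by linarith))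
  have hδ1 : δ ≤ δ₀ := by rw [hδdef]; exact min_le_left _ _
  have hδ2 : δ ≤ e / 2 := by rw [hδdef]; exact (min_le_right _ _).trans (min_le_left _ _)
  have hδ3 : δ ≤ ρ8 / 3 := by rw [hδdef]; exact (min_le_right _ _).trans (min_le_right _ _)
  have h8 : ∀ η : Cfg r, ‖η - z‖ ≤ 2 * δ → η ∈ R8 S φ ψ := by
    intro η hη
    refine hball ?_
    rw [Metric.mem_ball, dist_eq_norm]
    linarith
  have h8' : ∀ η ∈ Metric.closedBall z δ, η ∈ R8 S φ ψ := by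
    intro η hη
    rw [Metric.mem_closedBall, dist_eq_norm] at hη
    exact h8 η (by linarith)
  refine ⟨δ, e / 2, hδ, by linarith, ?_⟩
  intro ε hε hεe R u hu a ham ha
  -- radial cutoff
  obtain ⟨u', C, hu1, hu2, hu3, -⟩ := hRad R u hu (‖z‖ / 4) (4 * ‖z‖) (by linarith) (by linarith)
  have hshl : Metric.closedBall z δ ⊆ AD.shl r (‖z‖ / 4) (4 * ‖z‖) := by
    intro η hη
    rw [Metric.mem_closedBall, dist_eq_norm] at hη
    have k1 := norm_sub_norm_le z η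
    have k2 := norm_sub_norm_le η z
    rw [norm_sub_rev] at k1
    exact ⟨by linarith, by linarith⟩
  obtain ⟨R₀, hR₀, hS1⟩ := hSup d dh dm r ds φ ψ S.κ Om (‖z‖ / 4) (4 * ‖z‖) (Metric.closedBall z δ) (by linarith)
    (by linarith) (isCompact_closedBall _ _) hshl
  have hZ1 : ∀ᶠ n in atTop, ZZ S.κ φ ψ Om a (R n) (u n) = ZZ S.κ φ ψ Om a (R n) (u' n) := by
    filter_upwards [hu.lim.eventually_ge_atTop R₀] with n hn
    exact (hS1 (R n) hn a ha.2).2 (u n) (u' n) fun x hx => (hu2 n x hx.1.le hx.2.le).symm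
  -- the slice function
  have hvG := hVG hfin hGau hAlg dh dm r ds φ ψ Om (Metric.closedBall z δ) (isCompact_closedBall _ _)
    (fun η hη => ⟨glc_frz h2 (h8' η hη), glc_om h2 hB (h8' η hη)⟩) ((glc_omc h2 hB).mono h8') a ha
  obtain ⟨hT1, hT2⟩ := hTail hfin hM dh dm r ds φ ψ hstd.sub (AN.vG S φ ψ Om a) hvG.1
  have hlimB := (hT2 ε hε).comp hu.lim
  -- GluStmt
  have l1 := hG1 δ hδ hδ1 Om (fun η hη => ⟨glc_frz h2 (h8 η hη), glc_om h2 hB (h8 η hη)⟩)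
    ((glc_omc h2 hB).mono fun η hη => h8 η hη) a ham ha.1
    (fun η s h => by
      have := ha.2 η s h
      rwa [Metric.mem_closedBall, dist_eq_norm] at this)
    R (fun n => glcX δ₀ (R n)) u' C hu.lim (fun n => glcX_meas _ _) (fun n q => glcX_bd _ _ q)
    (fun q => glcX_lim hδ₀ hu.lim q) (fun n q hq => glcX_supp (hu.pos n) q hq)
    (fun n => (hu1 n).1) (fun n => (hu1 n).2) hu3
  -- comparison of the regions
  have key : ∀ n, ‖(∫ p in AN.Nb (AN.cmb ψ z 0) dm (R n) e,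
      inner ℂ (AN.Ts0 ψ (AN.vG S φ ψ Om a) (R n) p.1 p.2) (S.res φ (u' n) p.1 p.2) ∂(volume.prod volume)) -
      Sl S φ ψ Om (Metric.closedBall z δ) ε a (R n) (u n)‖ ≤
      Real.sqrt (∫ p in {p : Cfg dh × Wsp dm | ε * R n ≤ ‖AN.hs ψ p.1‖ ∨ ε * R n ≤ ‖p.2‖},
        ‖AN.Ts0 ψ (AN.vG S φ ψ Om a) (R n) p.1 p.2‖ ^ 2 ∂(volume.prod volume)) *
        (Real.sqrt (C / cN) + Real.sqrt (C / cN)) := by
    intro n
    have hRn := hu.pos n
    have hsub : Nr ψ (Metric.closedBall z δ) dm (R n) ε ⊆ AN.Nb (AN.cmb ψ z 0) dm (R n) e :=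
      glc_sub ψ z he hδ2 hεe hRn
    have hg := AN.SfuA.memLp_res (dh := dh) (dm := dm) S φ (hu1 n).1
    have e1 : Sl S φ ψ Om (Metric.closedBall z δ) ε a (R n) (u n) =
        ∫ p in Nr ψ (Metric.closedBall z δ) dm (R n) ε,
          inner ℂ (AN.Ts0 ψ (AN.vG S φ ψ Om a) (R n) p.1 p.2) (S.res φ (u' n) p.1 p.2) ∂(volume.prod volume) := by
      rw [Sl]
      refine setIntegral_congr_fun (glb_Nr_meas ψ Metric.isClosed_closedBall dm (R n) ε) fun p hp => ?_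
      have h3 := gc459_shl φ ψ z hz0 he3 hRn (hsub hp)
      have h4 : 0 < ‖z‖ * R n := by positivity
      have h5 := hu2 n (emb φ p.1 p.2) (by nlinarith [h3.1]) (by nlinarith [h3.2])
      simp only [Setup.res, h5]
    rw [e1]
    have hNb := glc_mass (hu1 n).1 hcN ((hNR (R n) hRn).2 (u' n) (hu1 n).1 (hu1 n).2).1 (hu3 n)
    have hNr : ∫ p in Nr ψ (Metric.closedBall z δ) dm (R n) ε, ‖S.res φ (u' n) p.1 p.2‖ ^ 2 ∂(volume.prod volume) ≤
        C / cN := (gb459_mono hsub (hg.restrict _)).trans hNb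
    refine (gb459_cmp (T := fun p : Cfg dh × Wsp dm => AN.Ts0 ψ (AN.vG S φ ψ Om a) (R n) p.1 p.2)
      (g := fun p : Cfg dh × Wsp dm => S.res φ (u' n) p.1 p.2)
      (AN.SfuA.meas_Nb _ _ _) (glb_Nr_meas ψ Metric.isClosed_closedBall dm (R n) ε) (gc459_tail_meas ψ ε (R n))
      (hT1 (R n) hRn).1 (hg.restrict _) (hg.restrict _) ?_).trans ?_
    · intro p hp hpB
      have h3 := glc_T0 ha.2 hp
      have h4 : ‖AN.hs ψ p.1‖ < ε * R n ∧ ‖p.2‖ < ε * R n := by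
        simp only [Set.mem_ofPred_eq, not_or, not_le] at hpB
        exact hpB
      have h5 : p ∈ Nr ψ (Metric.closedBall z δ) dm (R n) ε := ⟨h3, h4.1, h4.2⟩
      exact ⟨fun _ => h5, fun _ => hsub h5⟩
    · refine mul_le_mul_of_nonneg_left (add_le_add (Real.sqrt_le_sqrt hNb) (Real.sqrt_le_sqrt hNr))
        (Real.sqrt_nonneg _)
  have l2 : Tendsto (fun n => (∫ p in AN.Nb (AN.cmb ψ z 0) dm (R n) e,
      inner ℂ (AN.Ts0 ψ (AN.vG S φ ψ Om a) (R n) p.1 p.2) (S.res φ (u' n) p.1 p.2) ∂(volume.prod volume)) -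
      Sl S φ ψ Om (Metric.closedBall z δ) ε a (R n) (u n)) atTop (𝓝 0) := by
    refine squeeze_zero_norm key ?_
    have h3 := ((Real.continuous_sqrt.tendsto 0).comp hlimB).mul_const (Real.sqrt (C / cN) + Real.sqrt (C / cN))
    rw [Real.sqrt_zero, zero_mul] at h3
    exact h3
  have l3 := l1.add l2
  rw [add_zero] at l3
  refine l3.congr' ?_
  filter_upwards [hZ1, glcX_ev (r := r) (ds := ds) (dm := dm) hδ₀ hu.lim] with n h3 h4
  rw [h3, h4]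
  unfold ZZ
  ring

omit [InnerProductSpace ℂ F] in
/-- change of the section on a null set -/
theorem glc_rep {A : Set (Cfg r)} (hA : MeasurableSet A) {a : Cfg r → Cfg ds → F} (ha : Sec2 A a) :
    ∃ a' : Cfg r → Cfg ds → F, StronglyMeasurable (fun q : Cfg r × Cfg ds => a' q.1 q.2) ∧ Sec2 A a' ∧
      ∀ᵐ q : Cfg r × Cfg ds ∂(volume.prod volume), a q.1 q.2 = a' q.1 q.2 := by
  have hm := ha.1.1.stronglyMeasurable_mk
  have hae := ha.1.1.ae_eq_mk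
  have hT : MeasurableSet (A ×ˢ (Set.univ : Set (Cfg ds))) := hA.prod MeasurableSet.univ
  have hae' : ∀ᵐ q : Cfg r × Cfg ds ∂(volume.prod volume), a q.1 q.2 =
      (A ×ˢ (Set.univ : Set (Cfg ds))).indicator (ha.1.1.mk _) (q.1, q.2) := by
    filter_upwards [hae] with q hq
    by_cases h : q.1 ∈ A
    · rw [Set.indicator_of_mem (show (q.1, q.2) ∈ A ×ˢ (Set.univ : Set (Cfg ds)) from ⟨h, Set.mem_univ _⟩)]
      exact hq
    · rw [Set.indicator_of_notMem (fun hc => h hc.1)]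
      by_contra hc
      exact h (ha.2 _ _ hc)
  refine ⟨fun η s => (A ×ˢ (Set.univ : Set (Cfg ds))).indicator (ha.1.1.mk _) (η, s), hm.indicator hT, ⟨?_, ?_⟩, hae'⟩
  · exact (memLp_congr_ae hae').1 ha.1
  · intro η s h
    by_contra hc
    exact h (Set.indicator_of_notMem (fun hh => hc hh.1) _)

theorem glc_loc (S : Setup d F) (hfin : FiniteDimensional ℂ F) (hGlu : AN.GluStmt S) (hN : AN.NormStmt S)
    (hM : AN.MeaStmt S) (hGau : AN.GauStmt) (hAlg : AlgStmt) (hRad : RadStmt S) (hSup : SupZStmt F)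
    (hTail : TailStmt S) (hVG : VGStmt S)
    (φ : Spl dh dm d) (ψ : Spl r ds dh) {z₀ : Cfg r} (h2 : AD.Std2 S φ (spsw ψ) z₀)
    {L : Finset (Fin r → ℝ)} {Om : Cfg r → Matrix (Fin dm) (Fin dm) ℝ} {K : Submodule ℂ F} {U : Cfg r → F →L[ℂ] F}
    (hB : AX.Bun S φ (AX.Mz S φ (spsw ψ)) L Om K U) {z : Cfg r} (hz : z ∈ R8 S φ ψ) (hz0 : z ≠ 0) :
    ∃ δ ε₀ : ℝ, 0 < δ ∧ 0 < ε₀ ∧ ∀ ε : ℝ, 0 < ε → ε ≤ ε₀ → ∀ (R : ℕ → ℝ) (u : ℕ → Cfg d → F), SqM S R u →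
      ∀ a : Cfg r → Cfg ds → F, Sec2 (Metric.closedBall z δ) a →
      Tendsto (fun n => ZZ S.κ φ ψ Om a (R n) (u n) - Sl S φ ψ Om (Metric.closedBall z δ) ε a (R n) (u n))
        atTop (𝓝 0) := by
  obtain ⟨δ, ε₀, hδ, hε₀, H⟩ := glc_loc0 S hfin hGlu hN hM hGau hAlg hRad hSup hTail hVG φ ψ h2 hB hz hz0
  refine ⟨δ, ε₀, hδ, hε₀, fun ε hε hεε R u hu a ha => ?_⟩
  obtain ⟨a', h1, h3, h4⟩ := glc_rep Metric.isClosed_closedBall.measurableSet ha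
  refine (H ε hε hεε R u hu a' h1 h3).congr fun n => ?_
  rw [gc459_ZZ S.κ φ ψ Om h4 (hu.pos n) (u n), gc459_Sl S φ ψ Om _ ε h4 (hu.pos n) (u n)]

/-- additivity of the slice functional -/
theorem glc_Sl_add (S : Setup d F) (φ : Spl dh dm d) (ψ : Spl r ds dh) (Om : Cfg r → Matrix (Fin dm) (Fin dm) ℝ)
    (A : Set (Cfg r)) (ε : ℝ) {a a' : Cfg r → Cfg ds → F} {R : ℝ} {u : Cfg d → F} (hu : Setup.Tst u)
    (h : MemLp (fun p : Cfg dh × Wsp dm => AN.Ts0 ψ (AN.vG S φ ψ Om a) R p.1 p.2) 2 (volume.prod volume))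
    (h' : MemLp (fun p : Cfg dh × Wsp dm => AN.Ts0 ψ (AN.vG S φ ψ Om a') R p.1 p.2) 2 (volume.prod volume)) :
    Sl S φ ψ Om A ε (fun η s => a η s + a' η s) R u = Sl S φ ψ Om A ε a R u + Sl S φ ψ Om A ε a' R u := by
  have hg := AN.SfuA.memLp_res (dh := dh) (dm := dm) S φ hu
  unfold Sl
  rw [← integral_add (AN.SfuA.int_inner h hg).restrict (AN.SfuA.int_inner h' hg).restrict]
  refine integral_congr_ae (Eventually.of_forall fun p => ?_)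
  simp only [AN.Ts0, AN.vG, smul_add, inner_add_left]

/-- **L-GluC** -/
theorem gluC_of (S : Setup d F) : GluCOfStmt S := by
  intro hGlu hN hM hGau hAlg hRad hSup hLin hTail hVG hfin dh dm r ds φ ψ z₀ h2 L Om K U hB A hA hA8 h0
  have hARg : A ⊆ Rg S φ ψ := fun η hη => glb_Rg h2 (hA8 hη)
  have hmemT : ∀ a : Cfg r → Cfg ds → F, Sec2 A a → ∀ R : ℝ, 0 < R →
      MemLp (fun p : Cfg dh × Wsp dm => AN.Ts0 ψ (AN.vG S φ ψ Om a) R p.1 p.2) 2 (volume.prod volume) := by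
    intro a ha R hR
    have hvG := hVG hfin hGau hAlg dh dm r ds φ ψ Om A hA
      (fun η hη => ⟨glc_frz h2 (hA8 hη), glc_om h2 hB (hA8 hη)⟩) ((glc_omc h2 hB).mono hA8) a ha
    exact ((hTail hfin hM dh dm r ds φ ψ h2.std.sub (AN.vG S φ ψ Om a) hvG.1).1 R hR).1
  have hP : ∃ B', MeasurableSet B' ∧ A ⊆ B' ∧ ∃ ε₀ : ℝ, 0 < ε₀ ∧ ∀ ε : ℝ, 0 < ε → ε ≤ ε₀ →
      ∀ (R : ℕ → ℝ) (u : ℕ → Cfg d → F), SqM S R u → ∀ a : Cfg r → Cfg ds → F, Sec2 A a → (∀ η s, a η s ≠ 0 → η ∈ B') →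
      Tendsto (fun n => ZZ S.κ φ ψ Om a (R n) (u n) - Sl S φ ψ Om A ε a (R n) (u n)) atTop (𝓝 0) := by
    refine hA.induction_on (p := fun B => ∃ B', MeasurableSet B' ∧ B ⊆ B' ∧ ∃ ε₀ : ℝ, 0 < ε₀ ∧ ∀ ε : ℝ, 0 < ε → ε ≤ ε₀ →
      ∀ (R : ℕ → ℝ) (u : ℕ → Cfg d → F), SqM S R u → ∀ a : Cfg r → Cfg ds → F, Sec2 A a → (∀ η s, a η s ≠ 0 → η ∈ B') →
      Tendsto (fun n => ZZ S.κ φ ψ Om a (R n) (u n) - Sl S φ ψ Om A ε a (R n) (u n)) atTop (𝓝 0)) ?_ ?_ ?_ ?_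
    · refine ⟨∅, MeasurableSet.empty, Set.Subset.rfl, 1, one_pos, fun ε _ _ R u _ a _ h => ?_⟩
      have ha0 : ∀ η s, a η s = 0 := by
        intro η s
        by_contra hc
        exact Set.notMem_empty _ (h η s hc)
      simp [ZZ, Sl, AN.Zb, AN.bG, AN.Ts0, AN.vG, ha0]
    · rintro s t hst ⟨B', h1, h3, h4⟩
      exact ⟨B', h1, hst.trans h3, h4⟩
    · rintro s t ⟨B₁, m1, s1, ε₁, hε₁, H₁⟩ ⟨B₂, m2, s2, ε₂, hε₂, H₂⟩
      refine ⟨B₁ ∪ B₂, m1.union m2, Set.union_subset_union s1 s2, min ε₁ ε₂, lt_min hε₁ hε₂, ?_⟩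
      intro ε hε hεε R u hu a ha hsupp
      have hi1 : MeasurableSet (B₁ ×ˢ (Set.univ : Set (Cfg ds))) := m1.prod MeasurableSet.univ
      obtain ⟨a₁, ha₁⟩ : ∃ a₁ : Cfg r → Cfg ds → F, a₁ = fun η s =>
        (B₁ ×ˢ (Set.univ : Set (Cfg ds))).indicator (fun q : Cfg r × Cfg ds => a q.1 q.2) (η, s) := ⟨_, rfl⟩
      obtain ⟨a₂, ha₂⟩ : ∃ a₂ : Cfg r → Cfg ds → F, a₂ = fun η s =>
        (B₁ ×ˢ (Set.univ : Set (Cfg ds)))ᶜ.indicator (fun q : Cfg r × Cfg ds => a q.1 q.2) (η, s) := ⟨_, rfl⟩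
      have hsum : (fun η s => a₁ η s + a₂ η s) = a := by
        funext η s
        rw [ha₁, ha₂]
        exact congrFun (Set.indicator_self_add_compl (B₁ ×ˢ (Set.univ : Set (Cfg ds)))
          (fun q : Cfg r × Cfg ds => a q.1 q.2)) (η, s)
      have k1 : ∀ η s, a₁ η s ≠ 0 → η ∈ B₁ ∧ a η s ≠ 0 := by
        intro η s h
        rw [ha₁] at h
        by_cases hq : (η, s) ∈ B₁ ×ˢ (Set.univ : Set (Cfg ds))
        · simp only [Set.indicator_of_mem hq] at h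
          exact ⟨hq.1, h⟩
        · exact absurd (Set.indicator_of_notMem hq _) h
      have k2 : ∀ η s, a₂ η s ≠ 0 → η ∉ B₁ ∧ a η s ≠ 0 := by
        intro η s h
        rw [ha₂] at h
        by_cases hq : (η, s) ∈ (B₁ ×ˢ (Set.univ : Set (Cfg ds)))ᶜ
        · simp only [Set.indicator_of_mem hq] at h
          exact ⟨fun hh => hq ⟨hh, Set.mem_univ _⟩, h⟩
        · exact absurd (Set.indicator_of_notMem hq _) h
      have hs1 : Sec2 A a₁ := ⟨by rw [ha₁]; exact ha.1.indicator hi1, fun η s h => ha.2 η s (k1 η s h).2⟩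
      have hs2 : Sec2 A a₂ := ⟨by rw [ha₂]; exact ha.1.indicator hi1.compl, fun η s h => ha.2 η s (k2 η s h).2⟩
      have t1 := H₁ ε hε (hεε.trans (min_le_left _ _)) R u hu a₁ hs1 fun η s h => (k1 η s h).1
      have t2 := H₂ ε hε (hεε.trans (min_le_right _ _)) R u hu a₂ hs2 fun η s h => by
        rcases hsupp η s (k2 η s h).2 with h' | h'
        · exact absurd h' (k2 η s h).1
        · exact h'
      have t3 := t1.add t2
      rw [add_zero] at t3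
      refine t3.congr fun n => ?_
      have e1 := (hLin hfin dh dm r ds φ ψ L Om K U hB A hA hARg (R n) (hu.pos n) (u n) (hu.inv n).1).2.1 a₁ a₂ hs1 hs2
      have e2 := glc_Sl_add S φ ψ Om A ε (hu.inv n).1 (hmemT a₁ hs1 (R n) (hu.pos n)) (hmemT a₂ hs2 (R n) (hu.pos n))
      rw [hsum] at e1 e2
      rw [e1, e2]
      ring
    · intro x hx
      have hx0 : x ≠ 0 := fun h => h0 (h ▸ hx)
      obtain ⟨δ, ε₀, hδ, hε₀, H⟩ := glc_loc S hfin hGlu hN hM hGau hAlg hRad hSup hTail hVG φ ψ h2 hB (hA8 hx) hx0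
      refine ⟨Metric.closedBall x δ, mem_nhdsWithin_of_mem_nhds (Metric.closedBall_mem_nhds x hδ),
        Metric.closedBall x δ, Metric.isClosed_closedBall.measurableSet, Set.Subset.rfl, ε₀, hε₀, ?_⟩
      intro ε hε hεε R u hu a ha hsupp
      refine (H ε hε hεε R u hu a ⟨ha.1, hsupp⟩).congr fun n => ?_
      have hboth : ∀ η s, a η s ≠ 0 → η ∈ A ∩ Metric.closedBall x δ := fun η s h => ⟨ha.2 η s h, hsupp η s h⟩
      rw [glb_Sl S φ ψ Om Metric.isClosed_closedBall Set.inter_subset_right ε hboth,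
        glb_Sl S φ ψ Om hA.isClosed Set.inter_subset_left ε hboth]
  obtain ⟨B', -, hAB, ε₀, hε₀, H⟩ := hP
  exact ⟨ε₀, hε₀, fun ε hε hε' R u hu a ha => H ε hε hε' R u hu a ha fun η s h => hAB (ha.2 η s h)⟩

end Vale.Agent.P353.Z.AL
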