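import Vale.Agent.P353.AN.L.StmtU

/-! # P353, all `N`, block L: injectivity of the parametrisation of a stratum (`InjUStmt`; helper276) -/

open MeasureTheory Filter Topology Matrix
open scoped ContDiff

namespace Vale.Agent.P353.Z.AL

variable {d dh dm r ds : ℕ} {F : Type*} [NormedAddCommGroup F] [InnerProductSpace ℂ F]

/-- the same gauge algebra on the trivial fermion space -/
noncomputable def iju (S : Setup d F) : Setup d (EuclideanSpace ℂ (Fin 0)) where
  g := S.g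
  g_symm := S.g_symm
  g_anti := S.g_anti
  th := fun _ _ => 0
  th_anti := fun α A β B => Subsingleton.elim _ _
  κ := S.κ
  κ_pos := S.κ_pos
  f := S.f
  f_swap := S.f_swap
  f_cyc := S.f_cyc
  f_jac := S.f_jac
  g_real := S.g_real
  th_sa := fun α A v w => by
    rw [Subsingleton.elim v 0, Subsingleton.elim w 0]
    simp

/-- colour vectors supported on the first summand -/
noncomputable def ihv (φ : Spl dh dm d) (v : Fin dh → ℝ) : Fin d → ℝ :=
  fun A => Sum.elim v (fun _ => 0) (φ.symm A)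

/-- colour vectors supported on the centre indices -/
noncomputable def izv (φ : Spl dh dm d) (ψ : Spl r ds dh) (t : Fin r → ℝ) : Fin d → ℝ :=
  ihv φ fun B => Sum.elim t (fun _ => 0) (ψ.symm B)

lemma ihv_inl (φ : Spl dh dm d) (v : Fin dh → ℝ) (A : Fin dh) : ihv φ v (φ (Sum.inl A)) = v A := by
  simp [ihv]

lemma ihv_inr (φ : Spl dh dm d) (v : Fin dh → ℝ) (B : Fin dm) : ihv φ v (φ (Sum.inr B)) = 0 := by
  simp [ihv]

lemma iju_adm (S : Setup d F) (φ : Spl dh dm d) (v : Fin dh → ℝ) (A C : Fin d) :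
    S.adm (ihv φ v) A C = ∑ B, S.f A (φ (Sum.inl B)) C * v B := by
  change ∑ B, S.f A B C * ihv φ v B = _
  rw [← φ.sum_comp, Fintype.sum_sum_type]
  simp only [ihv_inl, ihv_inr, mul_zero, Finset.sum_const_zero, add_zero]

lemma iju_inr {S : Setup d F} {φ : Spl dh dm d} (h : S.IsSub φ) (v : Fin dh → ℝ) (u : Fin d → ℝ)
    (B : Fin dm) : (S.adm (ihv φ v)).mulVec u (φ (Sum.inr B)) =
      (S.Dm φ v).mulVec (fun C => u (φ (Sum.inr C))) B := by
  simp only [Matrix.mulVec, dotProduct]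
  rw [← φ.sum_comp, Fintype.sum_sum_type]
  have h1 : ∀ C, S.adm (ihv φ v) (φ (Sum.inr B)) (φ (Sum.inl C)) = 0 := by
    intro C
    rw [iju_adm]
    refine Finset.sum_eq_zero fun E _ => ?_
    rw [S.f_cyc, h, zero_mul]
  have h2 : ∀ C, S.adm (ihv φ v) (φ (Sum.inr B)) (φ (Sum.inr C)) = S.Dm φ v B C := fun C => by
    rw [iju_adm]
    rfl
  simp only [h1, h2, zero_mul, Finset.sum_const_zero, zero_add]

lemma iju_zero {S : Setup d F} {φ : Spl dh dm d} {ψ : Spl r ds dh} (h : S.IsSub φ)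
    (hc : S.IsCen φ ψ) (t : Fin r → ℝ) (u : Fin d → ℝ) (hu : ∀ B, u (φ (Sum.inr B)) = 0) :
    (S.adm (izv φ ψ t)).mulVec u = 0 := by
  funext A
  obtain ⟨A, rfl⟩ := φ.surjective A
  rcases A with A | A
  · simp only [Matrix.mulVec, dotProduct]
    rw [← φ.sum_comp, Fintype.sum_sum_type]
    have h1 : ∀ C, S.adm (izv φ ψ t) (φ (Sum.inl A)) (φ (Sum.inl C)) = 0 := by
      intro C
      rw [izv, iju_adm, ← ψ.sum_comp, Fintype.sum_sum_type]
      have h2 : ∀ b, S.f (φ (Sum.inl A)) (φ (Sum.inl (ψ (Sum.inl b)))) (φ (Sum.inl C)) = 0 := by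
        intro b
        rw [S.f_cyc, hc]
      simp [h2]
    simp [h1, hu]
  · rw [izv, iju_inr h]
    have h1 : (fun C => u (φ (Sum.inr C))) = (0 : Fin dm → ℝ) := funext hu
    rw [h1, Matrix.mulVec_zero]
    rfl

/-- the components of a point with coordinates `cmb ψ η 0` are central colour vectors -/
lemma iju_emb (φ : Spl dh dm d) (ψ : Spl r ds dh) (η : Cfg r) (i : Fin 9) (A : Fin d) :
    emb φ (cmb ψ η 0) 0 (i, A) = izv φ ψ (fun a => η (i, a)) A := by
  obtain ⟨A, rfl⟩ := φ.surjective A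
  rcases A with A | A
  · obtain ⟨A, rfl⟩ := ψ.surjective A
    rcases A with A | A
    · simp [emb, izv, ihv, cmb]
    · simp [emb, izv, ihv, cmb]
  · simp only [emb, izv, ihv, Equiv.symm_apply_apply, Sum.elim_inr]
    refine Fin.lastCases ?_ (fun j => ?_) i
    · exact Fin.lastCases_last
    · exact (Fin.lastCases_castSucc _)

lemma iju_Dm (S : Setup d F) (φ : Spl dh dm d) (ψ : Spl r ds dh) (η : Cfg r) (i : Fin 9) :
    S.Dm φ (fun B => Sum.elim (fun a => η (i, a)) (fun _ => 0) (ψ.symm B)) = S.Dz φ ψ η i := by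
  have h1 : (fun B => Sum.elim (fun a => η (i, a)) (fun _ => 0) (ψ.symm B)) =
      fun A => cmb ψ η 0 (i, A) := by
    funext B
    obtain ⟨B, rfl⟩ := ψ.surjective B
    rcases B with B | B
    · simp [cmb]
    · simp [cmb]
  rw [h1]
  rfl

lemma iju_inv {M : Matrix (Fin dm) (Fin dm) ℝ} (hM : M.det ≠ 0) {u : Fin dm → ℝ}
    (h : M.mulVec u = 0) : u = 0 :=
  Matrix.eq_zero_of_mulVec_eq_zero hM h

/-- **L-InjU** -/
theorem injU_of (S : Setup d F) : InjUOfStmt S := by
  intro hInj hless dh dm r ds φ ψ z₀ hstd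
  have hsub : S.IsSub φ := hstd.std.sub
  have hcen : S.IsCen φ ψ := fun a B C => hstd.cen a B C
  set H : Set (Fin d → ℝ) := {u | ∀ B, u (φ (Sum.inr B)) = 0} with hH
  set z : Set (Fin d → ℝ) := Set.range (izv φ ψ) with hz
  have hzH : ∀ t, izv φ ψ t ∈ H := fun t B => ihv_inr φ _ B
  -- `ad` of the components
  have hcomp : ∀ (η : Cfg r) (i : Fin 9) (u : Fin d → ℝ),
      (S.adm (izv φ ψ fun a => η (i, a))).mulVec u = 0 →
      (S.Dz φ ψ η i).mulVec (fun C => u (φ (Sum.inr C))) = 0 := by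
    intro η i u h
    funext B
    rw [← iju_Dm, ← iju_inr hsub]
    have := congrFun h (φ (Sum.inr B))
    exact this
  have hcz : AP.cen (iju S) z = H := by
    apply Set.Subset.antisymm
    · intro u hu
      have h1 : (S.adm (izv φ ψ fun a => z₀ (8, a))).mulVec u = 0 := hu _ ⟨_, rfl⟩
      have h2 := hcomp z₀ 8 u h1
      have h3 : S.Dz φ ψ z₀ 8 = S.Dy φ 8 (AD.cmb (spsw ψ) 0 z₀) := by
        have h4 : cmb ψ z₀ 0 = AD.cmb (spsw ψ) 0 z₀ := by
          ext ⟨i, B⟩
          obtain ⟨B, rfl⟩ := ψ.surjective B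
          rcases B with B | B
          · simp [cmb, AD.cmb, spsw]
          · simp [cmb, AD.cmb, spsw]
        rw [Setup.Dz, h4]
      rw [h3] at h2
      exact fun B => congrFun (iju_inv hstd.std.inv h2) B
    · rintro u hu _ ⟨t, rfl⟩
      exact iju_zero hsub hcen t u hu
  have hcy : ∀ η ∈ Rg S φ ψ, AP.cen (iju S) (Set.range fun i : Fin 9 =>
      izv φ ψ fun a => η (i, a)) = AP.cen (iju S) z := by
    intro η hη
    rw [hcz]
    apply Set.Subset.antisymm
    · intro u hu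
      have h1 : ∀ i, (S.Dz φ ψ η i).mulVec (fun C => u (φ (Sum.inr C))) = 0 := fun i =>
        hcomp η i u (hu _ ⟨i, rfl⟩)
      have h2 : (∑ i, S.Dz φ ψ η i * S.Dz φ ψ η i).mulVec (fun C => u (φ (Sum.inr C))) = 0 := by
        rw [Matrix.sum_mulVec]
        refine Finset.sum_eq_zero fun i _ => ?_
        rw [← Matrix.mulVec_mulVec, h1, Matrix.mulVec_zero]
      exact fun B => congrFun (iju_inv hη h2) B
    · rintro u hu _ ⟨i, rfl⟩
      exact iju_zero hsub hcen _ u hu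
  have hab : ∀ a ∈ z, ∀ b ∈ z, AP.br (iju S) a b = 0 := by
    rintro _ ⟨t, rfl⟩ _ ⟨t', rfl⟩
    exact iju_zero hsub hcen t _ (hzH t')
  have hl : ∀ a : Fin d → ℝ, (∀ b, AP.br (iju S) a b = 0) → a = 0 := by
    intro a ha
    apply hless
    intro B C
    have h1 := congrFun (ha (Pi.single C 1)) B
    have h2 : (S.adm a).mulVec (Pi.single C 1) B = S.adm a B C := by simp
    have h3 : S.adm a B C = 0 := h2.symm.trans h1
    change ∑ E, S.f B E C * a E = 0 at h3
    have h4 : ∀ E, S.f E B C * a E = -(S.f B E C * a E) := by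
      intro E
      rw [S.f_swap E B C]
      ring
    simp only [h4, Finset.sum_neg_distrib, h3, neg_zero]
  obtain ⟨δ, hδ, hmain⟩ := hInj d (iju S) hl z hab
  refine ⟨Real.sqrt δ, Real.sqrt_pos.2 hδ, ?_⟩
  intro η hη η' hη' a a' ha ha' hE
  have hort : ∀ (a : EuclideanSpace ℝ (Fin dm)), ∀ v ∈ AP.cen (iju S) z, ∑ A, AN.exm φ a A * v A = 0 := by
    intro a v hv
    rw [hcz] at hv
    rw [← φ.sum_comp, Fintype.sum_sum_type]
    have h1 : ∀ B, v (φ (Sum.inr B)) = 0 := hv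
    simp [AN.exm, h1]
  have hnrm : ∀ (a : EuclideanSpace ℝ (Fin dm)), ‖a‖ < Real.sqrt δ → ∑ A, AN.exm φ a A ^ 2 < δ := by
    intro a ha
    rw [← φ.sum_comp, Fintype.sum_sum_type]
    have h1 : ∑ B, a B ^ 2 = ‖a‖ ^ 2 := by
      rw [EuclideanSpace.norm_sq_eq]
      simp
    have h2 : ‖a‖ ^ 2 < δ := by
      have := pow_lt_pow_left₀ ha (norm_nonneg _) two_ne_zero
      rwa [Real.sq_sqrt hδ.le] at this
    have h3 : (∑ A : Fin dh, AN.exm φ a (φ (Sum.inl A)) ^ 2) + ∑ B : Fin dm, AN.exm φ a (φ (Sum.inr B)) ^ 2 =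
        ∑ B, a B ^ 2 := by
      simp [AN.exm]
    rw [h3, h1]
    exact h2
  have hexp : ∀ i, (NormedSpace.exp ((iju S).adm (AN.exm φ a))).mulVec (izv φ ψ fun b => η (i, b)) =
      (NormedSpace.exp ((iju S).adm (AN.exm φ a'))).mulVec (izv φ ψ fun b => η' (i, b)) := by
    intro i
    funext A
    have h1 := congrArg (fun x : Cfg d => x (i, A)) hE
    simp only [AN.tub, ro] at h1
    simp only [iju_emb] at h1
    exact h1
  have h := hmain (fun i => izv φ ψ fun b => η (i, b)) (fun i => izv φ ψ fun b => η' (i, b))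
    (AN.exm φ a) (AN.exm φ a') (fun i => ⟨_, rfl⟩) (fun i => ⟨_, rfl⟩) (hcy η hη) (hcy η' hη')
    (hort a) (hort a') (hnrm a ha) (hnrm a' ha') hexp
  constructor
  · ext B
    have := congrFun h.2 (φ (Sum.inr B))
    simpa [AN.exm] using this
  · ext ⟨i, b⟩
    have h1 := congrFun (congrFun h.1 i) (φ (Sum.inl (ψ (Sum.inl b))))
    simpa [izv, ihv] using h1

end Vale.Agent.P353.Z.AL
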