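import Vale.Agent.P353.AN.L.Stmt

/-! # P353, all `N`, block L: L-Iso (helper38) -/

open MeasureTheory Filter Topology Matrix
open scoped ContDiff

namespace Vale.Agent.P353.Z.AL

variable {d dh dm r ds n : ℕ} {F : Type*} [NormedAddCommGroup F] [InnerProductSpace ℂ F]

private lemma iso_inner_int {f g : Cfg ds → F} (hf : MemLp f 2 (volume : Measure (Cfg ds)))
    (hg : MemLp g 2 (volume : Measure (Cfg ds))) : Integrable fun x => inner ℂ (f x) (g x) := by
  have h := hf.norm.integrable_mul hg.norm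
  refine h.mono' ?_ ?_
  · exact continuous_inner.comp_aestronglyMeasurable (hf.1.prodMk hg.1)
  · exact Eventually.of_forall fun x => by
      simpa using norm_inner_le_norm (𝕜 := ℂ) (f x) (g x)

private lemma iso_fib {U : Cfg r → F →L[ℂ] F} (hU : ∀ η v w, inner ℂ (U η v) (U η w) = inner ℂ v w)
    {o : Fin n → Cfg ds → F} (hm : ∀ j, MemLp (o j) 2 (volume : Measure (Cfg ds)))
    (ort : ∀ j k, ∫ x, inner ℂ (o j x) (o k x) = if j = k then 1 else 0) (b : Cfg r → Ek n) (η : Cfg r) :
    Integrable (fun s => ‖sc U o b η s‖ ^ 2) ∧ ∫ s, ‖sc U o b η s‖ ^ 2 = ‖b η‖ ^ 2 := by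
  have e : ∀ s, (((‖sc U o b η s‖ ^ 2 : ℝ)) : ℂ) =
      ∑ j, ∑ k, (starRingEnd ℂ) (b η j) * (b η k * inner ℂ (o j s) (o k s)) := by
    intro s
    have : (((‖sc U o b η s‖ ^ 2 : ℝ)) : ℂ) = inner ℂ (sc U o b η s) (sc U o b η s) := by
      rw [inner_self_eq_norm_sq_to_K]; push_cast; rfl
    rw [this, sc, sum_inner]
    refine Finset.sum_congr rfl fun j _ => ?_
    rw [inner_sum]
    refine Finset.sum_congr rfl fun k _ => ?_
    rw [inner_smul_left, inner_smul_right, hU]
  have hi : ∀ j k, Integrable fun s => (starRingEnd ℂ) (b η j) * (b η k * inner ℂ (o j s) (o k s)) :=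
    fun j k => ((iso_inner_int (hm j) (hm k)).const_mul _).const_mul _
  have hI : Integrable fun s => (((‖sc U o b η s‖ ^ 2 : ℝ)) : ℂ) := by
    simp_rw [e]
    exact integrable_finsetSum _ fun j _ => integrable_finsetSum _ fun k _ => hi j k
  have hR : Integrable fun s => ‖sc U o b η s‖ ^ 2 :=
    hI.re.congr (Eventually.of_forall fun s => Complex.ofReal_re _)
  refine ⟨hR, ?_⟩
  have h1 : ((∫ s, ‖sc U o b η s‖ ^ 2 : ℝ) : ℂ) = ((‖b η‖ ^ 2 : ℝ) : ℂ) := by
    rw [← integral_complex_ofReal]
    simp_rw [e]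
    rw [integral_finsetSum _ fun j _ => integrable_finsetSum _ fun k _ => hi j k]
    have : ∀ j, ∫ s, ∑ k, (starRingEnd ℂ) (b η j) * (b η k * inner ℂ (o j s) (o k s)) =
        (starRingEnd ℂ) (b η j) * b η j := by
      intro j
      rw [integral_finsetSum _ fun k _ => hi j k]
      simp_rw [integral_const_mul, ort]
      simp
    simp_rw [this]
    rw [EuclideanSpace.norm_sq_eq]
    push_cast
    refine Finset.sum_congr rfl fun j _ => ?_
    rw [mul_comm, Complex.mul_conj, Complex.normSq_eq_norm_sq]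
    push_cast; rfl
  exact_mod_cast h1

private lemma iso_meas {U : Cfg r → F →L[ℂ] F} {A : Set (Cfg r)} (hA : IsCompact A) (hU : ContinuousOn U A)
    {o : Fin n → Cfg ds → F} (hm : ∀ j, AEStronglyMeasurable (o j) (volume : Measure (Cfg ds)))
    {b : Cfg r → Ek n} (hb : AEStronglyMeasurable b (volume : Measure (Cfg r))) (h0 : ∀ x, x ∉ A → b x = 0) :
    AEStronglyMeasurable (fun q : Cfg r × Cfg ds => sc U o b q.1 q.2) (volume.prod volume) := by
  have hUm : AEStronglyMeasurable (A.indicator U) (volume : Measure (Cfg r)) := by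
    rw [aestronglyMeasurable_indicator_iff hA.measurableSet]
    exact hU.aestronglyMeasurable_of_isCompact hA hA.measurableSet
  have e : (fun q : Cfg r × Cfg ds => sc U o b q.1 q.2) =
      fun q : Cfg r × Cfg ds => ∑ j, b q.1 j • (A.indicator U q.1) (o j q.2) := by
    funext q
    refine Finset.sum_congr rfl fun j _ => ?_
    by_cases hq : q.1 ∈ A
    · rw [Set.indicator_of_mem hq]
    · rw [h0 _ hq]; simp
  rw [e]
  refine Finset.aestronglyMeasurable_fun_sum _ fun j _ => ?_
  have hbj : AEStronglyMeasurable (fun x => b x j) (volume : Measure (Cfg r)) :=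
    (EuclideanSpace.proj (𝕜 := ℂ) j).continuous.comp_aestronglyMeasurable hb
  have h2 : AEStronglyMeasurable (fun q : Cfg r × Cfg ds => (A.indicator U q.1) (o j q.2))
      (volume.prod volume) :=
    (isBoundedBilinearMap_apply (𝕜 := ℂ) (E := F) (F := F)).continuous.comp_aestronglyMeasurable
      ((hUm.comp_fst).prodMk ((hm j).comp_snd))
  exact (hbj.comp_fst).smul h2

/-- **L-Iso** -/
theorem iso (S : Setup d F) : IsoStmt S := by
  intro dh dm r ds n φ ψ L Om K U o T hD A hA hAL b hb h0
  have hUc : ContinuousOn U A := hD.bun.U_smooth.continuousOn.mono hAL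
  have hmeas := iso_meas hA hUc (fun j => (hD.mem j).1) hb.1 h0
  have hfib := iso_fib (U := U) hD.bun.U_inner hD.mem hD.ort b
  have hmsq : AEStronglyMeasurable (fun q : Cfg r × Cfg ds => ‖sc U o b q.1 q.2‖ ^ 2)
      (volume.prod volume) := hmeas.norm.pow 2
  have hint : Integrable (fun q : Cfg r × Cfg ds => ‖sc U o b q.1 q.2‖ ^ 2) (volume.prod volume) := by
    rw [integrable_prod_iff hmsq]
    refine ⟨Eventually.of_forall fun η => (hfib η).1, ?_⟩
    have : (fun η => ∫ s, ‖‖sc U o b η s‖ ^ 2‖) = fun η => ‖b η‖ ^ 2 := by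
      funext η
      rw [← (hfib η).2]
      refine integral_congr_ae (Eventually.of_forall fun s => ?_)
      simp
    rw [this]
    exact (memLp_two_iff_integrable_sq_norm hb.1).1 hb
  refine ⟨⟨(memLp_two_iff_integrable_sq_norm hmeas).2 hint, ?_⟩, ?_⟩
  · intro η s hs
    by_contra hη
    apply hs
    simp [sc, h0 η hη]
  · rw [n2, integral_prod _ hint]
    refine integral_congr_ae (Eventually.of_forall fun η => ?_)
    exact (hfib η).2

end Vale.Agent.P353.Z.AL
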