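import Vale.Agent.P353.AN.L.Stmt
import Vale.Agent.P353.AN.GL.Gau
import Vale.Agent.P353.AN.GL.Wgt
import Vale.Agent.P353.Z.Tools

/-! # P353, all `N`, block L: `LinStmt` (prover helper182) -/

open MeasureTheory Filter Topology Matrix
open scoped ContDiff ENNReal

namespace Vale.Agent.P353.Z.AL

section LinGen

variable {X E : Type*} [TopologicalSpace X] [NormedAddCommGroup E] [InnerProductSpace ℝ E] [FiniteDimensional ℝ E]

/-- uniform lower bound of a continuous family of positive definite forms -/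
theorem lin_ulow {A : Set X} (hA : IsCompact A) (Q : X → E → ℝ)
    (hc : ContinuousOn (fun p : X × E => Q p.1 p.2) (A ×ˢ Set.univ))
    (hh : ∀ x (t : ℝ) v, Q x (t • v) = t ^ 2 * Q x v) (hp : ∀ x ∈ A, ∀ v, v ≠ 0 → 0 < Q x v) :
    ∃ c : ℝ, 0 < c ∧ ∀ x ∈ A, ∀ v, c * ‖v‖ ^ 2 ≤ Q x v := by
  have h0 : ∀ x, Q x 0 = 0 := by
    intro x
    have := hh x 0 0
    rwa [smul_zero, zero_pow two_ne_zero, zero_mul] at this
  rcases A.eq_empty_or_nonempty with rfl | hne
  · exact ⟨1, one_pos, fun x hx => absurd hx (Set.notMem_empty x)⟩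
  rcases subsingleton_or_nontrivial E with hs | hs
  · refine ⟨1, one_pos, fun x _ v => ?_⟩
    rw [Subsingleton.elim v 0, h0]
    simp
  · obtain ⟨p0, hp0, hmin⟩ := (hA.prod (isCompact_sphere (0 : E) 1)).exists_isMinOn
      (hne.prod (NormedSpace.sphere_nonempty.2 zero_le_one)) (f := fun p : X × E => Q p.1 p.2)
      (hc.mono (Set.prod_mono le_rfl (Set.subset_univ _)))
    have hx0' : p0.2 ≠ 0 := by
      intro h
      have := hp0.2
      rw [h] at this
      simp at this
    refine ⟨Q p0.1 p0.2, hp p0.1 hp0.1 p0.2 hx0', fun x hx v => ?_⟩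
    by_cases hv : v = 0
    · rw [hv, h0]
      simp
    have hn : 0 < ‖v‖ := norm_pos_iff.2 hv
    have h1 := hmin (show (x, ‖v‖⁻¹ • v) ∈ A ×ˢ Metric.sphere (0 : E) 1 from ⟨hx, by
      rw [mem_sphere_zero_iff_norm, norm_smul, norm_inv, norm_norm, inv_mul_cancel₀ hn.ne']⟩)
    simp only [Set.mem_ofPred_eq, hh] at h1
    calc Q p0.1 p0.2 * ‖v‖ ^ 2 ≤ ‖v‖⁻¹ ^ 2 * Q x v * ‖v‖ ^ 2 := mul_le_mul_of_nonneg_right h1 (by positivity)
      _ = Q x v := by field_simp

variable [MeasurableSpace E] [BorelSpace E] [FirstCountableTopology X]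

/-- Gaussian integrals depend continuously on the form -/
theorem lin_gcont {A : Set X} (hA : IsCompact A) (Q : X → E → ℝ)
    (hc : ContinuousOn (fun p : X × E => Q p.1 p.2) (A ×ˢ Set.univ))
    (hh : ∀ x (t : ℝ) v, Q x (t • v) = t ^ 2 * Q x v) (hp : ∀ x ∈ A, ∀ v, v ≠ 0 → 0 < Q x v) {s : ℝ} (hs : 0 < s) :
    ContinuousOn (fun x => ∫ v : E, Real.exp (-(s * Q x v))) A ∧
      ∀ x ∈ A, 0 < ∫ v : E, Real.exp (-(s * Q x v)) := by
  have hcv : ∀ x ∈ A, Continuous (Q x) := by
    intro x hx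
    have h1 : Continuous fun v : E => (x, v) := by fun_prop
    have h2 := hc.comp_continuous h1 fun v => ⟨hx, Set.mem_univ v⟩
    exact h2
  obtain ⟨c, hc0, hcl⟩ := lin_ulow hA Q hc hh hp
  refine ⟨continuousOn_of_dominated (bound := fun v => Real.exp (-(s * c * ‖v‖ ^ 2))) ?_ ?_ ?_ ?_, fun x hx => ?_⟩
  · intro x hx
    exact (Real.continuous_exp.comp (continuous_const.mul (hcv x hx)).neg).aestronglyMeasurable
  · intro x hx
    refine Eventually.of_forall fun v => ?_
    rw [Real.norm_eq_abs, abs_of_pos (Real.exp_pos _), Real.exp_le_exp, neg_le_neg_iff, mul_assoc]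
    exact mul_le_mul_of_nonneg_left (hcl x hx v) hs.le
  · exact AN.gau_int_sq (mul_pos hs hc0)
  · refine Eventually.of_forall fun v => ?_
    have h1 : ContinuousOn (fun x : X => Q x v) A :=
      hc.comp (f := fun x : X => (x, v)) (by fun_prop) fun x hx => ⟨hx, Set.mem_univ v⟩
    exact Real.continuous_exp.comp_continuousOn (continuousOn_const.mul h1).neg
  · exact AN.gau_pos (Q x) (hcv x hx) (hh x) (hp x hx) hs

end LinGen

section LinNf

variable {r dm : ℕ} {κ : ℝ} {A : Set (Cfg r)} {Om : Cfg r → Matrix (Fin dm) (Fin dm) ℝ}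
  {D : Cfg r → Fin 9 → Matrix (Fin dm) (Fin dm) ℝ}

theorem lin_qX_cont (hO : ∀ B C, ContinuousOn (fun η => Om η B C) A) :
    ContinuousOn (fun p : Cfg r × Cfg dm => AN.qX (Om p.1) p.2) (A ×ˢ Set.univ) := by
  have h : ∀ B C, ContinuousOn (fun p : Cfg r × Cfg dm => Om p.1 B C) (A ×ˢ Set.univ) := fun B C =>
    (hO B C).comp (f := fun p : Cfg r × Cfg dm => p.1) continuous_fst.continuousOn fun p hp => hp.1
  unfold AN.qX
  refine continuousOn_finsetSum _ fun i _ => continuousOn_finsetSum _ fun B _ => continuousOn_finsetSum _ fun C _ => ?_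
  have h1 : Continuous fun p : Cfg r × Cfg dm => p.2 (i, B) := by fun_prop
  have h2 : Continuous fun p : Cfg r × Cfg dm => p.2 (i, C) := by fun_prop
  exact (h1.continuousOn.mul (h B C)).mul h2.continuousOn

theorem lin_Q_cont (hO : ∀ B C, ContinuousOn (fun η => Om η B C) A) :
    ContinuousOn (fun p : Cfg r × EuclideanSpace ℝ (Fin dm) => AN.gauQ (Om p.1) p.2) (A ×ˢ Set.univ) := by
  have h : ∀ B C, ContinuousOn (fun p : Cfg r × EuclideanSpace ℝ (Fin dm) => Om p.1 B C) (A ×ˢ Set.univ) := fun B C =>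
    (hO B C).comp (f := fun p : Cfg r × EuclideanSpace ℝ (Fin dm) => p.1) continuous_fst.continuousOn fun p hp => hp.1
  unfold AN.gauQ
  refine continuousOn_finsetSum _ fun B _ => continuousOn_finsetSum _ fun C _ => ?_
  have h1 : Continuous fun p : Cfg r × EuclideanSpace ℝ (Fin dm) => p.2 B := by fun_prop
  have h2 : Continuous fun p : Cfg r × EuclideanSpace ℝ (Fin dm) => p.2 C := by fun_prop
  refine (h1.continuousOn.mul ?_).mul h2.continuousOn
  simp only [Matrix.mul_apply]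
  refine continuousOn_finsetSum _ fun k _ => ContinuousOn.mul (continuousOn_finsetSum _ fun l _ => ?_) (h k C)
  exact (h B l).mul (h l k)

theorem lin_Nf_cont (hκ : 0 < κ) (hA : IsCompact A) (hO : ∀ B C, ContinuousOn (fun η => Om η B C) A)
    (hI : ∀ η ∈ A, IsOm κ (D η) (Om η)) : ContinuousOn (fun η => AN.Nf κ (Om η)) A := by
  have hG : ∀ s : ℝ, 0 < s → ContinuousOn (fun η => AN.Gs κ (Om η) s) A ∧ ∀ η ∈ A, 0 < AN.Gs κ (Om η) s := by
    intro s hs
    exact lin_gcont hA (fun η v => AN.gauQ (Om η) v) (lin_Q_cont hO) (fun η => AN.gauQ_smul (Om η))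
      (fun η hη => AN.gauQ_pos (hI η hη)) (s := s * (κ ^ 2)⁻¹) (by positivity)
  have hK : ContinuousOn (fun η => AN.Kx (Om η)) A ∧ ∀ η ∈ A, 0 < AN.Kx (Om η) := by
    have := lin_gcont hA (fun η v => AN.qX (Om η) v) (lin_qX_cont hO) (fun η => AN.gau_qX_smul (Om η))
      (fun η hη => AN.gau_qX_pos (hI η hη)) one_pos
    simp only [one_mul] at this
    exact this
  unfold AN.Nf
  refine Real.continuous_sqrt.comp_continuousOn ?_
  refine (hG 1 one_pos).1.div (((hG (1 / 2) (by norm_num)).1.pow 2).mul hK.1) fun η hη => ?_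
  have h1 := (hG (1 / 2) (by norm_num)).2 η hη
  have h2 := hK.2 η hη
  positivity

end LinNf

section LinMap

variable {d dh dm r ds : ℕ} {F : Type*} [NormedAddCommGroup F] [InnerProductSpace ℂ F]

/-- the change of variables `(η, s, X)` -/
noncomputable def linT (φ : Spl dh dm d) (ψ : Spl r ds dh) (R : ℝ) (x : Cfg d) : Cfg r × Cfg ds × Cfg dm :=
  (R⁻¹ • AN.hz ψ (AN.zy φ x), AN.hs ψ (AN.zy φ x), Real.sqrt R • AN.pm φ x)

theorem linT_meas (φ : Spl dh dm d) (ψ : Spl r ds dh) (R : ℝ) : Measurable (linT φ ψ R) := by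
  have h1 := (AN.wgt_mp φ ψ).measurable
  have h2 : Measurable fun q : Cfg r × Cfg ds × Cfg dm => ((R⁻¹ • q.1, q.2.1, Real.sqrt R • q.2.2) : Cfg r × Cfg ds × Cfg dm) := by
    fun_prop
  exact h2.comp h1

theorem linT_map (φ : Spl dh dm d) (ψ : Spl r ds dh) {R : ℝ} (hR : 0 < R) :
    ∃ c : ℝ≥0∞, c ≠ ⊤ ∧ Measure.map (linT φ ψ R) volume =
      c • ((volume : Measure (Cfg r)).prod ((volume : Measure (Cfg ds)).prod (volume : Measure (Cfg dm)))) := by
  have e1 := AN.wgt_map_smul (ι := Fin 9 × Fin r) R⁻¹ (inv_ne_zero hR.ne')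
  have e2 := AN.wgt_map_smul (ι := Fin 9 × Fin dm) (Real.sqrt R) (Real.sqrt_pos.2 hR).ne'
  have mc : ∀ {ι : Type} [Fintype ι] (c : ℝ), Measurable (fun x : EuclideanSpace ℝ ι => c • x) :=
    fun c => (continuous_const_smul c).measurable
  set k1 : ℝ≥0∞ := ENNReal.ofReal |(R⁻¹ ^ Fintype.card (Fin 9 × Fin r))⁻¹| with hk1
  set k2 : ℝ≥0∞ := ENNReal.ofReal |(Real.sqrt R ^ Fintype.card (Fin 9 × Fin dm))⁻¹| with hk2
  refine ⟨k1 * k2, ENNReal.mul_ne_top ENNReal.ofReal_ne_top ENNReal.ofReal_ne_top, ?_⟩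
  have hk2' : k2 ≠ ⊤ := ENNReal.ofReal_ne_top
  have hm : Measure.map (Prod.map (fun x : Cfg r => R⁻¹ • x) (Prod.map (id : Cfg ds → Cfg ds)
      (fun x : Cfg dm => Real.sqrt R • x)))
      ((volume : Measure (Cfg r)).prod ((volume : Measure (Cfg ds)).prod (volume : Measure (Cfg dm)))) =
      (k1 * k2) •
      ((volume : Measure (Cfg r)).prod ((volume : Measure (Cfg ds)).prod (volume : Measure (Cfg dm)))) := by
    rw [← Measure.map_prod_map _ _ (mc R⁻¹) (measurable_id.prodMap (mc (Real.sqrt R))),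
      ← Measure.map_prod_map _ _ measurable_id (mc (Real.sqrt R)), Measure.map_id, e1, e2,
      Measure.prod_smul_right, Measure.prod_smul_left, Measure.prod_smul_right, smul_smul]
  have h3 : linT φ ψ R = (Prod.map (fun x : Cfg r => R⁻¹ • x) (Prod.map (id : Cfg ds → Cfg ds)
      (fun x : Cfg dm => Real.sqrt R • x))) ∘ (fun x : Cfg d => (AN.hz ψ (AN.zy φ x), (AN.hs ψ (AN.zy φ x), AN.pm φ x))) := rfl
  rw [h3, ← Measure.map_map ((mc R⁻¹).prodMap ((measurable_id (α := Cfg ds)).prodMap (mc (Real.sqrt R))))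
    (AN.wgt_mp φ ψ).measurable, (AN.wgt_mp φ ψ).map_eq, hm]

omit [InnerProductSpace ℂ F] in
theorem lin_memT (φ : Spl dh dm d) (ψ : Spl r ds dh) {R : ℝ} (hR : 0 < R) {g : Cfg r × Cfg ds × Cfg dm → F}
    (hg : MemLp g 2 ((volume : Measure (Cfg r)).prod ((volume : Measure (Cfg ds)).prod (volume : Measure (Cfg dm))))) :
    MemLp (fun x => g (linT φ ψ R x)) 2 (volume : Measure (Cfg d)) := by
  obtain ⟨c, hc, hmap⟩ := linT_map φ ψ hR
  have h1 : MemLp g 2 (Measure.map (linT φ ψ R) volume) := by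
    rw [hmap]
    exact hg.smul_measure hc
  exact h1.comp_of_map (linT_meas φ ψ R).aemeasurable

omit [InnerProductSpace ℂ F] in
/-- the product of a section and the indicator of a ball is in `L²` -/
theorem lin_mem0 {a : Cfg r → Cfg ds → F} (ha : MemLp (fun q : Cfg r × Cfg ds => a q.1 q.2) 2 (volume.prod volume)) (R : ℝ) :
    MemLp (fun q : Cfg r × Cfg ds × Cfg dm => a q.1 q.2.1) 2
      ((volume : Measure (Cfg r)).prod ((volume : Measure (Cfg ds)).prod
        ((volume : Measure (Cfg dm)).restrict (Metric.closedBall 0 R)))) := by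
  have hfin : IsFiniteMeasure ((volume : Measure (Cfg dm)).restrict (Metric.closedBall 0 R)) :=
    ⟨by rw [Measure.restrict_apply_univ]; exact (isCompact_closedBall (0 : Cfg dm) R).measure_lt_top⟩
  have h1 := ha.comp_fst ((volume : Measure (Cfg dm)).restrict (Metric.closedBall 0 R))
  have h2 : MeasurePreserving (MeasurableEquiv.prodAssoc (α := Cfg r) (β := Cfg ds) (γ := Cfg dm)).symm
      ((volume : Measure (Cfg r)).prod ((volume : Measure (Cfg ds)).prod
        ((volume : Measure (Cfg dm)).restrict (Metric.closedBall 0 R))))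
      (((volume : Measure (Cfg r)).prod (volume : Measure (Cfg ds))).prod
        ((volume : Measure (Cfg dm)).restrict (Metric.closedBall 0 R))) :=
    (measurePreserving_prodAssoc _ _ _).symm _
  exact h1.comp_measurePreserving h2

theorem lin_memG {κ : ℝ} (hκ : 0 < κ) {A : Set (Cfg r)} (hA : IsCompact A)
    {Om : Cfg r → Matrix (Fin dm) (Fin dm) ℝ} {D : Cfg r → Fin 9 → Matrix (Fin dm) (Fin dm) ℝ}
    (hO : ∀ B C, ContinuousOn (fun η => Om η B C) A) (hI : ∀ η ∈ A, IsOm κ (D η) (Om η))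
    {a : Cfg r → Cfg ds → F} (ha : Sec2 A a) (R : ℝ) :
    MemLp (fun q : Cfg r × Cfg ds × Cfg dm => ((chi R q : ℝ) : ℂ) • AN.bG κ Om a q) 2
      ((volume : Measure (Cfg r)).prod ((volume : Measure (Cfg ds)).prod (volume : Measure (Cfg dm)))) := by
  set g : Cfg r × Cfg ds × Cfg dm → F := fun q => ((chi R q : ℝ) : ℂ) • AN.bG κ Om a q with hg
  set T1 : Set (Cfg r × Cfg ds × Cfg dm) := Set.univ ×ˢ Set.univ ×ˢ Metric.closedBall 0 R with hT1
  set T2 : Set (Cfg r × Cfg ds × Cfg dm) := A ×ˢ Set.univ with hT2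
  have hT1m : MeasurableSet T1 := MeasurableSet.univ.prod (MeasurableSet.univ.prod measurableSet_closedBall)
  have hAm : MeasurableSet A := hA.isClosed.measurableSet
  have hT2m : MeasurableSet T2 := hAm.prod MeasurableSet.univ
  obtain ⟨C, hC⟩ := hA.exists_bound_of_continuousOn (lin_Nf_cont hκ hA hO hI)
  have hz : ∀ q, q ∉ T2 → g q = 0 := by
    intro q hq
    have h1 : a q.1 q.2.1 = 0 := by
      by_contra h
      exact hq ⟨ha.2 _ _ h, Set.mem_univ _⟩
    simp only [hg, AN.bG, h1, smul_zero]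
  have hz1 : ∀ q, q ∉ T1 → g q = 0 := by
    intro q hq
    have h1 : chi R q = 0 := by
      unfold chi
      rw [if_neg]
      rintro ⟨-, h⟩
      exact hq ⟨Set.mem_univ _, Set.mem_univ _, mem_closedBall_zero_iff.2 h⟩
    simp only [hg, h1, Complex.ofReal_zero, zero_smul]
  have e1 : g = T1.indicator g := (Set.indicator_eq_self.2 fun q hq => by
    by_contra h
    exact hq (hz1 q h)).symm
  have e2 : g = T2.indicator g := (Set.indicator_eq_self.2 fun q hq => by
    by_contra h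
    exact hq (hz q h)).symm
  have hμ : ((volume : Measure (Cfg r)).prod ((volume : Measure (Cfg ds)).prod (volume : Measure (Cfg dm)))).restrict T1 =
      (volume : Measure (Cfg r)).prod ((volume : Measure (Cfg ds)).prod
        ((volume : Measure (Cfg dm)).restrict (Metric.closedBall 0 R))) := by
    rw [hT1, ← Measure.prod_restrict, ← Measure.prod_restrict, Measure.restrict_univ, Measure.restrict_univ]
  rw [e1, memLp_indicator_iff_restrict hT1m, hμ, e2, memLp_indicator_iff_restrict hT2m]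
  have hh := (lin_mem0 (dm := dm) ha.1 R).restrict T2
  have hsec : ∀ q ∈ T2, ‖AN.Nf κ (Om q.1) * Real.exp (-(1 / 2) * AN.qX (Om q.1) q.2.2)‖ ≤ C := by
    intro q hq
    have h1 := hC q.1 hq.1
    have h2 : 0 ≤ AN.qX (Om q.1) q.2.2 := by
      by_cases h : q.2.2 = 0
      · rw [h]
        have := AN.gau_qX_smul (Om q.1) 0 (0 : Cfg dm)
        rw [smul_zero, zero_pow two_ne_zero, zero_mul] at this
        exact this.ge
      · exact (AN.gau_qX_pos (hI _ hq.1) _ h).le
    have h3 : Real.exp (-(1 / 2) * AN.qX (Om q.1) q.2.2) ≤ 1 := by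
      rw [Real.exp_le_one_iff]
      linarith
    have h4 := Real.exp_pos (-(1 / 2) * AN.qX (Om q.1) q.2.2)
    rw [norm_mul, Real.norm_eq_abs (Real.exp _), abs_of_pos h4]
    calc _ ≤ ‖AN.Nf κ (Om q.1)‖ * 1 := mul_le_mul_of_nonneg_left h3 (norm_nonneg _)
      _ ≤ C := by rw [mul_one]; exact h1
  have hcc : ContinuousOn (fun q : Cfg r × Cfg ds × Cfg dm =>
      AN.Nf κ (Om q.1) * Real.exp (-(1 / 2) * AN.qX (Om q.1) q.2.2)) T2 := by
    have h1 : ContinuousOn (fun q : Cfg r × Cfg ds × Cfg dm => AN.Nf κ (Om q.1)) T2 :=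
      (lin_Nf_cont hκ hA hO hI).comp (f := fun q : Cfg r × Cfg ds × Cfg dm => q.1) continuous_fst.continuousOn
        fun q hq => hq.1
    have h2 : ContinuousOn (fun q : Cfg r × Cfg ds × Cfg dm => AN.qX (Om q.1) q.2.2) T2 :=
      (lin_qX_cont hO).comp (f := fun q : Cfg r × Cfg ds × Cfg dm => (q.1, q.2.2)) (by fun_prop)
        fun q hq => ⟨hq.1, Set.mem_univ _⟩
    exact h1.mul (Real.continuous_exp.comp_continuousOn (continuousOn_const.mul h2))
  have hchi : Measurable fun q : Cfg r × Cfg ds × Cfg dm => chi R q := by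
    unfold chi
    refine Measurable.ite ?_ measurable_const measurable_const
    have m1 : Measurable fun q : Cfg r × Cfg ds × Cfg dm => ‖q.2.1‖ := by fun_prop
    have m2 : Measurable fun q : Cfg r × Cfg ds × Cfg dm => ‖q.2.2‖ := by fun_prop
    exact (measurableSet_le m1 measurable_const).inter (measurableSet_le m2 measurable_const)
  have hc1 : ∀ q : Cfg r × Cfg ds × Cfg dm, ‖chi R q‖ ≤ 1 := by
    intro q
    unfold chi
    split_ifs <;> simp
  refine MemLp.of_le_mul (c := C) hh ?_ ?_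
  · have m1 : AEStronglyMeasurable (fun q : Cfg r × Cfg ds × Cfg dm => ((chi R q : ℝ) : ℂ))
        (((volume : Measure (Cfg r)).prod ((volume : Measure (Cfg ds)).prod
        ((volume : Measure (Cfg dm)).restrict (Metric.closedBall 0 R)))).restrict T2) :=
      (Complex.measurable_ofReal.comp hchi).aestronglyMeasurable
    have m2 : AEStronglyMeasurable (fun q : Cfg r × Cfg ds × Cfg dm =>
        ((AN.Nf κ (Om q.1) * Real.exp (-(1 / 2) * AN.qX (Om q.1) q.2.2) : ℝ) : ℂ))
        (((volume : Measure (Cfg r)).prod ((volume : Measure (Cfg ds)).prod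
        ((volume : Measure (Cfg dm)).restrict (Metric.closedBall 0 R)))).restrict T2) :=
      (Complex.continuous_ofReal.comp_continuousOn hcc).aestronglyMeasurable hT2m
    exact m1.smul (m2.smul hh.1)
  · filter_upwards [ae_restrict_mem hT2m] with q hq
    have h1 := hsec q hq
    have h2 := hc1 q
    simp only [hg, AN.bG]
    rw [norm_smul, norm_smul, Complex.norm_real, Complex.norm_real]
    calc ‖chi R q‖ * (‖AN.Nf κ (Om q.1) * Real.exp (-(1 / 2) * AN.qX (Om q.1) q.2.2)‖ * ‖a q.1 q.2.1‖)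
        ≤ 1 * (C * ‖a q.1 q.2.1‖) := by gcongr
      _ = _ := one_mul _

theorem lin_memZ (φ : Spl dh dm d) (ψ : Spl r ds dh) {κ : ℝ} (hκ : 0 < κ) {A : Set (Cfg r)} (hA : IsCompact A)
    {Om : Cfg r → Matrix (Fin dm) (Fin dm) ℝ} {D : Cfg r → Fin 9 → Matrix (Fin dm) (Fin dm) ℝ}
    (hO : ∀ B C, ContinuousOn (fun η => Om η B C) A) (hI : ∀ η ∈ A, IsOm κ (D η) (Om η))
    {a : Cfg r → Cfg ds → F} (ha : Sec2 A a) {R : ℝ} (hR : 0 < R) :
    MemLp (AN.Zb φ ψ (fun q => ((chi R q : ℝ) : ℂ) • AN.bG κ Om a q) R) 2 (volume : Measure (Cfg d)) :=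
  (lin_memT φ ψ hR (lin_memG hκ hA hO hI ha R)).const_smul ((R ^ (3 * (dm : ℝ) - 9 * (r : ℝ) / 2) : ℝ) : ℂ)

end LinMap

/-- **L-Lin** -/
theorem lin {d : ℕ} {F : Type*} [NormedAddCommGroup F] [InnerProductSpace ℂ F] (S : Setup d F) : LinStmt S := by
  intro _ dh dm r ds φ ψ L Om K U hB A hA hAR R hR u hu
  have hdet : ∀ η ∈ A, (∑ i, DM (AX.Mz S φ (spsw ψ)) η i * DM (AX.Mz S φ (spsw ψ)) η i).det ≠ 0 := by
    intro η hη
    have h := hAR hη
    simp only [Rg, Set.mem_ofPred_eq] at h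
    simp only [AX.DM_Dz]
    exact h
  have hO : ∀ B C, ContinuousOn (fun η => Om η B C) A := fun B C =>
    (hB.om_smooth B C).continuousOn.mono fun η hη => hdet η hη
  have hI : ∀ η ∈ A, IsOm S.κ (DM (AX.Mz S φ (spsw ψ)) η) (Om η) := fun η hη => hB.om η (hdet η hη)
  have hint : ∀ a : Cfg r → Cfg ds → F, Sec2 A a → Integrable fun x =>
      inner ℂ (AN.Zb φ ψ (fun q => ((chi R q : ℝ) : ℂ) • AN.bG S.κ Om a q) R x) (u x) := fun a ha =>
    integrable_inner_memLp (lin_memZ φ ψ S.κ_pos hA hO hI ha hR) hu.memLp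
  refine ⟨hint, fun a a' ha ha' => ?_, fun c a ha => ?_⟩
  · unfold ZZ
    rw [← integral_add (hint a ha) (hint a' ha')]
    refine integral_congr_ae (Eventually.of_forall fun x => ?_)
    simp only [AN.Zb, AN.bG, smul_add, inner_add_left]
  · unfold ZZ
    rw [← integral_const_mul]
    refine integral_congr_ae (Eventually.of_forall fun x => ?_)
    simp only [AN.Zb, AN.bG]
    rw [← inner_smul_left]
    congr 1
    rw [smul_comm _ c, smul_comm _ c, smul_comm _ c]

end Vale.Agent.P353.Z.AL
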