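import Vale.Agent.P353.AN.L.StmtU
import Vale.Agent.P353.AN.A.TubeF
import Vale.Agent.P353.AN.A.Norm
import Vale.Agent.P353.Z.U.Grp

/-! # P353, all `N`, block L: mass bound over compact sets (`MasKStmt`) -/

open MeasureTheory Filter Topology Matrix
open scoped ContDiff

namespace Vale.Agent.P353.Z.AL

namespace MK808

variable {d dh dm r ds : ℕ} {F : Type*} [NormedAddCommGroup F] [InnerProductSpace ℂ F]

lemma mk_hz_smul (ψ : Spl r ds dh) (R : ℝ) (y : Cfg dh) : AN.hz ψ (R • y) = R • AN.hz ψ y := by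
  ext p
  simp [AN.hz]

lemma mk_hs_smul (ψ : Spl r ds dh) (R : ℝ) (y : Cfg dh) : AN.hs ψ (R • y) = R • AN.hs ψ y := by
  ext p
  simp [AN.hs]

lemma mk_norm (ψ : Spl r ds dh) (y : Cfg dh) : ‖y‖ ^ 2 = ‖AN.hz ψ y‖ ^ 2 + ‖AN.hs ψ y‖ ^ 2 := by
  rw [EuclideanSpace.norm_sq_eq, EuclideanSpace.norm_sq_eq, EuclideanSpace.norm_sq_eq]
  rw [Fintype.sum_prod_type, Fintype.sum_prod_type, Fintype.sum_prod_type, ← Finset.sum_add_distrib]
  refine Finset.sum_congr rfl fun i _ => ?_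
  rw [← ψ.sum_comp, Fintype.sum_sum_type]
  simp [AN.hz, AN.hs]

lemma mk_emb_norm (φ : Spl dh dm d) (y : Cfg dh) (w : Wsp dm) : ‖emb φ y w‖ ^ 2 = ‖y‖ ^ 2 + ‖w‖ ^ 2 := by
  rw [EuclideanSpace.norm_sq_eq, EuclideanSpace.norm_sq_eq, EuclideanSpace.norm_sq_eq]
  rw [Fintype.sum_prod_type, Fintype.sum_prod_type, Fintype.sum_prod_type]
  have h1 : ∀ i : Fin 9, ∑ A, ‖emb φ y w (i, A)‖ ^ 2 =
      (∑ A, ‖y (i, A)‖ ^ 2) + ∑ B, ‖Fin.lastCases (motive := fun _ => ℝ) 0 (fun j => w (j, B)) i‖ ^ 2 := by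
    intro i
    rw [← φ.sum_comp, Fintype.sum_sum_type]
    congr 1
    · refine Finset.sum_congr rfl fun A _ => ?_
      simp [emb]
    · refine Finset.sum_congr rfl fun A _ => ?_
      simp [emb]
  simp only [h1]
  rw [Finset.sum_add_distrib]
  congr 1
  rw [Fin.sum_univ_castSucc]
  simp only [Fin.lastCases_castSucc, Fin.lastCases_last, norm_zero, ne_eq, OfNat.ofNat_ne_zero,
    not_false_eq_true, zero_pow, Finset.sum_const_zero, add_zero]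

lemma mk_Nr_smul (ψ : Spl r ds dh) (A : Set (Cfg r)) {R ε : ℝ} (hR : 0 < R) (p : Cfg dh × Wsp dm) :
    R • p ∈ Nr ψ A dm R ε ↔ p ∈ Nr ψ A dm 1 ε := by
  simp only [Nr, Set.mem_ofPred_eq, Prod.smul_fst, Prod.smul_snd, mk_hz_smul, mk_hs_smul, inv_one, one_smul,
    mul_one, norm_smul, Real.norm_of_nonneg hR.le]
  rw [inv_smul_smul₀ hR.ne', mul_comm ε R, mul_lt_mul_iff_right₀ hR, mul_lt_mul_iff_right₀ hR]

lemma mk_Nr_mono (ψ : Spl r ds dh) (A : Set (Cfg r)) {R ε ε' : ℝ} (hR : 0 < R) (h : ε ≤ ε') :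
    Nr ψ A dm R ε ⊆ Nr ψ A dm R ε' := by
  rintro p ⟨h1, h2, h3⟩
  have h4 : ε * R ≤ ε' * R := mul_le_mul_of_nonneg_right h hR.le
  exact ⟨h1, h2.trans_le h4, h3.trans_le h4⟩

lemma mk_chz (ψ : Spl r ds dh) : Continuous (AN.hz ψ : Cfg dh → Cfg r) := by
  unfold AN.hz
  fun_prop

lemma mk_chs (ψ : Spl r ds dh) : Continuous (AN.hs ψ : Cfg dh → Cfg ds) := by
  unfold AN.hs
  fun_prop

lemma mk_Nr_meas (ψ : Spl r ds dh) {A : Set (Cfg r)} (hA : IsCompact A) (R ε : ℝ) :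
    MeasurableSet (Nr ψ A dm R ε) := by
  have e1 : MeasurableSet {p : Cfg dh × Wsp dm | R⁻¹ • AN.hz ψ p.1 ∈ A} := by
    have hc : Continuous fun p : Cfg dh × Wsp dm => R⁻¹ • AN.hz ψ p.1 :=
      (continuous_const_smul R⁻¹).comp ((mk_chz ψ).comp continuous_fst)
    exact (hA.isClosed.preimage hc).measurableSet
  have e2 : MeasurableSet {p : Cfg dh × Wsp dm | ‖AN.hs ψ p.1‖ < ε * R} :=
    (isOpen_lt ((mk_chs ψ).comp continuous_fst).norm continuous_const).measurableSet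
  have e3 : MeasurableSet {p : Cfg dh × Wsp dm | ‖p.2‖ < ε * R} :=
    (isOpen_lt continuous_snd.norm continuous_const).measurableSet
  exact e1.inter (e2.inter e3)

/-- bounds of the norm on `Nr` -/
lemma mk_Nr_bound (φ : Spl dh dm d) (ψ : Spl r ds dh) {A : Set (Cfg r)} (hA : IsCompact A) {s t : ℝ}
    (hs : 0 < s) (hst : s < t) (hAs : A ⊆ AD.shl r s t) :
    ∃ ε₀ : ℝ, 0 < ε₀ ∧ ∀ ε R : ℝ, 0 < ε → ε ≤ ε₀ → 0 < R → ∀ p ∈ Nr ψ A dm R ε,
      s * R < ‖emb φ p.1 p.2‖ ∧ ‖emb φ p.1 p.2‖ < t * R := by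
  obtain ⟨t', ht's, ht't, ht'⟩ : ∃ t' : ℝ, 0 < t' ∧ t' < t ∧ ∀ a ∈ A, ‖a‖ ≤ t' := by
    rcases A.eq_empty_or_nonempty with h | h
    · exact ⟨s, hs, hst, by simp [h]⟩
    · obtain ⟨a, haA, ha⟩ := hA.exists_isMaxOn h continuous_norm.continuousOn
      exact ⟨‖a‖, hs.trans (hAs haA).1, (hAs haA).2, fun b hb => ha hb⟩
  have ht0 : 0 < t := ht's.trans ht't
  have hgap : 0 < t ^ 2 - t' ^ 2 := by nlinarith
  refine ⟨Real.sqrt ((t ^ 2 - t' ^ 2) / 4), Real.sqrt_pos.2 (by positivity), fun ε R hε hεε hR p hp => ?_⟩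
  have hε2 : ε ^ 2 ≤ (t ^ 2 - t' ^ 2) / 4 := by
    calc ε ^ 2 ≤ Real.sqrt ((t ^ 2 - t' ^ 2) / 4) ^ 2 := pow_le_pow_left₀ hε.le hεε 2
      _ = _ := Real.sq_sqrt (by positivity)
  obtain ⟨h1, h2, h3⟩ := hp
  have h4 : ‖AN.hz ψ p.1‖ = R * ‖R⁻¹ • AN.hz ψ p.1‖ := by
    rw [norm_smul, norm_inv, Real.norm_of_nonneg hR.le, ← mul_assoc, mul_inv_cancel₀ hR.ne', one_mul]
  set k : ℝ := ‖R⁻¹ • AN.hz ψ p.1‖ with hk
  have hk1 : s < k := (hAs h1).1
  have hk2 : k ≤ t' := ht' _ h1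
  have hk0 : 0 < k := hs.trans hk1
  have h5 : ‖emb φ p.1 p.2‖ ^ 2 = (R * k) ^ 2 + ‖AN.hs ψ p.1‖ ^ 2 + ‖p.2‖ ^ 2 := by
    rw [mk_emb_norm, mk_norm ψ, h4]
  have hn := norm_nonneg (emb φ p.1 p.2)
  have hn1 := norm_nonneg (AN.hs ψ p.1)
  have hn2 := norm_nonneg p.2
  constructor
  · have h6 : (s * R) ^ 2 < ‖emb φ p.1 p.2‖ ^ 2 := by
      rw [h5]
      have : s * R < R * k := by rw [mul_comm R k]; exact mul_lt_mul_of_pos_right hk1 hR
      have h7 : (s * R) ^ 2 < (R * k) ^ 2 := pow_lt_pow_left₀ this (by positivity) (by norm_num)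
      nlinarith
    exact lt_of_pow_lt_pow_left₀ 2 hn h6
  · have h6 : ‖emb φ p.1 p.2‖ ^ 2 < (t * R) ^ 2 := by
      rw [h5]
      have a1 : ‖AN.hs ψ p.1‖ ^ 2 ≤ (ε * R) ^ 2 := pow_le_pow_left₀ hn1 h2.le 2
      have a2 : ‖p.2‖ ^ 2 ≤ (ε * R) ^ 2 := pow_le_pow_left₀ hn2 h3.le 2
      have a3 : (R * k) ^ 2 ≤ (R * t') ^ 2 :=
        pow_le_pow_left₀ (by positivity) (mul_le_mul_of_nonneg_left hk2 hR.le) 2
      have a4 : (ε * R) ^ 2 ≤ (t ^ 2 - t' ^ 2) / 4 * R ^ 2 := by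
        rw [mul_pow]
        exact mul_le_mul_of_nonneg_right hε2 (sq_nonneg _)
      have a5 : 0 < (t ^ 2 - t' ^ 2) * R ^ 2 := by positivity
      nlinarith
    exact lt_of_pow_lt_pow_left₀ 2 (by positivity) h6

/-- `Nr` is bounded -/
lemma mk_Nr_int (S : Setup d F) (φ : Spl dh dm d) (ψ : Spl r ds dh) {A : Set (Cfg r)} {s t : ℝ}
    {R ε : ℝ} (ht : 0 < t * R) (hb : ∀ p ∈ Nr ψ A dm R ε, s * R < ‖emb φ p.1 p.2‖ ∧ ‖emb φ p.1 p.2‖ < t * R)
    {u : Cfg d → F} (hu : Continuous u) :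
    IntegrableOn (fun p : Cfg dh × Wsp dm => ‖S.res φ u p.1 p.2‖ ^ 2) (Nr ψ A dm R ε)
      ((volume : Measure (Cfg dh)).prod (volume : Measure (Wsp dm))) := by
  have hres : Continuous fun p : Cfg dh × Wsp dm => S.res φ u p.1 p.2 := by
    unfold Setup.res
    have e2 : Continuous fun p : Cfg dh × Wsp dm => S.Jd φ p.1 :=
      (AN.tbf_continuous_Jd S φ).comp continuous_fst
    exact (Complex.continuous_ofReal.comp (Real.continuous_sqrt.comp e2)).smul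
      (hu.comp (AN.tbf_continuous_emb φ))
  have h1 : IntegrableOn (fun p : Cfg dh × Wsp dm => ‖S.res φ u p.1 p.2‖ ^ 2)
      (Metric.closedBall (0 : Cfg dh) (t * R) ×ˢ Metric.closedBall (0 : Wsp dm) (t * R))
      ((volume : Measure (Cfg dh)).prod (volume : Measure (Wsp dm))) :=
    (hres.norm.pow 2).continuousOn.integrableOn_compact
      ((isCompact_closedBall _ _).prod (isCompact_closedBall _ _))
  refine h1.mono_set fun p hp => ?_
  have h2 := (hb p hp).2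
  have h3 := mk_emb_norm φ p.1 p.2
  have hn := norm_nonneg (emb φ p.1 p.2)
  have h4 : ‖emb φ p.1 p.2‖ ^ 2 < (t * R) ^ 2 := pow_lt_pow_left₀ h2 hn (by norm_num)
  refine Set.mem_prod.2 ⟨?_, ?_⟩
  · rw [mem_closedBall_zero_iff]
    refine le_of_pow_le_pow_left₀ two_ne_zero ht.le ?_
    nlinarith [sq_nonneg ‖p.2‖]
  · rw [mem_closedBall_zero_iff]
    refine le_of_pow_le_pow_left₀ two_ne_zero ht.le ?_
    nlinarith [sq_nonneg ‖p.1‖]

lemma mk_tst_int {u : Cfg d → F} (hu : Setup.Tst u) :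
    Integrable (fun x => ‖u x‖ ^ 2) (volume : Measure (Cfg d)) := by
  have h1 : Continuous fun x : Cfg d => ‖u x‖ ^ 2 := hu.1.continuous.norm.pow 2
  have h2 : HasCompactSupport fun x : Cfg d => ‖u x‖ ^ 2 := by
    refine hu.2.mono fun x hx => ?_
    intro h0
    apply hx
    show ‖u x‖ ^ 2 = 0
    rw [h0, norm_zero]
    norm_num
  exact h1.integrable_of_hasCompactSupport h2

/-- change of variables over the tube -/
lemma mk_cov (S : Setup d F) (φ : Spl dh dm d) (hsm : ContDiff ℝ ∞ (AN.tz S φ))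
    (j : EuclideanSpace ℝ (Fin dm) → ℝ) (hj : Continuous j)
    (hdet : ∀ z, |(fderiv ℝ (AN.tz S φ) z).det| = S.Jd φ (AN.zy φ z) * |j (AN.zm φ z)|)
    (e : Cfg d ≃L[ℝ] EuclideanSpace ℝ (Fin dm) × (Cfg dh × Wsp dm))
    (he : ∀ z, e z = (AN.zm φ z, (AN.zy φ z, AN.zw φ z)))
    (hmp : MeasurePreserving e volume (volume.prod (volume.prod volume)))
    (N : Set (Cfg dh × Wsp dm)) (hN : MeasurableSet N) (ρ : ℝ)
    (hinj : ∀ a a' p p', ‖a‖ < ρ → ‖a'‖ < ρ → p ∈ N → p' ∈ N →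
      AN.tub S φ a p = AN.tub S φ a' p' → a = a' ∧ p = p')
    (f : Cfg d → ENNReal) (hf : Measurable f)
    (hinv : ∀ a p, ‖a‖ < ρ → p ∈ N → f (AN.tub S φ a p) = f (emb φ p.1 p.2)) :
    ∫⁻ x in AN.tz S φ '' {z | ‖AN.zm φ z‖ < ρ ∧ (AN.zy φ z, AN.zw φ z) ∈ N}, f x =
      (∫⁻ a in {a : EuclideanSpace ℝ (Fin dm) | ‖a‖ < ρ}, ENNReal.ofReal |j a|) *
        ∫⁻ p in N, f (emb φ p.1 p.2) * ENNReal.ofReal (S.Jd φ p.1) ∂(volume.prod volume) := by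
  obtain ⟨B, hBdef⟩ : ∃ B : Set (Cfg d), B = {z | ‖AN.zm φ z‖ < ρ ∧ (AN.zy φ z, AN.zw φ z) ∈ N} := ⟨_, rfl⟩
  obtain ⟨T, hTdef⟩ : ∃ T : Set (EuclideanSpace ℝ (Fin dm) × (Cfg dh × Wsp dm)),
      T = {a : EuclideanSpace ℝ (Fin dm) | ‖a‖ < ρ} ×ˢ N := ⟨_, rfl⟩
  rw [← hBdef]
  have hA : IsOpen {a : EuclideanSpace ℝ (Fin dm) | ‖a‖ < ρ} :=
    isOpen_lt (by fun_prop) (by fun_prop)
  have hT : MeasurableSet T := by
    rw [hTdef]
    exact hA.measurableSet.prod hN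
  have hBT : B = e ⁻¹' T := by
    rw [hBdef, hTdef]
    ext z
    simp only [Set.mem_ofPred_eq, Set.mem_preimage, he, Set.mem_prod]
  have hB : MeasurableSet B := by
    rw [hBT]
    exact e.continuous.measurable hT
  have hinjB : Set.InjOn (AN.tz S φ) B := by
    intro z hz z' hz' h
    rw [hBdef] at hz hz'
    have h1 := hinj _ _ _ _ hz.1 hz'.1 hz.2 hz'.2 h
    apply e.injective
    rw [he, he, h1.1, h1.2]
  rw [lintegral_image_eq_lintegral_abs_det_fderiv_mul volume hB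
    (fun z _ => ((hsm.differentiable (by simp)) z).hasFDerivAt.hasFDerivWithinAt) hinjB]
  have hcongr : ∫⁻ z in B, ENNReal.ofReal |(fderiv ℝ (AN.tz S φ) z).det| * f (AN.tz S φ z) =
      ∫⁻ z in e ⁻¹' T, (fun q : EuclideanSpace ℝ (Fin dm) × (Cfg dh × Wsp dm) =>
        ENNReal.ofReal |j q.1| * (f (emb φ q.2.1 q.2.2) * ENNReal.ofReal (S.Jd φ q.2.1))) (e z) := by
    rw [← hBT]
    refine setLIntegral_congr_fun hB fun z hz => ?_
    rw [hBdef] at hz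
    simp only [he]
    rw [hdet z, ENNReal.ofReal_mul (by unfold Setup.Jd; exact abs_nonneg _), AN.tz,
      hinv _ _ hz.1 hz.2]
    ring
  rw [hcongr]
  have hmeas1 : Measurable fun a : EuclideanSpace ℝ (Fin dm) => ENNReal.ofReal |j a| :=
    (hj.abs.measurable).ennreal_ofReal
  have hmeas2 : Measurable fun p : Cfg dh × Wsp dm =>
      f (emb φ p.1 p.2) * ENNReal.ofReal (S.Jd φ p.1) :=
    (hf.comp (AN.tbf_continuous_emb φ).measurable).mul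
      (((AN.tbf_continuous_Jd S φ).comp continuous_fst).measurable).ennreal_ofReal
  have hmeas3 : Measurable fun q : EuclideanSpace ℝ (Fin dm) × (Cfg dh × Wsp dm) =>
      ENNReal.ofReal |j q.1| * (f (emb φ q.2.1 q.2.2) * ENNReal.ofReal (S.Jd φ q.2.1)) :=
    (hmeas1.comp measurable_fst).mul (hmeas2.comp measurable_snd)
  rw [hmp.setLIntegral_comp_preimage hT hmeas3, hTdef, ← Measure.prod_restrict]
  rw [lintegral_prod_mul hmeas1.aemeasurable hmeas2.aemeasurable]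

end MK808

open MK808

variable {d : ℕ} {F : Type*} [NormedAddCommGroup F] [InnerProductSpace ℂ F]

/-- **U2** mass bound, the constant does not depend on the compact set -/
theorem masK_of (S : Setup d F) : MasKOfStmt S := by
  intro hTK hD hC hless dh dm r ds φ ψ z₀ hstd
  obtain ⟨ρ₀, hρ₀, hTK'⟩ := hTK hless dh dm r ds φ ψ z₀ hstd
  obtain ⟨hsm, j, hj, hj0, hdet⟩ := hD dh dm φ hstd.std.sub
  obtain ⟨e, he, hmp⟩ := hC d dh dm φ
  obtain ⟨c, hc, hcc⟩ := AN.tbf_const j hj hj0 hρ₀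
  refine ⟨1 / c, by positivity, fun s t hs hst K hK hKs hKR => ?_⟩
  obtain ⟨ε₁, hε₁, hinj1⟩ := hTK' K hK hKR
  obtain ⟨ε₂, hε₂, hbd⟩ := mk_Nr_bound (dm := dm) φ ψ hK hs hst hKs
  refine ⟨min ε₁ ε₂, lt_min hε₁ hε₂, fun ε hε hεε R hR u hu => ?_⟩
  have hb := hbd ε R hε (hεε.trans (min_le_right _ _)) hR
  have ht : 0 < t * R := mul_pos (hs.trans hst) hR
  have hcu : Continuous u := hu.1.1.continuous
  refine ⟨mk_Nr_int S φ ψ ht hb hcu, ?_⟩
  have hinj : ∀ a a' p p', ‖a‖ < ρ₀ → ‖a'‖ < ρ₀ → p ∈ Nr ψ K dm R ε → p' ∈ Nr ψ K dm R ε →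
      AN.tub S φ a p = AN.tub S φ a' p' → a = a' ∧ p = p' := by
    intro a a' p p' ha ha' hp hp' h
    have hm := mk_Nr_mono (dm := dm) ψ K one_pos (hεε.trans (min_le_left _ _))
    have hp1 : R⁻¹ • p ∈ Nr ψ K dm 1 ε := by
      rw [← mk_Nr_smul ψ K hR, smul_inv_smul₀ hR.ne']
      exact hp
    have hp1' : R⁻¹ • p' ∈ Nr ψ K dm 1 ε := by
      rw [← mk_Nr_smul ψ K hR, smul_inv_smul₀ hR.ne']
      exact hp'
    have h1 := hinj1 a a' (R⁻¹ • p) (R⁻¹ • p') ha ha' (hm hp1) (hm hp1') (by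
      rw [AN.tbf_tub_smul, AN.tbf_tub_smul, h])
    exact ⟨h1.1, smul_right_injective _ (inv_ne_zero hR.ne') h1.2⟩
  have hmu : Measurable fun x => ENNReal.ofReal (‖u x‖ ^ 2) :=
    (ENNReal.continuous_ofReal.comp (hcu.norm.pow 2)).measurable
  have hcov := mk_cov S φ hsm j hj hdet e he hmp (Nr ψ K dm R ε) (mk_Nr_meas ψ hK R ε) ρ₀ hinj
    (fun x => ENNReal.ofReal (‖u x‖ ^ 2)) hmu (by
      intro a p _ _
      have h := U.gx983_norm S hu.1 hu.2 (AN.exm φ a) 1 (emb φ p.1 p.2)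
      rw [one_smul] at h
      show ENNReal.ofReal (‖u (ro (NormedSpace.exp (S.adm (AN.exm φ a))) (emb φ p.1 p.2))‖ ^ 2) = _
      rw [h])
  rw [hcc] at hcov
  set N : Set (Cfg dh × Wsp dm) := Nr ψ K dm R ε with hNdef
  set T : Set (Cfg d) := AN.tz S φ '' {z | ‖AN.zm φ z‖ < ρ₀ ∧ (AN.zy φ z, AN.zw φ z) ∈ N} with hTdef
  have hTs : T ⊆ AD.shl d (s * R) (t * R) := by
    rintro x ⟨z, hz, rfl⟩
    have h1 : ‖AN.tz S φ z‖ = ‖emb φ (AN.zy φ z) (AN.zw φ z)‖ := by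
      unfold AN.tz AN.tub
      have h2 := U.gx983_orth S (AN.exm φ (AN.zm φ z)) 1
      rw [one_smul] at h2
      exact U.grp_norm h2 _
    have h3 := hb _ hz.2
    exact ⟨by rw [h1]; exact h3.1, by rw [h1]; exact h3.2⟩
  -- the two integrals
  have hres2 : ∀ p : Cfg dh × Wsp dm, ‖S.res φ u p.1 p.2‖ ^ 2 = ‖u (emb φ p.1 p.2)‖ ^ 2 * S.Jd φ p.1 :=
    fun p => AN.nrm_res_sq S φ u p.1 p.2
  have hce : Continuous fun p : Cfg dh × Wsp dm => ‖u (emb φ p.1 p.2)‖ ^ 2 * S.Jd φ p.1 :=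
    ((hcu.comp (AN.tbf_continuous_emb φ)).norm.pow 2).mul ((AN.tbf_continuous_Jd S φ).comp continuous_fst)
  have hnn : ∀ p : Cfg dh × Wsp dm, 0 ≤ ‖u (emb φ p.1 p.2)‖ ^ 2 * S.Jd φ p.1 := fun p =>
    mul_nonneg (sq_nonneg _) (abs_nonneg _)
  have hE : ∫ x in T, ‖u x‖ ^ 2 = c * ∫ p in N, ‖S.res φ u p.1 p.2‖ ^ 2 ∂(volume.prod volume) := by
    rw [integral_eq_lintegral_of_nonneg_ae (Eventually.of_forall fun x => sq_nonneg _)
      (hcu.norm.pow 2).aestronglyMeasurable, hcov, ENNReal.toReal_mul, ENNReal.toReal_ofReal hc.le]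
    congr 1
    simp only [hres2]
    rw [integral_eq_lintegral_of_nonneg_ae (Eventually.of_forall hnn) hce.aestronglyMeasurable]
    congr 1
    refine lintegral_congr fun p => ?_
    rw [ENNReal.ofReal_mul (sq_nonneg _)]
  have hint : Integrable (fun x => ‖u x‖ ^ 2) (volume : Measure (Cfg d)) :=
    mk_tst_int hu.1
  have hle : ∫ x in T, ‖u x‖ ^ 2 ≤ AD.mas u (AD.shl d (s * R) (t * R)) := by
    unfold AD.mas
    exact setIntegral_mono_set hint.integrableOn (Eventually.of_forall fun x => sq_nonneg _)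
      (Eventually.of_forall hTs)
  rw [hE] at hle
  rw [one_div, inv_mul_eq_div, le_div_iff₀ hc, mul_comm]
  exact hle

end Vale.Agent.P353.Z.AL
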