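import Vale.Agent.P353.AN.L.StmtU

/-! # P353, all `N`, block L, U5: the zero set of `det D_8` is a null set -/

open MeasureTheory Filter Topology Matrix
open scoped ContDiff

namespace Vale.Agent.P353.Z.AL

variable {d dh dm r ds n : ℕ} {F : Type*} [NormedAddCommGroup F] [InnerProductSpace ℂ F]

lemma nu399_cmb (ψ : Spl r ds dh) (z : Cfg r) : AD.cmb (spsw ψ) 0 z = cmb ψ z 0 := by
  unfold AD.cmb cmb spsw
  congr 1
  funext p
  simp only [Equiv.symm_trans_apply, Equiv.sumComm_symm, Equiv.sumComm_apply]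
  rcases ψ.symm p.2 with a | b <;> rfl

lemma nu399_Dz (S : Setup d F) (φ : Spl dh dm d) (ψ : Spl r ds dh) (η η' : Cfg r) (t : ℝ) (i : Fin 9) :
    S.Dz φ ψ (η + t • η') i = S.Dz φ ψ η i + t • S.Dz φ ψ η' i := by
  have h : ∀ y : Cfg r, S.Dz φ ψ y i = DM (AX.Mz S φ (spsw ψ)) y i := fun y =>
    (congrFun (AX.DM_Dz S φ ψ y) i).symm
  rw [h, h, h]
  unfold DM
  simp only [PiLp.add_apply, PiLp.smul_apply, smul_eq_mul, add_smul, mul_smul, Finset.sum_add_distrib,
    Finset.smul_sum]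

lemma nu399_cont (S : Setup d F) (φ : Spl dh dm d) (ψ : Spl r ds dh) (i : Fin 9) :
    Continuous fun y : Cfg r => S.Dz φ ψ y i := by
  have h0 : (fun y : Cfg r => S.Dz φ ψ y i) = fun y => DM (AX.Mz S φ (spsw ψ)) y i := by
    funext y
    rw [AX.DM_Dz]
  rw [h0]
  unfold DM
  fun_prop

lemma nu399_std {S : Setup d F} {φ : Spl dh dm d} {ψ : Spl r ds dh} {z₀ : Cfg r}
    (h : AD.Std2 S φ (spsw ψ) z₀) : (S.Dz φ ψ z₀ 8).det ≠ 0 := by
  have h1 := h.std.inv
  rw [nu399_cmb] at h1
  exact h1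

lemma nu399_fin {m : ℕ} (A B : Matrix (Fin m) (Fin m) ℝ) (hB : B.det ≠ 0) :
    {t : ℝ | (A + t • B).det = 0}.Finite := by
  set p : Polynomial ℝ := (Matrix.det ((Polynomial.X : Polynomial ℝ) • B.map Polynomial.C + A.map Polynomial.C)) with hp
  have h0 : p ≠ 0 := by
    intro h
    have h1 := Polynomial.coeff_det_X_add_C_card B A
    rw [← hp, h, Polynomial.coeff_zero] at h1
    exact hB h1.symm
  refine (p.roots.toFinset.finite_toSet).subset fun t ht => ?_
  simp only [Finset.mem_coe, Multiset.mem_toFinset, Polynomial.mem_roots h0, Polynomial.IsRoot.def]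
  have h2 : Polynomial.eval t p = (A + t • B).det := by
    have h3 := RingHom.map_det (Polynomial.evalRingHom t)
      ((Polynomial.X : Polynomial ℝ) • B.map Polynomial.C + A.map Polynomial.C)
    rw [Polynomial.coe_evalRingHom] at h3
    rw [hp, h3]
    congr 1
    ext i j
    simp only [Matrix.add_apply, Matrix.smul_apply, smul_eq_mul, RingHom.mapMatrix_apply, Matrix.map_apply,
      Polynomial.coe_evalRingHom, Polynomial.eval_add, Polynomial.eval_mul, Polynomial.eval_X, Polynomial.eval_C]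
    ring
  rw [h2]
  exact ht

/-- **U5** -/
theorem null8 (S : Setup d F) : NullStmt S := by
  intro dh dm r ds φ ψ z₀ h
  have h8 := nu399_std h
  have hs : MeasurableSet {η : Cfg r | (S.Dz φ ψ η 8).det ≠ 0} :=
    (isOpen_ne_fun (nu399_cont S φ ψ 8).matrix_det continuous_const).measurableSet
  have h1 : ∀ᵐ η ∂(volume : Measure (Cfg r)), η ∈ {η : Cfg r | (S.Dz φ ψ η 8).det ≠ 0} := by
    refine ae_mem_of_ae_add_linearMap_mem (LinearMap.toSpanSingleton ℝ (Cfg r) z₀) (volume : Measure ℝ)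
      volume hs fun y => ?_
    rw [ae_iff]
    refine Set.Finite.measure_zero ?_ _
    refine (nu399_fin (S.Dz φ ψ y 8) (S.Dz φ ψ z₀ 8) h8).subset fun t ht => ?_
    simp only [LinearMap.toSpanSingleton_apply, Set.mem_ofPred_eq, not_not, nu399_Dz] at ht ⊢
    exact ht
  rw [ae_iff] at h1
  simpa using h1

end Vale.Agent.P353.Z.AL
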