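import Vale.Agent.P353.AN.L.Stmt
import Vale.Agent.P353.AN.GL.Sup
import Vale.Agent.P353.Z.U.InvLemB

/-! # P353, all `N`, block L: radial cutoff and support of the global functional (helper232) -/

open MeasureTheory Filter Topology Matrix
open scoped ContDiff

namespace Vale.Agent.P353.Z.AL

variable {d dh dm r ds n : ℕ} {F : Type*} [NormedAddCommGroup F] [InnerProductSpace ℂ F]

private lemma rsx_lt_of_sq {a b : ℝ} (hb : 0 ≤ b) (h : a ^ 2 < b ^ 2) : a < b :=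
  lt_of_pow_lt_pow_left₀ 2 hb h

theorem rad (S : Setup d F) : RadStmt S := by
  intro R u hu s t hs hst
  have hst2 : s ^ 2 < t ^ 2 := pow_lt_pow_left₀ hst hs.le two_ne_zero
  have hs2 : 0 < s ^ 2 := by positivity
  let b : ContDiffBump ((s ^ 2 + t ^ 2) / 2 : ℝ) :=
    ⟨(t ^ 2 - s ^ 2) / 2, (t ^ 2 - s ^ 2) / 2 + 3 / 4 * s ^ 2, by linarith, by linarith⟩
  obtain ⟨C, hC⟩ := hu.bd (s / 2) (2 * t) (by linarith) (by linarith)
  let f : ℕ → ℝ → ℝ := fun n v => b (v * (R n ^ 2)⁻¹)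
  have hf : ∀ n, ContDiff ℝ ∞ (f n) := fun n =>
    b.contDiff.comp (contDiff_id.mul contDiff_const)
  have hle : ∀ n x, ‖((Z.rad (f n) x : ℝ) : ℂ) • u n x‖ ≤ ‖u n x‖ := by
    intro n x
    have h0 : 0 ≤ Z.rad (f n) x := b.nonneg' _
    have h1 : Z.rad (f n) x ≤ 1 := b.le_one
    rw [norm_smul, Complex.norm_real, Real.norm_eq_abs, abs_of_nonneg h0]
    exact mul_le_of_le_one_left (norm_nonneg _) h1
  refine ⟨fun n x => ((Z.rad (f n) x : ℝ) : ℂ) • u n x, C, fun n => ⟨⟨?_, ?_⟩, fun D x => ?_⟩, ?_, ?_, hle⟩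
  · exact (Setup.contDiff_ofReal (contDiff_rad (hf n))).smul (hu.inv n).1.1
  · refine (hu.inv n).1.2.mono fun x hx => ?_
    simp only [Function.mem_support] at hx ⊢
    intro h0
    exact hx (by simp [h0])
  · rw [U.InvL.G_rad S (hf n) D (u n) x (((hu.inv n).1.1.differentiable (by simp)) x), (hu.inv n).2 D x, smul_zero]
  · intro n x h1 h2
    have hR := hu.pos n
    have e : Z.rad (f n) x = 1 := by
      refine b.one_of_mem_closedBall ?_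
      rw [Metric.mem_closedBall, Real.dist_eq, abs_le]
      have hR2 : 0 < R n ^ 2 := by positivity
      have g1 : s ^ 2 ≤ ‖x‖ ^ 2 * (R n ^ 2)⁻¹ := by
        rw [← div_eq_mul_inv, le_div_iff₀ hR2, ← mul_pow]
        exact pow_le_pow_left₀ (by positivity) h1 2
      have g2 : ‖x‖ ^ 2 * (R n ^ 2)⁻¹ ≤ t ^ 2 := by
        rw [← div_eq_mul_inv, div_le_iff₀ hR2, ← mul_pow]
        exact pow_le_pow_left₀ (norm_nonneg _) h2 2
      constructor
      · change -((t ^ 2 - s ^ 2) / 2) ≤ _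
        linarith
      · change _ ≤ (t ^ 2 - s ^ 2) / 2
        linarith
    simp only [e, Complex.ofReal_one, one_smul]
  · intro n
    have hR := hu.pos n
    have hR2 : 0 < R n ^ 2 := by positivity
    have hz : ∀ x, x ∉ AD.shl d (s / 2 * R n) (2 * t * R n) → ‖((Z.rad (f n) x : ℝ) : ℂ) • u n x‖ ^ 2 = 0 := by
      intro x hx
      have e : Z.rad (f n) x = 0 := by
        refine b.zero_of_le_dist ?_
        by_contra hcon
        push Not at hcon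
        rw [Real.dist_eq, abs_lt] at hcon
        change -((t ^ 2 - s ^ 2) / 2 + 3 / 4 * s ^ 2) < _ ∧ _ < (t ^ 2 - s ^ 2) / 2 + 3 / 4 * s ^ 2 at hcon
        refine hx ⟨?_, ?_⟩
        · refine rsx_lt_of_sq (norm_nonneg _) ?_
          have : (s / 2) ^ 2 < ‖x‖ ^ 2 * (R n ^ 2)⁻¹ := by nlinarith [hcon.1]
          rw [← div_eq_mul_inv, lt_div_iff₀ hR2] at this
          nlinarith
        · refine rsx_lt_of_sq (by nlinarith) ?_
          have : ‖x‖ ^ 2 * (R n ^ 2)⁻¹ < (2 * t) ^ 2 := by nlinarith [hcon.2]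
          rw [← div_eq_mul_inv, div_lt_iff₀ hR2] at this
          nlinarith
      simp [e]
    rw [← setIntegral_eq_integral_of_forall_compl_eq_zero hz]
    refine le_trans ?_ (hC n)
    have hu2 : Integrable fun x => ‖u n x‖ ^ 2 := by
      have hm : MemLp (u n) 2 (volume : Measure (Cfg d)) := (hu.inv n).1.memLp
      exact hm.integrable_norm_pow two_ne_zero
    refine integral_mono_of_nonneg (Eventually.of_forall fun x => by positivity) hu2.integrableOn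
      (Eventually.of_forall fun x => ?_)
    exact pow_le_pow_left₀ (norm_nonneg _) (hle n x) 2

private lemma rsx_shell {φ : Spl dh dm d} {ψ : Spl r ds dh} {A : Set (Cfg r)} {s t s' t' R : ℝ} (hs : 0 < s)
    (hR : 0 < R) (hs' : s < s') (hRt : 2 < (t ^ 2 - t' ^ 2) * R) (ht : 0 < t)
    (hA : ∀ η ∈ A, s' ≤ ‖η‖ ∧ ‖η‖ ≤ t') {x : Cfg d} (h1 : R⁻¹ • AN.hz ψ (AN.zy φ x) ∈ A)
    (h2 : ‖AN.hs ψ (AN.zy φ x)‖ ≤ Real.sqrt R) (h3 : ‖Real.sqrt R • AN.pm φ x‖ ≤ R) :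
    x ∈ AD.shl d (s * R) (t * R) := by
  have hn := AN.sup_norm_sq φ ψ x
  obtain ⟨g1, g2⟩ := hA _ h1
  rw [norm_smul, norm_inv, Real.norm_eq_abs, abs_of_pos hR, inv_mul_eq_div] at g1 g2
  rw [le_div_iff₀ hR] at g1
  rw [div_le_iff₀ hR] at g2
  have hq : Real.sqrt R ^ 2 = R := Real.sq_sqrt hR.le
  have hq0 : 0 < Real.sqrt R := Real.sqrt_pos.2 hR
  rw [norm_smul, Real.norm_eq_abs, abs_of_pos hq0] at h3
  have h3' : ‖AN.pm φ x‖ ≤ Real.sqrt R := by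
    by_contra hc
    push Not at hc
    nlinarith
  have k1 : (s * R) ^ 2 < ‖x‖ ^ 2 := by
    have : (s * R) ^ 2 < (s' * R) ^ 2 :=
      pow_lt_pow_left₀ (mul_lt_mul_of_pos_right hs' hR) (by positivity) two_ne_zero
    have h5 : (s' * R) ^ 2 ≤ ‖AN.hz ψ (AN.zy φ x)‖ ^ 2 :=
      pow_le_pow_left₀ (mul_nonneg (hs.trans hs').le hR.le) g1 2
    nlinarith [sq_nonneg ‖AN.hs ψ (AN.zy φ x)‖, sq_nonneg ‖AN.pm φ x‖]
  have k2 : ‖x‖ ^ 2 < (t * R) ^ 2 := by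
    have a1 : ‖AN.hz ψ (AN.zy φ x)‖ ^ 2 ≤ (t' * R) ^ 2 := pow_le_pow_left₀ (norm_nonneg _) g2 2
    have a2 : ‖AN.hs ψ (AN.zy φ x)‖ ^ 2 ≤ R := by
      rw [← hq]
      exact pow_le_pow_left₀ (norm_nonneg _) h2 2
    have a3 : ‖AN.pm φ x‖ ^ 2 ≤ R := by
      rw [← hq]
      exact pow_le_pow_left₀ (norm_nonneg _) h3' 2
    have a4 : 2 * R < (t ^ 2 - t' ^ 2) * R * R := mul_lt_mul_of_pos_right hRt hR
    nlinarith
  exact ⟨rsx_lt_of_sq (norm_nonneg _) k1, rsx_lt_of_sq (by positivity) k2⟩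

private lemma rsx_Zb {κ : ℝ} {φ : Spl dh dm d} {ψ : Spl r ds dh} {Om : Cfg r → Matrix (Fin dm) (Fin dm) ℝ}
    {A : Set (Cfg r)} {a : Cfg r → Cfg ds → F} (ha : ∀ η x, a η x ≠ 0 → η ∈ A) {R : ℝ} {x : Cfg d}
    (hx : AN.Zb φ ψ (fun q => ((chi R q : ℝ) : ℂ) • AN.bG κ Om a q) R x ≠ 0) :
    R⁻¹ • AN.hz ψ (AN.zy φ x) ∈ A ∧ ‖AN.hs ψ (AN.zy φ x)‖ ≤ Real.sqrt R ∧ ‖Real.sqrt R • AN.pm φ x‖ ≤ R := by
  have h1 : chi R (R⁻¹ • AN.hz ψ (AN.zy φ x), AN.hs ψ (AN.zy φ x), Real.sqrt R • AN.pm φ x) ≠ 0 := by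
    intro h0
    exact hx (by simp [AN.Zb, h0])
  have h2 : a (R⁻¹ • AN.hz ψ (AN.zy φ x)) (AN.hs ψ (AN.zy φ x)) ≠ 0 := by
    intro h0
    exact hx (by simp [AN.Zb, AN.bG, h0])
  refine ⟨ha _ _ h2, ?_⟩
  unfold chi at h1
  by_contra hc
  exact h1 (if_neg hc)

theorem supZ : SupZStmt F := by
  intro d dh dm r ds φ ψ κ Om s t A hs hst hA hAs
  have ht : 0 < t := hs.trans hst
  obtain ⟨s', t', hs', ht', hA'⟩ : ∃ s' t' : ℝ, s < s' ∧ t' ^ 2 < t ^ 2 ∧ ∀ η ∈ A, s' ≤ ‖η‖ ∧ ‖η‖ ≤ t' := by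
    rcases A.eq_empty_or_nonempty with h | h
    · subst h
      exact ⟨s + 1, 0, by linarith, by nlinarith, fun η hη => absurd hη (Set.notMem_empty η)⟩
    · obtain ⟨p, hp, hp'⟩ := hA.exists_isMinOn h continuous_norm.continuousOn
      obtain ⟨q, hq, hq'⟩ := hA.exists_isMaxOn h continuous_norm.continuousOn
      refine ⟨‖p‖, ‖q‖, (hAs hp).1, pow_lt_pow_left₀ (hAs hq).2 (norm_nonneg _) two_ne_zero, fun η hη => ⟨?_, ?_⟩⟩
      · exact hp' hη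
      · exact hq' hη
  refine ⟨2 / (t ^ 2 - t' ^ 2) + 1, ?_, ?_⟩
  · have : 0 < t ^ 2 - t' ^ 2 := by linarith
    positivity
  intro R hR a ha
  have hd : 0 < t ^ 2 - t' ^ 2 := by linarith
  have hR0 : 0 < R := lt_of_lt_of_le (by positivity) hR
  have hR2 : 2 < (t ^ 2 - t' ^ 2) * R := by
    have h1 : 2 / (t ^ 2 - t' ^ 2) < R := by linarith
    rw [div_lt_iff₀ hd] at h1
    linarith
  have key : ∀ x : Cfg d, AN.Zb φ ψ (fun q => ((chi R q : ℝ) : ℂ) • AN.bG κ Om a q) R x ≠ 0 →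
      x ∈ AD.shl d (s * R) (t * R) := by
    intro x hx
    obtain ⟨h1, h2, h3⟩ := rsx_Zb ha hx
    exact rsx_shell hs hR0 hs' hR2 ht hA' h1 h2 h3
  refine ⟨key, fun u u' huu => ?_⟩
  unfold ZZ
  refine integral_congr_ae (Eventually.of_forall fun x => ?_)
  by_cases h0 : AN.Zb φ ψ (fun q => ((chi R q : ℝ) : ℂ) • AN.bG κ Om a q) R x = 0
  · simp only [h0, inner_zero_left]
  · have := huu x (key x h0)
    simp only [this]

end Vale.Agent.P353.Z.AL
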