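import Vale.Agent.P353.AN.L.Stmt

/-! # P353, all `N`, block L: representation of locally bounded antilinear functionals (`RieszStmt`) -/

open MeasureTheory Filter Topology
open scoped ContDiff InnerProductSpace

namespace Vale.Agent.P353.Z.AL

namespace Rsz518

variable {r n : ℕ}

lemma nsq_Lp (g : Lp (Ek n) 2 (volume : Measure (Cfg r))) : ∫ x, ‖g x‖ ^ 2 = ‖g‖ ^ 2 := by
  have h1 : (inner ℂ g g : ℂ) = ∫ x, inner ℂ (g x) (g x) := L2.inner_def g g
  rw [inner_self_eq_norm_sq_to_K] at h1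
  have h2 : ∀ x, (inner ℂ (g x) (g x) : ℂ) = ((‖g x‖ ^ 2 : ℝ) : ℂ) := by
    intro x
    rw [inner_self_eq_norm_sq_to_K]
    norm_cast
  simp only [h2] at h1
  rw [integral_complex_ofReal] at h1
  have h3 : ((‖g‖ ^ 2 : ℝ) : ℂ) = ((∫ x, ‖g x‖ ^ 2 : ℝ) : ℂ) := by
    rw [← h1]
    norm_cast
  exact (Complex.ofReal_injective h3).symm

lemma LC_add {Ω : Set (Cfg r)} {b b' : Cfg r → Ek n} (h : LC Ω b) (h' : LC Ω b') : LC Ω fun x => b x + b' x := by
  obtain ⟨h1, A, h2, h3, h4⟩ := h
  obtain ⟨h1', A', h2', h3', h4'⟩ := h'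
  refine ⟨h1.add h1', A ∪ A', h2.union h2', Set.union_subset h3 h3', fun x hx => ?_⟩
  rw [Set.mem_union, not_or] at hx
  simp only [h4 x hx.1, h4' x hx.2, add_zero]

lemma LC_smul {Ω : Set (Cfg r)} {b : Cfg r → Ek n} (c : ℂ) (h : LC Ω b) : LC Ω fun x => c • b x := by
  obtain ⟨h1, A, h2, h3, h4⟩ := h
  exact ⟨h1.const_smul c, A, h2, h3, fun x hx => by simp only [h4 x hx, smul_zero]⟩

lemma LC_sub {Ω : Set (Cfg r)} {b b' : Cfg r → Ek n} (h : LC Ω b) (h' : LC Ω b') : LC Ω fun x => b x - b' x := by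
  have h1 := LC_add h (LC_smul (-1) h')
  have h2 : (fun x => b x + (-1 : ℂ) • b' x) = fun x => b x - b' x := by
    funext x
    rw [neg_one_smul, sub_eq_add_neg]
  rwa [h2] at h1

lemma LC_ind {Ω P K : Set (Cfg r)} {b : Cfg r → Ek n} (hb : MemLp b 2 (volume : Measure (Cfg r))) (hP : MeasurableSet P)
    (hPK : P ⊆ K) (hK : IsCompact K) (hKΩ : K ⊆ Ω) : LC Ω (P.indicator b) :=
  ⟨hb.indicator hP, K, hK, hKΩ, fun x hx => Set.indicator_of_notMem (fun h => hx (hPK h)) _⟩

section loc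

variable {Ω : Set (Cfg r)} {ℓ : (Cfg r → Ek n) → ℂ}
  (hadd : ∀ b b', LC Ω b → LC Ω b' → ℓ (fun x => b x + b' x) = ℓ b + ℓ b')
  (hsmul : ∀ (c : ℂ) b, LC Ω b → ℓ (fun x => c • b x) = (starRingEnd ℂ) c * ℓ b)

include hadd in
lemma ae_eq {B : Set (Cfg r)} {C : ℝ} (hC : ∀ b, LC Ω b → (∀ x, x ∉ B → b x = 0) → ‖ℓ b‖ ≤ C * Real.sqrt (∫ x, ‖b x‖ ^ 2))
    {b b' : Cfg r → Ek n} (hb : LC Ω b) (hb' : LC Ω b') (h0 : ∀ x, x ∉ B → b x = 0) (h0' : ∀ x, x ∉ B → b' x = 0)
    (h : b =ᵐ[volume] b') : ℓ b = ℓ b' := by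
  have h1 := LC_sub hb' hb
  have h2 := hC _ h1 (fun x hx => by rw [h0 x hx, h0' x hx, sub_zero])
  have h3 : ∫ x, ‖b' x - b x‖ ^ 2 = 0 := by
    rw [integral_eq_zero_of_ae]
    filter_upwards [h] with x hx
    rw [hx, sub_self]
    simp
  rw [h3, Real.sqrt_zero, mul_zero] at h2
  have h4 : ℓ (fun x => b' x - b x) = 0 := norm_le_zero_iff.1 h2
  have h5 := hadd b (fun x => b' x - b x) hb h1
  rw [h4, add_zero] at h5
  rw [← h5]
  congr 1
  funext x
  rw [add_sub_cancel]

include hadd hsmul in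
lemma local_riesz {P K B : Set (Cfg r)} (hP : MeasurableSet P) (hPK : P ⊆ K) (hPB : P ⊆ B) (hK : IsCompact K) (hKΩ : K ⊆ Ω) {C : ℝ}
    (hC : ∀ b, LC Ω b → (∀ x, x ∉ B → b x = 0) → ‖ℓ b‖ ≤ C * Real.sqrt (∫ x, ‖b x‖ ^ 2)) :
    ∃ f : Lp (Ek n) 2 (volume : Measure (Cfg r)), ∀ b : Cfg r → Ek n, MemLp b 2 (volume : Measure (Cfg r)) →
      ℓ (P.indicator b) = ∫ x, inner ℂ (P.indicator b x) (f x) := by
  have hz : ∀ (b : Cfg r → Ek n) x, x ∉ B → P.indicator b x = 0 := fun b x hx =>
    Set.indicator_of_notMem (fun h => hx (hPB h)) _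
  have hL : ∀ b : Cfg r → Ek n, MemLp b 2 (volume : Measure (Cfg r)) → LC Ω (P.indicator b) := fun b hb =>
    LC_ind hb hP hPK hK hKΩ
  have hae : ∀ b b' : Cfg r → Ek n, LC Ω b → LC Ω b' → (∀ x, x ∉ B → b x = 0) → (∀ x, x ∉ B → b' x = 0) →
      b =ᵐ[volume] b' → ℓ b = ℓ b' := fun b b' h1 h2 h3 h4 h5 => ae_eq hadd hC h1 h2 h3 h4 h5
  let Φ : Lp (Ek n) 2 (volume : Measure (Cfg r)) →ₗ[ℂ] ℂ :=
    { toFun := fun g => (starRingEnd ℂ) (ℓ (P.indicator g))
      map_add' := by
        intro g g'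
        rw [← map_add]
        congr 1
        rw [← hadd _ _ (hL _ (Lp.memLp g)) (hL _ (Lp.memLp g'))]
        refine hae _ _ (hL _ (Lp.memLp _)) (LC_add (hL _ (Lp.memLp g)) (hL _ (Lp.memLp g'))) (hz _)
          (fun x hx => by rw [hz _ x hx, hz _ x hx, add_zero]) ?_
        filter_upwards [Lp.coeFn_add g g'] with x hx
        by_cases hxP : x ∈ P
        · simp only [Set.indicator_of_mem hxP, hx, Pi.add_apply]
        · simp only [Set.indicator_of_notMem hxP, add_zero]
      map_smul' := by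
        intro c g
        have h1 : ℓ (P.indicator ⇑(c • g)) = (starRingEnd ℂ) c * ℓ (P.indicator g) := by
          rw [← hsmul c _ (hL _ (Lp.memLp g))]
          refine hae _ _ (hL _ (Lp.memLp _)) (LC_smul c (hL _ (Lp.memLp g))) (hz _)
            (fun x hx => by rw [hz _ x hx, smul_zero]) ?_
          filter_upwards [Lp.coeFn_smul c g] with x hx
          by_cases hxP : x ∈ P
          · simp only [Set.indicator_of_mem hxP, hx, Pi.smul_apply]
          · simp only [Set.indicator_of_notMem hxP, smul_zero]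
        rw [h1, map_mul, Complex.conj_conj]
        rfl }
  have hΦ : ∀ g, ‖Φ g‖ ≤ |C| * ‖g‖ := by
    intro g
    change ‖(starRingEnd ℂ) (ℓ (P.indicator g))‖ ≤ _
    rw [RCLike.norm_conj]
    refine (hC _ (hL _ (Lp.memLp g)) (hz _)).trans ?_
    have h1 : Real.sqrt (∫ x, ‖P.indicator g x‖ ^ 2) ≤ ‖g‖ := by
      refine Real.sqrt_le_iff.2 ⟨norm_nonneg _, ?_⟩
      rw [← nsq_Lp]
      refine integral_mono ?_ ?_ ?_
      · exact ((Lp.memLp g).indicator hP).integrable_norm_pow (by norm_num)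
      · exact (Lp.memLp g).integrable_norm_pow (by norm_num)
      · intro x
        simp only
        gcongr
        exact norm_indicator_le_norm_self _ _
    calc C * Real.sqrt (∫ x, ‖P.indicator g x‖ ^ 2) ≤ |C| * Real.sqrt (∫ x, ‖P.indicator g x‖ ^ 2) :=
          mul_le_mul_of_nonneg_right (le_abs_self C) (Real.sqrt_nonneg _)
      _ ≤ |C| * ‖g‖ := mul_le_mul_of_nonneg_left h1 (abs_nonneg C)
  set f := (InnerProductSpace.toDual ℂ (Lp (Ek n) 2 (volume : Measure (Cfg r)))).symm (Φ.mkContinuous |C| hΦ) with hf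
  have hf1 : ∀ g : Lp (Ek n) 2 (volume : Measure (Cfg r)), ℓ (P.indicator g) = inner ℂ g f := by
    intro g
    have h1 : inner ℂ f g = Φ g := by
      rw [hf, InnerProductSpace.toDual_symm_apply]
      rfl
    rw [← inner_conj_symm, h1]
    exact (Complex.conj_conj _).symm
  refine ⟨f, fun b hb => ?_⟩
  have h1 : MemLp (P.indicator b) 2 (volume : Measure (Cfg r)) := hb.indicator hP
  have h2 := hf1 (h1.toLp _)
  have h3 : ℓ (P.indicator (h1.toLp _)) = ℓ (P.indicator b) := by
    refine hae _ _ (hL _ (Lp.memLp _)) (hL _ hb) (hz _) (hz _) ?_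
    filter_upwards [h1.coeFn_toLp] with x hx
    by_cases hxP : x ∈ P
    · simp only [Set.indicator_of_mem hxP, hx]
    · simp only [Set.indicator_of_notMem hxP]
  rw [← h3, h2, L2.inner_def]
  refine integral_congr_ae ?_
  filter_upwards [h1.coeFn_toLp] with x hx
  rw [hx]

include hadd hsmul in
lemma sum_split (b : ℕ → Cfg r → Ek n) (hb : ∀ k, LC Ω (b k)) (m : ℕ) :
    LC Ω (fun x => ∑ k ∈ Finset.range m, b k x) ∧
      ℓ (fun x => ∑ k ∈ Finset.range m, b k x) = ∑ k ∈ Finset.range m, ℓ (b k) := by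
  induction m with
  | zero =>
    have h1 : (fun x => ∑ k ∈ Finset.range 0, b k x) = fun x => (0 : ℂ) • b 0 x := by
      funext x
      simp
    rw [h1]
    refine ⟨LC_smul 0 (hb 0), ?_⟩
    rw [hsmul 0 _ (hb 0)]
    simp
  | succ m ih =>
    have h1 : (fun x => ∑ k ∈ Finset.range (m + 1), b k x) = fun x => (∑ k ∈ Finset.range m, b k x) + b m x := by
      funext x
      rw [Finset.sum_range_succ]
    rw [h1]
    refine ⟨LC_add ih.1 (hb m), ?_⟩
    rw [hadd _ _ ih.1 (hb m), ih.2, Finset.sum_range_succ]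

end loc

lemma int_inner {b b' : Cfg r → Ek n} (h : MemLp b 2 (volume : Measure (Cfg r))) (h' : MemLp b' 2 (volume : Measure (Cfg r))) :
    Integrable (fun x => (inner ℂ (b x) (b' x) : ℂ)) := by
  refine (L2.integrable_inner (𝕜 := ℂ) (h.toLp b) (h'.toLp b')).congr ?_
  filter_upwards [h.coeFn_toLp, h'.coeFn_toLp] with x h1 h2
  rw [h1, h2]

end Rsz518

open Rsz518 in
/-- **L-Riesz** -/
theorem riesz : RieszStmt := by
  intro r n Ω ℓ hΩ hadd hsmul hloc
  classical
  have hzero : ∀ b, LC Ω b → (∀ x, b x = 0) → ℓ b = 0 := by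
    intro b hb h0
    have h1 := hsmul 0 b hb
    rw [map_zero, zero_mul] at h1
    rw [← h1]
    congr 1
    funext x
    rw [h0 x, smul_zero]
  rcases Ω.eq_empty_or_nonempty with hem | hne
  · subst hem
    refine ⟨fun _ => 0, aestronglyMeasurable_const, ?_, ?_, ?_⟩
    · intro A _ _
      simp
    · intro b hb
      obtain ⟨_, A, _, hA, hb0⟩ := id hb
      have h0 : ∀ x, b x = 0 := fun x => hb0 x fun hx => hA hx
      rw [hzero b hb h0]
      simp
    · intro Ω' C _ _ hC _
      simp only [norm_zero, ne_eq, OfNat.ofNat_ne_zero, not_false_eq_true, zero_pow, integral_zero]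
      exact ⟨integrableOn_zero, by positivity⟩
  -- balls
  have h1 : ∀ η ∈ Ω, ∃ δ C : ℝ, 0 < δ ∧ Metric.closedBall η δ ⊆ Ω ∧ ∀ b, LC Ω b → (∀ x, x ∉ Metric.ball η δ → b x = 0) →
      ‖ℓ b‖ ≤ C * Real.sqrt (∫ x, ‖b x‖ ^ 2) := by
    intro η hη
    obtain ⟨δ, C, hδ, hC⟩ := hloc η hη
    obtain ⟨ε, hε, hεΩ⟩ := Metric.isOpen_iff.1 hΩ η hη
    refine ⟨min δ (ε / 2), C, lt_min hδ (by positivity), ?_, ?_⟩
    · intro x hx
      refine hεΩ ?_
      rw [Metric.mem_closedBall] at hx
      rw [Metric.mem_ball]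
      have := min_le_right δ (ε / 2)
      linarith
    · intro b hb h0
      refine hC b hb fun x hx => h0 x fun hx' => hx ?_
      exact Metric.ball_subset_ball (min_le_left _ _) hx'
  choose! δ C hδ hcb hC using h1
  obtain ⟨T, hTΩ, hTc, hTcov⟩ := TopologicalSpace.countable_cover_nhdsWithin (f := fun η => Metric.ball η (δ η)) (s := Ω)
    (fun η hη => mem_nhdsWithin_of_mem_nhds (Metric.ball_mem_nhds η (hδ η hη)))
  have hTne : T.Nonempty := by
    obtain ⟨x, hx⟩ := hne
    obtain ⟨η, hη, -⟩ := Set.mem_iUnion₂.1 (hTcov hx)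
    exact ⟨η, hη⟩
  obtain ⟨e, he⟩ := hTc.exists_eq_range hTne
  have heΩ : ∀ k, e k ∈ Ω := fun k => hTΩ (he ▸ Set.mem_range_self k)
  set B : ℕ → Set (Cfg r) := fun k => Metric.ball (e k) (δ (e k)) with hB
  have hBcov : ∀ x ∈ Ω, ∃ k, x ∈ B k := by
    intro x hx
    obtain ⟨η, hη, hxη⟩ := Set.mem_iUnion₂.1 (hTcov hx)
    rw [he] at hη
    obtain ⟨k, rfl⟩ := hη
    exact ⟨k, hxη⟩
  have hBΩ : ∀ k, B k ⊆ Ω := fun k => Metric.ball_subset_closedBall.trans (hcb _ (heΩ k))
  set P : ℕ → Set (Cfg r) := fun k => B k \ ⋃ j ∈ Finset.range k, B j with hP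
  have hPm : ∀ k, MeasurableSet (P k) := fun k =>
    Metric.isOpen_ball.measurableSet.diff (Finset.measurableSet_biUnion _ fun j _ => Metric.isOpen_ball.measurableSet)
  have hPB : ∀ k, P k ⊆ B k := fun k => Set.sdiff_subset
  have hPu : ∀ x k l, x ∈ P k → x ∈ P l → k = l := by
    intro x k l hk hl
    rcases lt_trichotomy k l with h | h | h
    · exact absurd (Set.mem_biUnion (Finset.mem_coe.2 (Finset.mem_range.2 h)) hk.1) hl.2
    · exact h
    · exact absurd (Set.mem_biUnion (Finset.mem_coe.2 (Finset.mem_range.2 h)) hl.1) hk.2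
  have hPcov : ∀ x j, x ∈ B j → ∃ k, k ≤ j ∧ x ∈ P k := by
    intro x j hj
    have hex : ∃ k, x ∈ B k := ⟨j, hj⟩
    refine ⟨Nat.find hex, Nat.find_le hj, Nat.find_spec hex, ?_⟩
    intro hx
    obtain ⟨i, hi, hxi⟩ := Set.mem_iUnion₂.1 hx
    exact Nat.find_min hex (Finset.mem_range.1 hi) hxi
  have hR : ∀ k, ∃ f : Lp (Ek n) 2 (volume : Measure (Cfg r)), ∀ b : Cfg r → Ek n, MemLp b 2 (volume : Measure (Cfg r)) →
      ℓ ((P k).indicator b) = ∫ x, inner ℂ ((P k).indicator b x) (f x) := fun k =>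
    local_riesz hadd hsmul (hPm k) ((hPB k).trans Metric.ball_subset_closedBall) (hPB k)
      (isCompact_closedBall (e k) (δ (e k))) (hcb _ (heΩ k)) (hC _ (heΩ k))
  choose G hG using hR
  -- the function
  set f : Cfg r → Ek n := fun x => ∑' k, (P k).indicator (G k) x with hf
  have hsum : ∀ x, HasSum (fun k => (P k).indicator (G k) x) (f x) := by
    intro x
    by_cases hx : ∃ k, x ∈ P k
    · obtain ⟨k, hk⟩ := hx
      have h2 : HasSum (fun j => (P j).indicator (G j) x) ((P k).indicator (G k) x) :=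
        hasSum_single k fun j hj => Set.indicator_of_notMem (fun h => hj (hPu x j k h hk)) _
      exact h2.summable.hasSum
    · push Not at hx
      have h2 : HasSum (fun j => (P j).indicator (G j) x) 0 := by
        convert hasSum_zero using 2 with j
        exact Set.indicator_of_notMem (hx j) _
      exact h2.summable.hasSum
  have hfP : ∀ k x, x ∈ P k → f x = G k x := by
    intro k x hk
    have h2 : HasSum (fun j => (P j).indicator (G j) x) ((P k).indicator (G k) x) :=
      hasSum_single k fun j hj => Set.indicator_of_notMem (fun h => hj (hPu x j k h hk)) _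
    rw [(hsum x).unique h2, Set.indicator_of_mem hk]
  have hfm : StronglyMeasurable f := by
    refine stronglyMeasurable_of_tendsto atTop (f := fun m x => ∑ k ∈ Finset.range m, (P k).indicator (G k) x) ?_ ?_
    · intro m
      exact Finset.stronglyMeasurable_fun_sum _ fun k _ => (Lp.stronglyMeasurable (G k)).indicator (hPm k)
    · rw [tendsto_pi_nhds]
      exact fun x => (hsum x).tendsto_sum_nat
  have hcomp : ∀ A, IsCompact A → A ⊆ Ω → ∃ m : ℕ, ∀ x ∈ A, ∃ k, k < m ∧ x ∈ P k := by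
    intro A hA hAΩ
    obtain ⟨t, ht⟩ := hA.elim_finite_subcover B (fun k => Metric.isOpen_ball) (fun x hx => by
      obtain ⟨k, hk⟩ := hBcov x (hAΩ hx)
      exact Set.mem_iUnion.2 ⟨k, hk⟩)
    refine ⟨t.sup id + 1, fun x hx => ?_⟩
    obtain ⟨j, hj, hxj⟩ := Set.mem_iUnion₂.1 (ht hx)
    obtain ⟨k, hk, hxk⟩ := hPcov x j hxj
    exact ⟨k, Nat.lt_succ_of_le (hk.trans (Finset.le_sup (f := id) hj)), hxk⟩
  have hintA : ∀ A, IsCompact A → A ⊆ Ω → IntegrableOn (fun x => ‖f x‖ ^ 2) A (volume : Measure (Cfg r)) := by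
    intro A hA hAΩ
    obtain ⟨m, hm⟩ := hcomp A hA hAΩ
    have h2 : Integrable (fun x => ∑ k ∈ Finset.range m, ‖G k x‖ ^ 2) (volume : Measure (Cfg r)) :=
      integrable_finsetSum _ fun k _ => (Lp.memLp (G k)).integrable_norm_pow (by norm_num)
    refine h2.integrableOn.mono' ((hfm.norm.pow 2).aestronglyMeasurable) ?_
    refine ae_restrict_of_forall_mem hA.measurableSet fun x hx => ?_
    obtain ⟨k, hk, hxk⟩ := hm x hx
    rw [hfP k x hxk, Real.norm_of_nonneg (by positivity)]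
    exact Finset.single_le_sum (f := fun k => ‖G k x‖ ^ 2) (fun k _ => by positivity) (Finset.mem_range.2 hk)
  have hrep : ∀ b, LC Ω b → ℓ b = ∫ x, inner ℂ (b x) (f x) := by
    intro b hb
    obtain ⟨hb2, A, hA, hAΩ, hb0⟩ := id hb
    obtain ⟨m, hm⟩ := hcomp A hA hAΩ
    have h2 : b = fun x => ∑ k ∈ Finset.range m, (P k).indicator b x := by
      funext x
      by_cases hx : x ∈ A
      · obtain ⟨k, hk, hxk⟩ := hm x hx
        rw [Finset.sum_eq_single k, Set.indicator_of_mem hxk]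
        · intro j _ hj
          exact Set.indicator_of_notMem (fun h => hj (hPu x j k h hxk)) _
        · intro h
          exact absurd (Finset.mem_range.2 hk) h
      · rw [hb0 x hx, Finset.sum_eq_zero]
        intro k _
        by_cases hk : x ∈ P k
        · rw [Set.indicator_of_mem hk, hb0 x hx]
        · exact Set.indicator_of_notMem hk _
    have hLk : ∀ k, LC Ω ((P k).indicator b) := fun k =>
      LC_ind hb2 (hPm k) ((hPB k).trans Metric.ball_subset_closedBall) (isCompact_closedBall (e k) (δ (e k))) (hcb _ (heΩ k))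
    have h3 : ℓ b = ∑ k ∈ Finset.range m, ℓ ((P k).indicator b) := by
      have h4 := (sum_split hadd hsmul (fun k => (P k).indicator b) hLk m).2
      rw [← h2] at h4
      exact h4
    rw [h3, Finset.sum_congr rfl fun k _ => hG k b hb2, ← integral_finsetSum]
    · refine integral_congr_ae (Eventually.of_forall fun x => ?_)
      change ∑ k ∈ Finset.range m, (inner ℂ ((P k).indicator b x) (G k x) : ℂ) = inner ℂ (b x) (f x)
      by_cases hx : x ∈ A
      · obtain ⟨k, hk, hxk⟩ := hm x hx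
        rw [Finset.sum_eq_single k, Set.indicator_of_mem hxk, hfP k x hxk]
        · intro j _ hj
          rw [Set.indicator_of_notMem (fun h => hj (hPu x j k h hxk)), inner_zero_left]
        · intro h
          exact absurd (Finset.mem_range.2 hk) h
      · rw [hb0 x hx, inner_zero_left, Finset.sum_eq_zero]
        intro k _
        by_cases hk : x ∈ P k
        · rw [Set.indicator_of_mem hk, hb0 x hx, inner_zero_left]
        · rw [Set.indicator_of_notMem hk, inner_zero_left]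
    · intro k _
      exact int_inner (hb2.indicator (hPm k)) (Lp.memLp (G k))
  refine ⟨f, hfm.aestronglyMeasurable, hintA, hrep, ?_⟩
  intro Ω' C' hΩ' hsub hC' hbd
  -- compact sets
  have hcA : ∀ A, IsCompact A → A ⊆ Ω' → ∫ x in A, ‖f x‖ ^ 2 ≤ C' ^ 2 := by
    intro A hA hAΩ'
    have hi := hintA A hA (hAΩ'.trans hsub)
    have hmem : MemLp (A.indicator f) 2 (volume : Measure (Cfg r)) := by
      rw [memLp_indicator_iff_restrict hA.measurableSet]
      exact (memLp_two_iff_integrable_sq_norm hfm.aestronglyMeasurable).2 hi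
    have hLC' : LC Ω' (A.indicator f) := ⟨hmem, A, hA, hAΩ', fun x hx => Set.indicator_of_notMem hx _⟩
    have hLC : LC Ω (A.indicator f) := ⟨hmem, A, hA, hAΩ'.trans hsub, fun x hx => Set.indicator_of_notMem hx _⟩
    have e1 : ∀ x, (inner ℂ (A.indicator f x) (f x) : ℂ) = ((A.indicator (fun x => ‖f x‖ ^ 2) x : ℝ) : ℂ) := by
      intro x
      by_cases hx : x ∈ A
      · rw [Set.indicator_of_mem hx, Set.indicator_of_mem hx, inner_self_eq_norm_sq_to_K]
        norm_cast
      · rw [Set.indicator_of_notMem hx, Set.indicator_of_notMem hx, inner_zero_left, Complex.ofReal_zero]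
    have e2 : ∀ x, ‖A.indicator f x‖ ^ 2 = A.indicator (fun x => ‖f x‖ ^ 2) x := by
      intro x
      by_cases hx : x ∈ A
      · rw [Set.indicator_of_mem hx, Set.indicator_of_mem hx]
      · rw [Set.indicator_of_notMem hx, Set.indicator_of_notMem hx]
        simp
    have h2 := hrep _ hLC
    have h3 := hbd _ hLC'
    simp only [e1] at h2
    rw [integral_complex_ofReal, integral_indicator hA.measurableSet] at h2
    simp only [e2] at h3
    rw [integral_indicator hA.measurableSet, h2, Complex.norm_real, Real.norm_of_nonneg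
      (setIntegral_nonneg hA.measurableSet fun x _ => by positivity)] at h3
    set I := ∫ x in A, ‖f x‖ ^ 2 with hI
    have hI0 : 0 ≤ I := setIntegral_nonneg hA.measurableSet fun x _ => by positivity
    rcases hI0.eq_or_lt with h4 | h4
    · rw [← h4]
      positivity
    · have h5 : 0 < Real.sqrt I := Real.sqrt_pos.2 h4
      have h6 : Real.sqrt I ≤ C' := by
        have h7 : Real.sqrt I * Real.sqrt I ≤ C' * Real.sqrt I := by rwa [Real.mul_self_sqrt hI0]
        exact le_of_mul_le_mul_right h7 h5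
      calc I = Real.sqrt I ^ 2 := (Real.sq_sqrt hI0).symm
        _ ≤ C' ^ 2 := pow_le_pow_left₀ h5.le h6 2
  obtain ⟨Q, hQc, hQs, hQu, hQm⟩ := hΩ'.exists_iUnion_isClosed
  set A : ℕ → Set (Cfg r) := fun m => Q m ∩ Metric.closedBall 0 m with hAdef
  have hAc : ∀ m, IsCompact (A m) := fun m => (isCompact_closedBall (0 : Cfg r) (m : ℝ)).inter_left (hQc m)
  have hAs : ∀ m, A m ⊆ Ω' := fun m => Set.inter_subset_left.trans (hQs m)
  have hAm : Monotone A := by
    intro i j hij
    refine Set.inter_subset_inter (hQm hij) (Metric.closedBall_subset_closedBall ?_)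
    exact_mod_cast hij
  have hAu : ⋃ m, A m = Ω' := by
    refine subset_antisymm (Set.iUnion_subset hAs) ?_
    intro x hx
    rw [← hQu] at hx
    obtain ⟨i, hi⟩ := Set.mem_iUnion.1 hx
    obtain ⟨j, hj⟩ := exists_nat_ge ‖x‖
    refine Set.mem_iUnion.2 ⟨max i j, hQm (le_max_left i j) hi, ?_⟩
    rw [mem_closedBall_zero_iff]
    refine hj.trans ?_
    exact_mod_cast le_max_right i j
  have hl : ∫⁻ x in Ω', ENNReal.ofReal (‖f x‖ ^ 2) ≤ ENNReal.ofReal (C' ^ 2) := by
    rw [← hAu, setLIntegral_iUnion_of_directed _ hAm.directed_le]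
    refine iSup_le fun m => ?_
    rw [← ofReal_integral_eq_lintegral_ofReal (hintA _ (hAc m) ((hAs m).trans hsub)) (Eventually.of_forall fun x => by positivity)]
    exact ENNReal.ofReal_le_ofReal (hcA _ (hAc m) (hAs m))
  have hi : IntegrableOn (fun x => ‖f x‖ ^ 2) Ω' (volume : Measure (Cfg r)) := by
    refine ⟨(hfm.norm.pow 2).aestronglyMeasurable, ?_⟩
    rw [hasFiniteIntegral_iff_ofReal (Eventually.of_forall fun x => by positivity)]
    exact hl.trans_lt ENNReal.ofReal_lt_top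
  refine ⟨hi, ?_⟩
  rw [← ofReal_integral_eq_lintegral_ofReal hi (Eventually.of_forall fun x => by positivity)] at hl
  exact (ENNReal.ofReal_le_ofReal_iff (by positivity)).1 hl

end Vale.Agent.P353.Z.AL
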