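import Vale.Agent.P353.AN.L.Stmt

/-! # P353, all `N`, block L: VG, the slice section is normalised -/

open MeasureTheory Filter Topology Matrix
open scoped ContDiff

namespace Vale.Agent.P353.Z.AL

variable {d dh dm r ds n : ℕ} {F : Type*} [NormedAddCommGroup F] [InnerProductSpace ℂ F]

section cont

variable {X : Type*} [TopologicalSpace X] {s : Set X}

lemma vg471_inv {M : X → Matrix (Fin dm) (Fin dm) ℝ} (hM : ContinuousOn M s) (h0 : ∀ x ∈ s, (M x).det ≠ 0) :
    ContinuousOn (fun x => (M x)⁻¹) s := by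
  have h1 : Continuous fun A : Matrix (Fin dm) (Fin dm) ℝ => A.det := continuous_id.matrix_det
  have h2 : Continuous fun A : Matrix (Fin dm) (Fin dm) ℝ => A.adjugate := continuous_id.matrix_adjugate
  have h3 : (fun x => (M x)⁻¹) = fun x => ((M x).det)⁻¹ • (M x).adjugate := by
    funext x
    rw [Matrix.inv_def, Ring.inverse_eq_inv']
  rw [h3]
  exact ((h1.comp_continuousOn hM).inv₀ h0).smul (h2.comp_continuousOn hM)

lemma vg471_mul {M N : X → Matrix (Fin dm) (Fin dm) ℝ} (hM : ContinuousOn M s) (hN : ContinuousOn N s) :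
    ContinuousOn (fun x => M x * N x) s := by
  have h : Continuous fun p : Matrix (Fin dm) (Fin dm) ℝ × Matrix (Fin dm) (Fin dm) ℝ => p.1 * p.2 :=
    continuous_fst.matrix_mul continuous_snd
  exact h.comp_continuousOn (hM.prodMk hN)

lemma vg471_mulVec {M : X → Matrix (Fin dm) (Fin dm) ℝ} {v : X → Fin dm → ℝ} (hM : ContinuousOn M s)
    (hv : ContinuousOn v s) : ContinuousOn (fun x => M x *ᵥ v x) s := by
  have h : Continuous fun p : Matrix (Fin dm) (Fin dm) ℝ × (Fin dm → ℝ) => p.1 *ᵥ p.2 :=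
    continuous_fst.matrix_mulVec continuous_snd
  exact h.comp_continuousOn (hM.prodMk hv)

lemma vg471_dot {u v : X → Fin dm → ℝ} (hu : ContinuousOn u s)
    (hv : ContinuousOn v s) : ContinuousOn (fun x => u x ⬝ᵥ v x) s := by
  have h : Continuous fun p : (Fin dm → ℝ) × (Fin dm → ℝ) => p.1 ⬝ᵥ p.2 := by
    unfold dotProduct
    fun_prop
  exact h.comp_continuousOn (hu.prodMk hv)

lemma vg471_sum {v : Fin 9 → X → Fin dm → ℝ} (hv : ∀ i, ContinuousOn (v i) s) :
    ContinuousOn (fun x => ∑ i, v i x) s := continuousOn_finsetSum _ fun i _ => hv i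

end cont

lemma vg471_cDz (S : Setup d F) (φ : Spl dh dm d) (ψ : Spl r ds dh) (i : Fin 9) :
    Continuous fun η : Cfg r => AN.Dz S φ ψ η i := by
  have h1 : Continuous fun y : Cfg dh => S.Dy φ i y := by
    unfold Setup.Dy Setup.Dm
    refine continuous_matrix fun B C => ?_
    simp only [Matrix.of_apply]
    fun_prop
  have h2 : Continuous fun η : Cfg r => AN.cmb ψ η (0 : Cfg ds) := by
    unfold AN.cmb
    refine (PiLp.continuous_toLp 2 _).comp (continuous_pi fun p => ?_)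
    rcases ψ.symm p.2 with a | b
    · simp only [Sum.elim_inl]; fun_prop
    · simp only [Sum.elim_inr]; fun_prop
  exact h1.comp h2

lemma vg471_cwt (i : Fin 9) : Continuous fun w : Wsp dm => (wt w i : Fin dm → ℝ) := by
  unfold wt
  refine continuous_pi fun B => ?_
  induction i using Fin.lastCases with
  | last => simp only [Fin.lastCases_last]; exact continuous_const
  | cast j => simp only [Fin.lastCases_castSucc]; fun_prop

/-- continuity of the boson density -/
lemma vg471_gR (hAlg : AlgStmt) (S : Setup d F) (φ : Spl dh dm d) (ψ : Spl r ds dh)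
    (Om : Cfg r → Matrix (Fin dm) (Fin dm) ℝ) (A : Set (Cfg r))
    (hF : ∀ η ∈ A, Frz (AN.Dz S φ ψ η) ∧ IsOm S.κ (AN.Dz S φ ψ η) (Om η)) (hOm : ContinuousOn Om A) :
    ContinuousOn (fun p : Cfg r × Wsp dm => gR (AN.Dz S φ ψ p.1) (Om p.1) 1 p.2) (A ×ˢ Set.univ) := by
  set s : Set (Cfg r × Wsp dm) := A ×ˢ Set.univ with hs
  have hD : ∀ i, ContinuousOn (fun p : Cfg r × Wsp dm => AN.Dz S φ ψ p.1 i) s := fun i =>
    ((vg471_cDz S φ ψ i).comp continuous_fst).continuousOn
  have hO : ContinuousOn (fun p : Cfg r × Wsp dm => Om p.1) s :=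
    hOm.comp continuous_fst.continuousOn fun p hp => hp.1
  have hI : ContinuousOn (fun p : Cfg r × Wsp dm => (AN.Dz S φ ψ p.1 8)⁻¹) s :=
    vg471_inv (hD 8) fun p hp => (hF p.1 hp.1).1.inv
  have hT : ∀ i, ContinuousOn (fun p : Cfg r × Wsp dm => tI (AN.Dz S φ ψ p.1) i) s := fun i =>
    vg471_mul hI (hD i)
  have ht2 : ContinuousOn (fun p : Cfg r × Wsp dm => t2 (AN.Dz S φ ψ p.1)) s := by
    unfold t2
    exact continuousOn_finsetSum _ fun i _ => vg471_mul (hT i) (hT i)
  have ht2i : ContinuousOn (fun p : Cfg r × Wsp dm => (t2 (AN.Dz S φ ψ p.1))⁻¹) s :=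
    vg471_inv ht2 fun p hp => (hAlg dm S.κ (AN.Dz S φ ψ p.1) (Om p.1) S.κ_pos (hF p.1 hp.1).1 (hF p.1 hp.1).2).2.2.2.2.2.1
  have hw : ∀ i, ContinuousOn (fun p : Cfg r × Wsp dm => (wt p.2 i : Fin dm → ℝ)) s := fun i =>
    ((vg471_cwt i).comp continuous_snd).continuousOn
  have hsV : ContinuousOn (fun p : Cfg r × Wsp dm => sV (AN.Dz S φ ψ p.1) p.2) s := by
    unfold sV
    exact vg471_mulVec ht2i (vg471_sum fun i => vg471_mulVec (hT i) (hw i))
  have hV : ∀ i, ContinuousOn (fun p : Cfg r × Wsp dm => VV (AN.Dz S φ ψ p.1) p.2 i) s := fun i => by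
    unfold VV
    exact (hw i).sub (vg471_mulVec (hT i) hsV)
  have hq : ContinuousOn (fun p : Cfg r × Wsp dm => qf (AN.Dz S φ ψ p.1) (Om p.1) p.2) s := by
    unfold qf
    exact continuousOn_finsetSum _ fun i _ => vg471_dot (hV i) (vg471_mulVec hO (hV i))
  unfold gR
  exact Real.continuous_exp.comp_continuousOn (continuousOn_const.mul hq)

/-- **L-VG** -/
theorem vg (S : Setup d F) : VGStmt S := by
  intro _ hGau hAlg dh dm r ds φ ψ Om A hA hF hOm a ha
  have hAm : MeasurableSet A := hA.isClosed.measurableSet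
  have hgc := vg471_gR hAlg S φ ψ Om A hF hOm
  have hsm : MeasurableSet (A ×ˢ (Set.univ : Set (Wsp dm))) := hAm.prod MeasurableSet.univ
  -- the density cut off outside `A`
  classical
  set g : Cfg r × Wsp dm → ℝ := (A ×ˢ (Set.univ : Set (Wsp dm))).piecewise
    (fun p : Cfg r × Wsp dm => gR (AN.Dz S φ ψ p.1) (Om p.1) 1 p.2) (fun _ => 0) with hg
  have hgm : Measurable g := hgc.measurable_piecewise continuousOn_const hsm
  have hgA : ∀ η ∈ A, ∀ w, g (η, w) = gR (AN.Dz S φ ψ η) (Om η) 1 w := fun η hη w =>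
    Set.piecewise_eq_of_mem _ _ _ (show (η, w) ∈ A ×ˢ (Set.univ : Set (Wsp dm)) from ⟨hη, trivial⟩)
  have hNm : StronglyMeasurable (fun η : Cfg r => ∫ w, g (η, w) ^ 2) :=
    StronglyMeasurable.integral_prod_right (f := fun (η : Cfg r) (w : Wsp dm) => g (η, w) ^ 2)
      (hgm.pow_const 2).stronglyMeasurable
  set G : Cfg r × Wsp dm → ℝ := fun p => g p / Real.sqrt (∫ w, g (p.1, w) ^ 2) with hG
  have hGm : Measurable G := hgm.div ((hNm.measurable.comp measurable_fst).sqrt)
  have hGA : ∀ η ∈ A, ∀ w, G (η, w) = gR (AN.Dz S φ ψ η) (Om η) 1 w /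
      Real.sqrt (∫ w', gR (AN.Dz S φ ψ η) (Om η) 1 w' ^ 2) := by
    intro η hη w
    simp only [hG, hgA η hη]
  have hG2 : ∀ η ∈ A, Integrable (fun w => G (η, w) ^ 2) ∧ ∫ w, G (η, w) ^ 2 = 1 := by
    intro η hη
    obtain ⟨-, -, -, h4, h5, -⟩ := hGau dm S.κ (AN.Dz S φ ψ η) (Om η) S.κ_pos (hF η hη).1 (hF η hη).2
    have e : (fun w => G (η, w) ^ 2) = fun w => gR (AN.Dz S φ ψ η) (Om η) 1 w ^ 2 /
        ∫ w', gR (AN.Dz S φ ψ η) (Om η) 1 w' ^ 2 := by
      funext w
      rw [hGA η hη, div_pow, Real.sq_sqrt h4.le]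
    rw [e]
    refine ⟨h5.div_const _, ?_⟩
    rw [integral_div, div_self h4.ne']
  -- the section as a function on `(Cfg r × Cfg ds) × Wsp dm`
  have hv : ∀ η s w, AN.vG S φ ψ Om a η s w = ((G (η, w) : ℝ) : ℂ) • a η s := by
    intro η s w
    by_cases hη : η ∈ A
    · rw [hGA η hη]
      rfl
    · have h0 : a η s = 0 := by
        by_contra h
        exact hη (ha.2 η s h)
      unfold AN.vG
      rw [h0, smul_zero, smul_zero]
  have hmp : MeasurePreserving (MeasurableEquiv.prodAssoc : (Cfg r × Cfg ds) × Wsp dm ≃ᵐ Cfg r × Cfg ds × Wsp dm)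
      ((volume.prod volume).prod volume) (volume.prod (volume.prod volume)) := measurePreserving_prodAssoc _ _ _
  have haes : AEStronglyMeasurable (fun q : Cfg r × Cfg ds => a q.1 q.2) (volume.prod volume) := ha.1.1
  have haI : Integrable (fun q : Cfg r × Cfg ds => ‖a q.1 q.2‖ ^ 2) (volume.prod volume) := by
    have := (memLp_two_iff_integrable_sq_norm haes).1 ha.1
    exact this
  have hm1 : AEStronglyMeasurable (fun p : (Cfg r × Cfg ds) × Wsp dm => ((G (p.1.1, p.2) : ℝ) : ℂ) • a p.1.1 p.1.2)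
      ((volume.prod volume).prod volume) := by
    have m1 : Measurable fun p : (Cfg r × Cfg ds) × Wsp dm => ((G (p.1.1, p.2) : ℝ) : ℂ) :=
      Complex.measurable_ofReal.comp (hGm.comp ((measurable_fst.comp measurable_fst).prodMk measurable_snd))
    have m2 : AEStronglyMeasurable (fun p : (Cfg r × Cfg ds) × Wsp dm => a p.1.1 p.1.2)
        ((volume.prod volume).prod volume) := haes.comp_fst
    exact m1.aestronglyMeasurable.smul m2
  have hI1 : Integrable (fun p : (Cfg r × Cfg ds) × Wsp dm => ‖((G (p.1.1, p.2) : ℝ) : ℂ) • a p.1.1 p.1.2‖ ^ 2)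
      ((volume.prod volume).prod volume) ∧
      ∫ p : (Cfg r × Cfg ds) × Wsp dm, ‖((G (p.1.1, p.2) : ℝ) : ℂ) • a p.1.1 p.1.2‖ ^ 2
        ∂((volume.prod volume).prod volume) = n2 a := by
    have hin : ∀ p : Cfg r × Cfg ds, Integrable (fun w : Wsp dm => ‖((G (p.1, w) : ℝ) : ℂ) • a p.1 p.2‖ ^ 2) ∧
        ∫ w : Wsp dm, ‖((G (p.1, w) : ℝ) : ℂ) • a p.1 p.2‖ ^ 2 = ‖a p.1 p.2‖ ^ 2 := by
      intro p
      by_cases hη : p.1 ∈ A
      · obtain ⟨i1, i2⟩ := hG2 p.1 hη
        have e : (fun w : Wsp dm => ‖((G (p.1, w) : ℝ) : ℂ) • a p.1 p.2‖ ^ 2) =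
            fun w => G (p.1, w) ^ 2 * ‖a p.1 p.2‖ ^ 2 := by
          funext w
          rw [norm_smul, mul_pow, Complex.norm_real, Real.norm_eq_abs, sq_abs]
        rw [e]
        refine ⟨i1.mul_const _, ?_⟩
        rw [integral_mul_const, i2, one_mul]
      · have h0 : a p.1 p.2 = 0 := by
          by_contra h
          exact hη (ha.2 p.1 p.2 h)
        simp [h0]
    have hm2 : AEStronglyMeasurable (fun p : (Cfg r × Cfg ds) × Wsp dm => ‖((G (p.1.1, p.2) : ℝ) : ℂ) • a p.1.1 p.1.2‖ ^ 2)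
        ((volume.prod volume).prod volume) := (hm1.norm.aemeasurable.pow_const 2).aestronglyMeasurable
    have hI : Integrable (fun p : (Cfg r × Cfg ds) × Wsp dm => ‖((G (p.1.1, p.2) : ℝ) : ℂ) • a p.1.1 p.1.2‖ ^ 2)
        ((volume.prod volume).prod volume) := by
      rw [integrable_prod_iff hm2]
      refine ⟨Filter.Eventually.of_forall fun p => (hin p).1, ?_⟩
      have e : (fun p : Cfg r × Cfg ds => ∫ w : Wsp dm, ‖‖((G (p.1, w) : ℝ) : ℂ) • a p.1 p.2‖ ^ 2‖) =
          fun p => ‖a p.1 p.2‖ ^ 2 := by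
        funext p
        rw [← (hin p).2]
        refine integral_congr_ae (Filter.Eventually.of_forall fun w => ?_)
        exact Real.norm_of_nonneg (by positivity)
      rw [e]
      exact haI
    refine ⟨hI, ?_⟩
    rw [integral_prod _ hI]
    unfold n2
    exact integral_congr_ae (Filter.Eventually.of_forall fun p => (hin p).2)
  have hcomp : (fun q : Cfg r × Cfg ds × Wsp dm => AN.vG S φ ψ Om a q.1 q.2.1 q.2.2) ∘
      (MeasurableEquiv.prodAssoc : (Cfg r × Cfg ds) × Wsp dm ≃ᵐ Cfg r × Cfg ds × Wsp dm) =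
      fun p : (Cfg r × Cfg ds) × Wsp dm => ((G (p.1.1, p.2) : ℝ) : ℂ) • a p.1.1 p.1.2 := by
    funext p
    exact hv _ _ _
  constructor
  · have h1 := (memLp_two_iff_integrable_sq_norm hm1).2 hI1.1
    have h2 := h1.comp_measurePreserving (MeasurePreserving.symm _ hmp)
    have e : (fun q : Cfg r × Cfg ds × Wsp dm => AN.vG S φ ψ Om a q.1 q.2.1 q.2.2) =
        (fun p : (Cfg r × Cfg ds) × Wsp dm => ((G (p.1.1, p.2) : ℝ) : ℂ) • a p.1.1 p.1.2) ∘
          (MeasurableEquiv.prodAssoc : (Cfg r × Cfg ds) × Wsp dm ≃ᵐ Cfg r × Cfg ds × Wsp dm).symm := by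
      funext q
      exact hv _ _ _
    rw [e]
    exact h2
  · rw [← hI1.2, ← hmp.integral_comp']
    refine integral_congr_ae (Filter.Eventually.of_forall fun p => ?_)
    have := congrFun hcomp p
    simp only [Function.comp] at this
    simp only [this]

end Vale.Agent.P353.Z.AL
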