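import Vale.Agent.P353.AN.L.Tail
import Vale.Agent.P353.AN.L.VG
import Vale.Agent.P353.AN.GL.SfuC
import Vale.Agent.P353.AN.GL.SfuD
import Vale.Agent.P353.AN.GL.Gau
import Vale.Agent.P353.AN.D.Scal
import Vale.Agent.P353.AN.D.Cmb
import Vale.Agent.P353.AN.B.AlgQF

/-! # P353, all `N`, block L: `sfun` is a slice functional (L-Sf, helper803) -/

open MeasureTheory Filter Topology Matrix
open scoped ContDiff

namespace Vale.Agent.P353.Z.AL

variable {d dh dm r ds : ℕ} {F : Type*} [NormedAddCommGroup F] [InnerProductSpace ℂ F]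

namespace Sf803

open AN.SfuA

lemma swp_spsw (ψ : Spl r ds dh) : AN.swp (spsw ψ) = ψ := by
  refine Equiv.ext fun x => ?_
  rcases x with a | a <;> rfl

lemma Dz_eq (S : Setup d F) (φ : Spl dh dm d) (ψ : Spl r ds dh) (η : Cfg r) :
    AD.Dz S φ (spsw ψ) η = AN.Dz S φ ψ η := by
  rw [← AN.Dz_swp, swp_spsw]

lemma Dz_eq' (S : Setup d F) (φ : Spl dh dm d) (ψ : Spl r ds dh) (η : Cfg r) :
    AD.Dz S φ (spsw ψ) η = S.Dz φ ψ η := Dz_eq S φ ψ η

/-- the squares do not degenerate at frozen points -/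
lemma det_sq {κ : ℝ} {D : Fin 9 → Matrix (Fin dm) (Fin dm) ℝ} {Om : Matrix (Fin dm) (Fin dm) ℝ} (hO : IsOm κ D Om) :
    (∑ i, D i * D i).det ≠ 0 := by
  intro h0
  obtain ⟨v, hv, h1⟩ := Matrix.exists_mulVec_eq_zero_iff.2 h0
  have h2 : (Om * Om) *ᵥ v = 0 := by
    rw [hO.sq, Matrix.neg_mulVec, Matrix.smul_mulVec, h1, smul_zero, neg_zero]
  have h3 : (Om * Om).det = 0 := Matrix.exists_mulVec_eq_zero_iff.1 ⟨v, hv, h2⟩
  rw [Matrix.det_mul] at h3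
  have h4 := (AD.Sc.om_unit hO).ne_zero
  exact h4 (mul_self_eq_zero.1 h3)

lemma memTs (ψ : Spl r ds dh) {R : ℝ} (hR : 0 < R) {v : Cfg r → Cfg ds → Wsp dm → F}
    (hv : MemLp (fun q : Cfg r × Cfg ds × Wsp dm => v q.1 q.2.1 q.2.2) 2 (volume.prod (volume.prod volume))) :
    MemLp (fun p : Cfg dh × Wsp dm => AN.Ts0 ψ v R p.1 p.2) 2 (volume.prod volume) := by
  have hc0 : 0 < R ^ (2 * (dm : ℝ) - 9 * (r : ℝ) / 2) := Real.rpow_pos_of_pos hR _
  have key : MemLp (fun q : Cfg r × Cfg ds × Wsp dm => v q.1 q.2.1 q.2.2) 2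
      (Measure.map (tl775 ψ R) ((volume : Measure (Cfg dh)).prod (volume : Measure (Wsp dm)))) := by
    have hne : ENNReal.ofReal ((R ^ (2 * (dm : ℝ) - 9 * (r : ℝ) / 2)) ^ 2) ≠ 0 := by
      rw [Ne, ENNReal.ofReal_eq_zero, not_le]; positivity
    refine MemLp.of_measure_le_smul (c := (ENNReal.ofReal ((R ^ (2 * (dm : ℝ) - 9 * (r : ℝ) / 2)) ^ 2))⁻¹)
      (ENNReal.inv_ne_top.2 hne) ?_ hv
    rw [← tl775_map (dm := dm) ψ R hR, smul_smul, ENNReal.inv_mul_cancel hne ENNReal.ofReal_ne_top, one_smul]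
  exact (key.comp_of_map (tl775_cont ψ R).aemeasurable).const_smul
    (((R ^ (2 * (dm : ℝ) - 9 * (r : ℝ) / 2) : ℝ) : ℂ))

end Sf803

open Sf803 AN.SfuA in
/-- **L-Sf** -/
theorem sf (S : Setup d F) : SfStmt S := by
  intro hfin dh dm r ds φ ψ z₀ h2 L Om K U hB ε hε hdet χ hχs hχ o ho
  obtain ⟨q1, q2, q3, q4⟩ := AD.scal S hfin dh dm ds r φ (spsw ψ) z₀ h2
  set A : Set (Cfg r) := Metric.closedBall z₀ ε with hA
  have hsetA : {η : Cfg r | ‖η - z₀‖ ≤ ε} = A := by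
    ext η
    rw [hA, Metric.mem_closedBall, dist_eq_norm]
    rfl
  have hdet' : ∀ η ∈ A, (S.Dy φ 8 (AD.cmb (spsw ψ) 0 η)).det ≠ 0 := by
    intro η hη
    have h1 := hdet η hη
    rw [← Dz_eq'] at h1
    exact h1
  have hsub : A ⊆ {yz : Cfg r | (S.Dy φ 8 (AD.cmb (spsw ψ) 0 yz)).det ≠ 0} := hdet'
  -- `Ω`
  have hOm : ∀ η ∈ A, AD.omc S.κ (AD.Dz S φ (spsw ψ) η) = Om η := by
    intro η hη
    refine AX.omc_eq AX.omU S.κ_pos ?_
    have h1 := det_sq (q1 η (hdet' η hη)).2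
    rw [← AX.DM_Mz] at h1 ⊢
    exact hB.om η h1
  have hFO : ∀ η ∈ A, Frz (AN.Dz S φ ψ η) ∧ IsOm S.κ (AN.Dz S φ ψ η) (Om η) := by
    intro η hη
    have h1 := q1 η (hdet' η hη)
    rw [hOm η hη, Dz_eq] at h1
    exact h1
  have hχA : ∀ η, χ η ≠ 0 → η ∈ A := fun η hη =>
    Metric.ball_subset_closedBall (hχ (subset_tsupport _ hη))
  have hχε : ∀ η, χ η ≠ 0 → ‖η - z₀‖ ≤ ε := by
    intro η hη
    have := hχA η hη
    rwa [hA, Metric.mem_closedBall, dist_eq_norm] at this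
  have hcs : HasCompactSupport χ :=
    HasCompactSupport.of_support_subset_isCompact (isCompact_closedBall z₀ ε) fun η hη => hχA η hη
  -- continuity
  have hcO : ContinuousOn (fun η => AD.omc S.κ (AD.Dz S φ (spsw ψ) η)) A := by
    refine continuousOn_pi.2 fun B => continuousOn_pi.2 fun C => ?_
    exact (q3 B C).continuousOn.mono hsub
  have hcOm : ContinuousOn Om A := hcO.congr fun η hη => (hOm η hη).symm
  have hcP : ∀ v : F, ContinuousOn (fun η => (S.F0 φ (AD.Dz S φ (spsw ψ) η)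
      (AD.omc S.κ (AD.Dz S φ (spsw ψ) η))).starProjection v) {η | ‖η - z₀‖ ≤ ε} := by
    intro v
    rw [hsetA]
    exact (q4.continuousOn.mono hsub).clm_apply continuousOn_const
  -- the section
  set a : Cfg r → Cfg ds → F := fun η s => ((χ η : ℝ) : ℂ) •
    (S.F0 φ (S.Dz φ ψ η) (Om η)).starProjection (o s) with ha
  have haP : ∀ (o' : Cfg ds → F) η s, AN.aP S φ (spsw ψ) χ o' η s =
      ((χ η : ℝ) : ℂ) • (S.F0 φ (S.Dz φ ψ η) (Om η)).starProjection (o' s) := by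
    intro o' η s
    unfold AN.aP
    by_cases h0 : χ η = 0
    · rw [h0]; simp
    · have h1 : S.F0 φ (AD.Dz S φ (spsw ψ) η) (AD.omc S.κ (AD.Dz S φ (spsw ψ) η)) =
          S.F0 φ (S.Dz φ ψ η) (Om η) := by
        rw [hOm η (hχA η h0), Dz_eq']
      rw [sp_congr h1]
  have hmem : MemLp (fun q : Cfg r × Cfg ds => a q.1 q.2) 2 (volume.prod volume) := by
    set o' : Cfg ds → F := ho.1.mk o with ho'
    have hoo : o =ᵐ[volume] o' := ho.1.ae_eq_mk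
    have hs' : StronglyMeasurable o' := ho.1.stronglyMeasurable_mk
    have hm' : MemLp o' 2 (volume : Measure (Cfg ds)) := (memLp_congr_ae hoo).1 ho
    have hsm := sm_aP S φ (spsw ψ) z₀ ε hcP χ hχs.continuous hχε o' hs'
    have hfi := lint_aP S φ (spsw ψ) χ hχs.continuous hcs o' hm'
    have h1 : MemLp (fun q : Cfg r × Cfg ds => AN.aP S φ (spsw ψ) χ o' q.1 q.2) 2 (volume.prod volume) :=
      (memLp_two hsm.aestronglyMeasurable).2 hfi
    refine (memLp_congr_ae ?_).1 h1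
    have h3 : ∀ᵐ q : Cfg r × Cfg ds ∂((volume : Measure (Cfg r)).prod (volume : Measure (Cfg ds))), o q.2 = o' q.2 :=
      Measure.quasiMeasurePreserving_snd.ae hoo
    filter_upwards [h3] with q hq
    rw [haP, ha, ← hq]
  have hsec : Sec2 A a := by
    refine ⟨hmem, fun η s h => hχA η fun h0 => h ?_⟩
    simp only [ha, h0, Complex.ofReal_zero, zero_smul]
  refine ⟨hsec, fun R hR u hu => ?_⟩
  -- the identity
  have hPc : ∀ η, ‖η - z₀‖ ≤ ε → ∀ R : ℝ, 0 < R →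
      AD.omc S.κ (AD.Dz S φ (spsw ψ) (R • η)) = R • AD.omc S.κ (AD.Dz S φ (spsw ψ) η) ∧
      S.F0 φ (AD.Dz S φ (spsw ψ) (R • η)) (AD.omc S.κ (AD.Dz S φ (spsw ψ) (R • η))) =
        S.F0 φ (AD.Dz S φ (spsw ψ) η) (AD.omc S.κ (AD.Dz S φ (spsw ψ) η)) := by
    intro η hη R hR
    have hηA : η ∈ A := by rwa [← hsetA]
    have h1 := (q2 η (hdet' η hηA) R hR).1
    refine ⟨h1, ?_⟩
    rw [h1, AD.Sc.Dz_smul]
    exact (f0S S φ (AD.Dz S φ (spsw ψ) η) (AD.omc S.κ (AD.Dz S φ (spsw ψ) η))).2 R hR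
  have hvv : vv S φ (spsw ψ) χ o = AN.vG S φ ψ Om a := by
    funext η s w
    unfold vv
    rw [swp_spsw]
    unfold AN.vG
    have h1 : AN.aP S φ (spsw ψ) χ o η s = a η s := haP o η s
    rw [h1]
    by_cases h0 : χ η = 0
    · have h3 : a η s = 0 := by simp only [ha, h0, Complex.ofReal_zero, zero_smul]
      rw [h3, smul_zero, smul_zero]
    · have h4 : (fun η => AD.omc S.κ (AD.Dz S φ (spsw ψ) η)) η = Om η := hOm η (hχA η h0)
      rw [h4]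
  have hv : MemLp (fun p : Cfg dh × Wsp dm => AN.Ts0 ψ (AN.vG S φ ψ Om a) R p.1 p.2) 2 (volume.prod volume) :=
    memTs ψ hR (vg S hfin AN.gau_stmt alg dh dm r ds φ ψ Om A (isCompact_closedBall z₀ ε) hFO hcOm a hsec).1
  have hTs : ∀ p : Cfg dh × Wsp dm, AN.Ts0 (AN.swp (spsw ψ)) (vv S φ (spsw ψ) χ o) R p.1 p.2 =
      AN.Ts0 ψ (AN.vG S φ ψ Om a) R p.1 p.2 := by
    intro p
    rw [swp_spsw, hvv]
  rw [sfun_eq S φ (spsw ψ) AD.cmbS hPc χ hχε o hR ε u hu (by simpa only [hTs] using hv)]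
  simp only [hTs]
  unfold Sl
  have hNE : Nr ψ A dm R ε ⊆ Eb (spsw ψ) dm ε R := fun p hp => ⟨hp.2.1, hp.2.2⟩
  refine setIntegral_eq_of_subset_of_forall_sdiff_eq_zero (meas_Eb (spsw ψ) ε R) hNE ?_
  rintro p ⟨hp1, hp2⟩
  have h1 : R⁻¹ • AN.hz ψ p.1 ∉ A := fun h => hp2 ⟨h, hp1.1, hp1.2⟩
  have h3 : χ (R⁻¹ • AN.hz ψ p.1) = 0 := by
    by_contra h
    exact h1 (hχA _ h)
  have h4 : AN.Ts0 ψ (AN.vG S φ ψ Om a) R p.1 p.2 = 0 := by
    unfold AN.Ts0 AN.vG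
    have h5 : a (R⁻¹ • AN.hz ψ p.1) (AN.hs ψ p.1) = 0 := by
      simp only [ha, h3, Complex.ofReal_zero, zero_smul]
    rw [h5, smul_zero, smul_zero]
  rw [h4, inner_zero_left]

end Vale.Agent.P353.Z.AL
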