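import Vale.Agent.P353.AN.L.Stmt

/-! # P353, all `N`, block L: back to the slice functionals (`SpzOfStmt`; helper755) -/

open MeasureTheory Filter Topology Matrix
open scoped ContDiff ENNReal

namespace Vale.Agent.P353.Z.AL

variable {d dh dm r ds n : ℕ} {F : Type*} [NormedAddCommGroup F] [InnerProductSpace ℂ F]

section Alg

variable [FiniteDimensional ℂ F]

/-- projection onto the image of a subspace under a unitary -/
lemma spz_proj (U : F →L[ℂ] F) (K W : Submodule ℂ F) (hi : ∀ v w, inner ℂ (U v) (U w) = inner ℂ v w)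
    (hs : ∀ v, ∃ u, U u = v) (hm : ∀ v, v ∈ K ↔ U v ∈ W) :
    ∃ V : F →L[ℂ] F, (∀ v, U (V v) = v) ∧ (∀ v, V (U v) = v) ∧ (∀ v w, inner ℂ v (V w) = inner ℂ (U v) w) ∧
      ∀ v, W.starProjection v = U (K.starProjection (V v)) := by
  have : CompleteSpace F := FiniteDimensional.complete ℂ F
  have h1 : ∀ v, (ContinuousLinearMap.adjoint U) (U v) = v := by
    intro v
    refine ext_inner_right ℂ fun w => ?_
    rw [ContinuousLinearMap.adjoint_inner_left, hi]
  have h2 : ∀ v, U ((ContinuousLinearMap.adjoint U) v) = v := by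
    intro v
    obtain ⟨x, rfl⟩ := hs v
    rw [h1]
  refine ⟨ContinuousLinearMap.adjoint U, h2, h1, fun v w => ContinuousLinearMap.adjoint_inner_right U v w,
    fun v => ?_⟩
  refine Submodule.eq_starProjection_of_mem_of_inner_eq_zero ?_ ?_
  · exact (hm _).1 (Submodule.starProjection_apply_mem _ _)
  · intro w hw
    obtain ⟨x, rfl⟩ := hs w
    have hx : x ∈ K := (hm x).2 hw
    have e : v - U (K.starProjection ((ContinuousLinearMap.adjoint U) v)) =
        U ((ContinuousLinearMap.adjoint U) v - K.starProjection ((ContinuousLinearMap.adjoint U) v)) := by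
      rw [map_sub, h2]
    rw [e, hi]
    exact Submodule.starProjection_inner_eq_zero _ _ hx

lemma spz_comm (U V T : F →L[ℂ] F) (K : Submodule ℂ F) (h1 : ∀ v, U (V v) = v) (h2 : ∀ v, V (U v) = v)
    (hU : U * T = T * U) (hT : ∀ v w, inner ℂ (T v) w = inner ℂ v (T w)) (hK : ∀ v ∈ K, T v ∈ K) :
    (K.starProjection ∘L V) * T = T * (K.starProjection ∘L V) := by
  ext v
  change K.starProjection (V (T v)) = T (K.starProjection (V v))
  have e1 : V (T v) = T (V v) := by
    have h3 : U (T (V v)) = T (U (V v)) := congrArg (fun X : F →L[ℂ] F => X (V v)) hU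
    rw [h1] at h3
    rw [← h3, h2]
  rw [e1]
  refine Submodule.eq_starProjection_of_mem_of_inner_eq_zero ?_ ?_
  · exact hK _ (Submodule.starProjection_apply_mem _ _)
  · intro w hw
    rw [← map_sub, hT]
    exact Submodule.starProjection_inner_eq_zero _ _ (hK w hw)

end Alg

/-- coefficient of the section `η ↦ Π_{F0(η)} w` -/
noncomputable def spzc (U : Cfg r → F →L[ℂ] F) (o w : Cfg ds → F) (η : Cfg r) : ℂ := ∫ s, inner ℂ (U η (o s)) (w s)

lemma spz_int {o w : Cfg ds → F} (ho : MemLp o 2 (volume : Measure (Cfg ds))) (hw : MemLp w 2 (volume : Measure (Cfg ds)))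
    (X : F →L[ℂ] F) : Integrable (fun s => inner ℂ (X (o s)) (w s)) := by
  have h1 : Integrable (fun s => ‖o s‖ * ‖w s‖) := ho.norm.integrable_mul hw.norm
  refine Integrable.mono' (h1.const_mul ‖X‖) ((X.continuous.comp_aestronglyMeasurable ho.1).inner hw.1) ?_
  refine Filter.Eventually.of_forall fun s => ?_
  refine (norm_inner_le_norm _ _).trans ?_
  have := mul_le_mul_of_nonneg_right (X.le_opNorm (o s)) (norm_nonneg (w s))
  calc ‖X (o s)‖ * ‖w s‖ ≤ ‖X‖ * ‖o s‖ * ‖w s‖ := this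
    _ = _ := by ring

lemma spz_lip {o w : Cfg ds → F} (ho : MemLp o 2 (volume : Measure (Cfg ds))) (hw : MemLp w 2 (volume : Measure (Cfg ds)))
    (X Y : F →L[ℂ] F) : ‖(∫ s, inner ℂ (X (o s)) (w s)) - ∫ s, inner ℂ (Y (o s)) (w s)‖ ≤
      (∫ s, ‖o s‖ * ‖w s‖) * ‖X - Y‖ := by
  have h1 : Integrable (fun s => ‖o s‖ * ‖w s‖) := ho.norm.integrable_mul hw.norm
  rw [← integral_sub (spz_int ho hw X) (spz_int ho hw Y), ← integral_mul_const]
  refine norm_integral_le_of_norm_le (h1.mul_const _) (Filter.Eventually.of_forall fun s => ?_)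
  rw [← inner_sub_left, ← _root_.sub_apply]
  refine (norm_inner_le_norm _ _).trans ?_
  have := mul_le_mul_of_nonneg_right ((X - Y).le_opNorm (o s)) (norm_nonneg (w s))
  calc ‖(X - Y) (o s)‖ * ‖w s‖ ≤ ‖X - Y‖ * ‖o s‖ * ‖w s‖ := this
    _ = _ := by ring

lemma spzc_cont {U : Cfg r → F →L[ℂ] F} {B : Set (Cfg r)} (hU : ContinuousOn U B) {o w : Cfg ds → F}
    (ho : MemLp o 2 (volume : Measure (Cfg ds))) (hw : MemLp w 2 (volume : Measure (Cfg ds))) :
    ContinuousOn (spzc U o w) B := by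
  have h0 : 0 ≤ ∫ s, ‖o s‖ * ‖w s‖ := integral_nonneg fun s => by positivity
  have hl : LipschitzWith (∫ s, ‖o s‖ * ‖w s‖).toNNReal (fun X : F →L[ℂ] F => ∫ s, inner ℂ (X (o s)) (w s)) := by
    refine LipschitzWith.of_dist_le_mul fun X Y => ?_
    rw [dist_eq_norm, dist_eq_norm, Real.coe_toNNReal _ h0]
    exact spz_lip ho hw X Y
  exact hl.continuous.comp_continuousOn hU

lemma spzc_bd {U : Cfg r → F →L[ℂ] F} (hi : ∀ η v w, inner ℂ (U η v) (U η w) = inner ℂ v w) {o w : Cfg ds → F}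
    (ho : MemLp o 2 (volume : Measure (Cfg ds))) (hw : MemLp w 2 (volume : Measure (Cfg ds))) (η : Cfg r) :
    ‖spzc U o w η‖ ≤ ∫ s, ‖o s‖ * ‖w s‖ := by
  have h1 : Integrable (fun s => ‖o s‖ * ‖w s‖) := ho.norm.integrable_mul hw.norm
  refine norm_integral_le_of_norm_le h1 (Filter.Eventually.of_forall fun s => ?_)
  refine (norm_inner_le_norm _ _).trans ?_
  have h2 : ‖U η (o s)‖ = ‖o s‖ := by
    have h3 := hi η (o s) (o s)
    rw [inner_self_eq_norm_sq_to_K, inner_self_eq_norm_sq_to_K] at h3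
    have h4 : ‖U η (o s)‖ ^ 2 = ‖o s‖ ^ 2 := by exact_mod_cast h3
    exact (sq_eq_sq₀ (norm_nonneg _) (norm_nonneg _)).mp h4
  rw [h2]

section Sec

variable [FiniteDimensional ℂ F] {S : Setup d F} {φ : Spl dh dm d} {ψ : Spl r ds dh} {L : Finset (Fin r → ℝ)}
  {Om : Cfg r → Matrix (Fin dm) (Fin dm) ℝ} {K : Submodule ℂ F} {U : Cfg r → F →L[ℂ] F} {o : Fin n → Cfg ds → F}
  {T : Setup r (Ek n)}

/-- the section is a combination of the frame -/
lemma spz_sec (hD : Dat S φ ψ L Om K U o T) (hZ : ZMLStmt (S.int φ ψ hD.sub hD.cen)) {w : Cfg ds → F}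
    (hw : AD.ZM (S.int φ ψ hD.sub hD.cen) w) {η : Cfg r} (hη : η ∉ Coll L) :
    ∀ᵐ s ∂(volume : Measure (Cfg ds)), (S.F0 φ (S.Dz φ ψ η) (Om η)).starProjection (w s) =
      ∑ j, spzc U (o j) w η • U η (o j s) := by
  obtain ⟨V, h1, h2, h3, h4⟩ := spz_proj (U η) K (S.F0 φ (S.Dz φ ψ η) (Om η)) (hD.bun.U_inner η) (hD.bun.U_surj η)
    (fun v => by
      have := hD.bun.U_mem η hη v
      rwa [AX.DM_Dz] at this)
  have hwL : MemLp w 2 (volume : Measure (Cfg ds)) := hZ.2.2.2.1 w hw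
  have hA : AD.ZM (S.int φ ψ hD.sub hD.cen) fun x => (K.starProjection ∘L V) (w x) := by
    refine hZ.2.2.2.2 _ (Or.inl fun α B => ?_) w hw
    exact spz_comm (U η) V _ K h1 h2 (hD.bun.U_comm η α _) (S.th_sa α _) (hD.bun.K_th α _)
  obtain ⟨c, hc⟩ := hD.full _ hA (Filter.Eventually.of_forall fun s => Submodule.starProjection_apply_mem _ _)
  have hck : ∀ k, c k = spzc U (o k) w η := by
    intro k
    have e1 : ∫ s, inner ℂ (o k s) ((K.starProjection ∘L V) (w s)) = c k := by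
      have e2 : ∫ s, inner ℂ (o k s) ((K.starProjection ∘L V) (w s)) = ∫ s, ∑ j, c j * inner ℂ (o k s) (o j s) := by
        refine integral_congr_ae ?_
        filter_upwards [hc] with s hs
        rw [hs, inner_sum]
        simp only [inner_smul_right]
      rw [e2, integral_finsetSum]
      · simp only [integral_const_mul, hD.ort]
        simp
      · intro j _
        refine Integrable.const_mul ?_ _
        have := spz_int (hD.mem k) (hD.mem j) (1 : F →L[ℂ] F)
        exact this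
    rw [← e1]
    unfold spzc
    refine integral_congr_ae ?_
    filter_upwards [hD.val k] with s hs
    change inner ℂ (o k s) (K.starProjection (V (w s))) = _
    rw [← Submodule.inner_starProjection_left_eq_right, Submodule.starProjection_eq_self_iff.2 hs, h3]
  filter_upwards [hc] with s hs
  rw [h4]
  change U η ((K.starProjection ∘L V) (w s)) = _
  rw [hs, map_sum]
  refine Finset.sum_congr rfl fun j _ => ?_
  rw [map_smul, hck]

end Sec

/-- coefficient vector of the section `χ(η)Π_{F0(η)}w` -/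
noncomputable def spzb (U : Cfg r → F →L[ℂ] F) (o : Fin n → Cfg ds → F) (w : Cfg ds → F) (χ : Cfg r → ℝ) (η : Cfg r) : Ek n :=
  WithLp.toLp 2 fun j => ((χ η : ℝ) : ℂ) * spzc U (o j) w η

lemma spzb_LC {U : Cfg r → F →L[ℂ] F} {L : Finset (Fin r → ℝ)} (hLc : IsClosed (Coll L))
    (hL0 : ∀ᵐ y ∂(volume : Measure (Cfg r)), y ∉ Coll L) (hU : ContinuousOn U (Coll L)ᶜ)
    (hi : ∀ η v w, inner ℂ (U η v) (U η w) = inner ℂ v w) {o : Fin n → Cfg ds → F} {w : Cfg ds → F}
    (ho : ∀ j, MemLp (o j) 2 (volume : Measure (Cfg ds))) (hw : MemLp w 2 (volume : Measure (Cfg ds)))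
    {χ : Cfg r → ℝ} (hχ : Continuous χ) {z₀ : Cfg r} {ε : ℝ} (hχs : ∀ x, χ x ≠ 0 → x ∈ Metric.closedBall z₀ ε)
    (h0 : (0 : Cfg r) ∉ Metric.closedBall z₀ ε) {g : Cfg r → ℝ} (hg : Continuous g) (hg1 : ∀ x, 0 ≤ g x ∧ g x ≤ 1)
    (hgs : Disjoint (tsupport g) (Coll L)) :
    MemLp (fun η => ((g η : ℝ) : ℂ) • spzb U o w χ η) 2 (volume : Measure (Cfg r)) ∧
    (Metric.closedBall z₀ ε ∩ tsupport g ⊆ (Coll L ∪ {0})ᶜ) ∧
    ∀ x, x ∉ Metric.closedBall z₀ ε ∩ tsupport g → ((g x : ℝ) : ℂ) • spzb U o w χ x = 0 := by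
  refine ⟨?_, ?_, ?_⟩
  · have hcont : ContinuousOn (fun η => ((g η : ℝ) : ℂ) • spzb U o w χ η) (Coll L)ᶜ := by
      refine ContinuousOn.smul (Complex.continuous_ofReal.comp hg).continuousOn ?_
      unfold spzb
      refine (PiLp.continuous_toLp 2 _).comp_continuousOn (continuousOn_pi.2 fun j => ?_)
      exact (Complex.continuous_ofReal.comp hχ).continuousOn.mul (spzc_cont hU (ho j) hw)
    have hmeas : AEStronglyMeasurable (fun η => ((g η : ℝ) : ℂ) • spzb U o w χ η) (volume : Measure (Cfg r)) := by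
      have h1 := hcont.aestronglyMeasurable (μ := (volume : Measure (Cfg r))) hLc.isOpen_compl.measurableSet
      have h2 : (volume : Measure (Cfg r)).restrict (Coll L)ᶜ = volume := Measure.restrict_eq_self_of_ae_mem hL0
      rwa [h2] at h1
    obtain ⟨M, hM⟩ := (isCompact_closedBall z₀ ε).exists_bound_of_continuousOn hχ.continuousOn
    set I : Fin n → ℝ := fun j => ∫ s, ‖o j s‖ * ‖w s‖ with hI
    have hbd : ∀ η, ‖((g η : ℝ) : ℂ) • spzb U o w χ η‖ ≤
        ‖(Metric.closedBall z₀ ε).indicator (fun _ => |M| * ∑ j, I j) η‖ := by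
      intro η
      have hI0 : ∀ j, 0 ≤ I j := fun j => integral_nonneg fun s => by positivity
      by_cases hη : η ∈ Metric.closedBall z₀ ε
      · rw [Set.indicator_of_mem hη, norm_smul, Complex.norm_real, Real.norm_eq_abs, abs_of_nonneg (hg1 η).1]
        have e1 : ‖spzb U o w χ η‖ ≤ |M| * ∑ j, I j := by
          have e2 : ‖spzb U o w χ η‖ ≤ ∑ j, ‖((χ η : ℝ) : ℂ) * spzc U (o j) w η‖ := by
            have e3 : spzb U o w χ η = ∑ j, EuclideanSpace.single j (((χ η : ℝ) : ℂ) * spzc U (o j) w η) := by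
              ext k
              simp [spzb]
            rw [e3]
            refine (norm_sum_le _ _).trans (le_of_eq ?_)
            refine Finset.sum_congr rfl fun j _ => ?_
            simp
          refine e2.trans ?_
          rw [Finset.mul_sum]
          refine Finset.sum_le_sum fun j _ => ?_
          rw [norm_mul, Complex.norm_real]
          exact mul_le_mul ((hM η hη).trans (le_abs_self M)) (spzc_bd hi (ho j) hw η) (norm_nonneg _) (abs_nonneg _)
        calc g η * ‖spzb U o w χ η‖ ≤ 1 * (|M| * ∑ j, I j) :=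
              mul_le_mul (hg1 η).2 e1 (norm_nonneg _) zero_le_one
          _ ≤ _ := by
            rw [one_mul]
            exact Real.le_norm_self _
      · have hz : χ η = 0 := by
          by_contra h
          exact hη (hχs η h)
        have : spzb U o w χ η = 0 := by
          ext j
          simp [spzb, hz]
        rw [this, smul_zero, norm_zero]
        exact norm_nonneg _
    refine MemLp.of_le (memLp_indicator_const 2 measurableSet_closedBall (|M| * ∑ j, I j)
      (Or.inr measure_closedBall_lt_top.ne)) hmeas (Filter.Eventually.of_forall hbd)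
  · rintro x ⟨hx1, hx2⟩ (hx3 | hx3)
    · exact Set.disjoint_left.1 hgs hx2 hx3
    · rw [Set.mem_singleton_iff] at hx3
      rw [hx3] at hx1
      exact h0 hx1
  · intro x hx
    by_cases h1 : x ∈ tsupport g
    · have hz : χ x = 0 := by
        by_contra h
        exact hx ⟨hχs x h, h1⟩
      have : spzb U o w χ x = 0 := by
        ext j
        simp [spzb, hz]
      rw [this, smul_zero]
    · rw [image_eq_zero_of_notMem_tsupport h1]
      simp

/-- squared norm of the remainder tends to zero -/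
lemma spz_n2 {a : Cfg r → Cfg ds → F} (ha : MemLp (fun q : Cfg r × Cfg ds => a q.1 q.2) 2 (volume.prod volume))
    {g : ℕ → Cfg r → ℝ} (hg : ∀ m, Continuous (g m)) (hg1 : ∀ m x, 0 ≤ g m x ∧ g m x ≤ 1)
    (hlim : ∀ᵐ x ∂(volume : Measure (Cfg r)), ∀ᶠ m in atTop, g m x = 1)
    {a' : ℕ → Cfg r → Cfg ds → F}
    (ha' : ∀ m, MemLp (fun q : Cfg r × Cfg ds => a' m q.1 q.2) 2 (volume.prod volume))
    (heq : ∀ᵐ x ∂(volume : Measure (Cfg r)), ∀ m, ∀ᵐ s ∂(volume : Measure (Cfg ds)), a' m x s = ((1 - g m x : ℝ) : ℂ) • a x s) :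
    Tendsto (fun m => n2 (a' m)) atTop (𝓝 0) := by
  have hi : Integrable (fun q : Cfg r × Cfg ds => ‖a q.1 q.2‖ ^ 2) (volume.prod volume) :=
    (memLp_two_iff_integrable_sq_norm ha.1).1 ha
  have hG : Integrable (fun x => ∫ s, ‖a x s‖ ^ 2) (volume : Measure (Cfg r)) := hi.integral_prod_left
  have e1 : ∀ m, n2 (a' m) = ∫ x, (1 - g m x) ^ 2 * ∫ s, ‖a x s‖ ^ 2 := by
    intro m
    have hi' : Integrable (fun q : Cfg r × Cfg ds => ‖a' m q.1 q.2‖ ^ 2) (volume.prod volume) :=
      (memLp_two_iff_integrable_sq_norm (ha' m).1).1 (ha' m)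
    unfold n2
    rw [integral_prod _ hi']
    refine integral_congr_ae ?_
    filter_upwards [heq] with x hx
    rw [← integral_const_mul]
    refine integral_congr_ae ?_
    filter_upwards [hx m] with s hs
    rw [hs, norm_smul, Complex.norm_real, mul_pow, Real.norm_eq_abs, sq_abs]
  simp only [e1]
  have e0 : (0 : ℝ) = ∫ _x : Cfg r, (0 : ℝ) := by simp
  rw [e0]
  refine tendsto_integral_of_dominated_convergence (fun x => ∫ s, ‖a x s‖ ^ 2) ?_ hG ?_ ?_
  · intro m
    exact ((continuous_const.sub (hg m)).pow 2).aestronglyMeasurable.mul hG.1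
  · intro m
    refine Filter.Eventually.of_forall fun x => ?_
    have h1 : 0 ≤ ∫ s, ‖a x s‖ ^ 2 := integral_nonneg fun s => by positivity
    rw [norm_mul, Real.norm_eq_abs, Real.norm_eq_abs, abs_of_nonneg (sq_nonneg _), abs_of_nonneg h1]
    have h2 : (1 - g m x) ^ 2 ≤ 1 := by
      have := hg1 m x
      nlinarith
    calc (1 - g m x) ^ 2 * ∫ s, ‖a x s‖ ^ 2 ≤ 1 * ∫ s, ‖a x s‖ ^ 2 := mul_le_mul_of_nonneg_right h2 h1
      _ = _ := one_mul _
  · filter_upwards [hlim] with x hx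
    refine tendsto_const_nhds.congr' ?_
    filter_upwards [hx] with m hm
    rw [hm]
    ring

theorem spz_of (S : Setup d F) : SpzOfStmt S := by
  intro hGlu hSf hUB hIso hLin hZML hCut hfin hC dh dm r ds n φ ψ z₀ h hz0 L Om K U o T hD
  obtain ⟨ε₁, hε1, hreg, hGl⟩ := hGlu hfin dh dm r ds φ ψ z₀ h hz0 L Om K U hD.bun
  obtain ⟨C, hC0, hub⟩ := hUB hfin hC dh dm r ds φ ψ z₀ h L Om K U hD.bun
  have hzn : 0 < ‖z₀‖ := norm_pos_iff.2 hz0
  refine ⟨min ε₁ (‖z₀‖ / 2), lt_min hε1 (by positivity), ?_⟩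
  intro ε hε hε' R u hu hb χ hχ hχs w hw
  have hεa : ε ≤ ε₁ := hε'.trans (min_le_left _ _)
  have hεb : ε ≤ ‖z₀‖ / 2 := hε'.trans (min_le_right _ _)
  have hsub : Metric.closedBall z₀ ε ⊆ Metric.closedBall z₀ ε₁ := Metric.closedBall_subset_closedBall hεa
  have hdet : ∀ η ∈ Metric.closedBall z₀ ε, (S.Dz φ ψ η 8).det ≠ 0 := fun η hη => (hreg η (hsub hη)).1
  have hRg : Metric.closedBall z₀ ε ⊆ Rg S φ ψ := fun η hη => (hreg η (hsub hη)).2
  have hZ := hZML ds (S.int φ ψ hD.sub hD.cen)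
  have hw' : AD.ZM (S.int φ ψ hD.sub hD.cen) w := hw
  have hwL : MemLp w 2 (volume : Measure (Cfg ds)) := hZ.2.2.2.1 w hw'
  obtain ⟨hS2, hsf⟩ := hSf hfin dh dm r ds φ ψ z₀ h L Om K U hD.bun ε hε hdet χ hχ hχs w hwL
  set a : Cfg r → Cfg ds → F := fun η s =>
    ((χ η : ℝ) : ℂ) • (S.F0 φ (S.Dz φ ψ η) (Om η)).starProjection (w s) with ha
  have hglu := hGl ε hε hεa R u hu a hS2
  suffices hZZ : Tendsto (fun n => ZZ S.κ φ ψ Om a (R n) (u n)) atTop (𝓝 0) by
    have h1 := hZZ.sub hglu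
    simp only [sub_sub_cancel, sub_zero] at h1
    refine h1.congr fun n => ?_
    exact (hsf (R n) (hu.pos n) (u n) (hu.inv n).1).symm
  -- cutoffs
  obtain ⟨g, g1, g2, g3, g4, g5, -⟩ := hCut r L hD.bun.L_ne
  have hχball : ∀ x, χ x ≠ 0 → x ∈ Metric.closedBall z₀ ε := fun x hx =>
    Metric.ball_subset_closedBall (hχs (subset_tsupport _ hx))
  have h0 : (0 : Cfg r) ∉ Metric.closedBall z₀ ε := by
    intro h1
    rw [Metric.mem_closedBall, dist_comm, dist_zero_right] at h1
    linarith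
  have hUc : ContinuousOn U (Coll L)ᶜ := hD.bun.U_smooth.continuousOn
  have hLC := fun m => spzb_LC (g := g m) hD.bun.closed g5 hUc hD.bun.U_inner hD.mem hwL hχ.continuous hχball h0
    (g1 m).continuous (g2 m) (g3 m)
  set bm : ℕ → Cfg r → Ek n := fun m η => ((g m η : ℝ) : ℂ) • spzb U o w χ η with hbm
  have hcomp : ∀ m, IsCompact (Metric.closedBall z₀ ε ∩ tsupport (g m)) := fun m =>
    (isCompact_closedBall z₀ ε).inter_right (isClosed_tsupport _)
  have hlc : ∀ m, LC ((Coll L ∪ {0})ᶜ) (bm m) := fun m =>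
    ⟨(hLC m).1, Metric.closedBall z₀ ε ∩ tsupport (g m), hcomp m, (hLC m).2.1, (hLC m).2.2⟩
  have hsec : ∀ m, Sec2 (Metric.closedBall z₀ ε) (sc U o (bm m)) := by
    intro m
    obtain ⟨⟨h1, h2⟩, -⟩ := hIso dh dm r ds n φ ψ L Om K U o T hD _ (hcomp m)
      ((hLC m).2.1.trans (Set.compl_subset_compl.2 Set.subset_union_left)) (bm m) (hLC m).1 (hLC m).2.2
    exact ⟨h1, fun η s hs => (h2 η s hs).1⟩
  set am : ℕ → Cfg r → Cfg ds → F := fun m η s => a η s - sc U o (bm m) η s with ham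
  have ham2 : ∀ m, Sec2 (Metric.closedBall z₀ ε) (am m) := by
    intro m
    refine ⟨hS2.1.sub (hsec m).1, fun η s hs => ?_⟩
    by_contra hη
    apply hs
    have e1 : a η s = 0 := by
      by_contra h1
      exact hη (hS2.2 η s h1)
    have e2 : sc U o (bm m) η s = 0 := by
      by_contra h1
      exact hη ((hsec m).2 η s h1)
    show a η s - sc U o (bm m) η s = 0
    rw [e1, e2, sub_zero]
  have hn2 : Tendsto (fun m => n2 (am m)) atTop (𝓝 0) := by
    refine spz_n2 hS2.1 (fun m => (g1 m).continuous) (fun m => g2 m) ?_ (fun m => (ham2 m).1) ?_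
    · filter_upwards [g5] with x hx
      exact g4 x hx
    · filter_upwards [g5] with x hx m
      filter_upwards [spz_sec hD hZ hw' hx] with s hs
      have e1 : sc U o (bm m) x s = ((g m x : ℝ) : ℂ) • a x s := by
        show ∑ j, (((g m x : ℝ) : ℂ) • spzb U o w χ x) j • U x (o j s) = _
        rw [ha]
        simp only [hs, Finset.smul_sum]
        refine Finset.sum_congr rfl fun j _ => ?_
        show (((g m x : ℝ) : ℂ) * (((χ x : ℝ) : ℂ) * spzc U (o j) w x)) • U x (o j s) = _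
        rw [smul_smul, smul_smul]
        congr 1
        ring
      show a x s - sc U o (bm m) x s = _
      rw [e1, Complex.ofReal_sub, Complex.ofReal_one, sub_smul, one_smul]
  -- bound of the masses
  obtain ⟨M, hM⟩ := hu.bd (‖z₀‖ / 4) (2 * ‖z₀‖) (by positivity) (by linarith)
  have hshl : Metric.closedBall z₀ ε ⊆ AD.shl r (‖z₀‖ / 4) (2 * ‖z₀‖) := by
    intro η hη
    rw [Metric.mem_closedBall, dist_eq_norm] at hη
    have h1 := norm_sub_norm_le z₀ η
    have h2 := norm_sub_norm_le η z₀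
    rw [norm_sub_rev] at h1
    constructor <;> linarith
  rw [Metric.tendsto_atTop]
  intro e he
  have hlim2 : Tendsto (fun m => C * Real.sqrt (n2 (am m)) * Real.sqrt M) atTop (𝓝 0) := by
    have h1 : Tendsto (fun m => Real.sqrt (n2 (am m))) atTop (𝓝 0) := by
      have := (Real.continuous_sqrt.tendsto 0).comp hn2
      rw [Real.sqrt_zero] at this
      exact this
    have h2 := (h1.const_mul C).mul_const (Real.sqrt M)
    simpa using h2
  obtain ⟨m, hm⟩ := (hlim2.eventually_lt_const (show (0 : ℝ) < e / 4 by positivity)).exists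
  have hub1 := hub (‖z₀‖ / 4) (2 * ‖z₀‖) (by positivity) (by linarith) _ (isCompact_closedBall z₀ ε) hshl hRg R u hu
    (am m) (ham2 m) (e / 4) (by positivity)
  have hb1 := hb (bm m) (hlc m)
  rw [Metric.tendsto_atTop] at hb1
  obtain ⟨N1, hN1⟩ := hb1 (e / 2) (by positivity)
  obtain ⟨N2, hN2⟩ := Filter.eventually_atTop.1 hub1
  refine ⟨max N1 N2, fun k hk => ?_⟩
  have hk1 := hN1 k ((le_max_left _ _).trans hk)
  have hk2 := hN2 k ((le_max_right _ _).trans hk)
  rw [dist_zero_right] at hk1 ⊢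
  have hmas : Real.sqrt (AD.mas (u k) (AD.shl d (‖z₀‖ / 4 * R k) (2 * ‖z₀‖ * R k))) ≤ Real.sqrt M :=
    Real.sqrt_le_sqrt (hM k)
  obtain ⟨-, hadd, -⟩ := hLin hfin dh dm r ds φ ψ L Om K U hD.bun _ (isCompact_closedBall z₀ ε) hRg (R k) (hu.pos k)
    (u k) (hu.inv k).1
  have hsum := hadd (am m) (sc U o (bm m)) (ham2 m) (hsec m)
  have hfun : (fun η s => am m η s + sc U o (bm m) η s) = a := by
    funext η s
    show a η s - sc U o (bm m) η s + sc U o (bm m) η s = a η s
    abel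
  rw [hfun] at hsum
  rw [hsum]
  have h5 : C * Real.sqrt (n2 (am m)) *
      Real.sqrt (AD.mas (u k) (AD.shl d (‖z₀‖ / 4 * R k) (2 * ‖z₀‖ * R k))) ≤
      C * Real.sqrt (n2 (am m)) * Real.sqrt M := mul_le_mul_of_nonneg_left hmas (by positivity)
  calc ‖ZZ S.κ φ ψ Om (am m) (R k) (u k) + ZZ S.κ φ ψ Om (sc U o (bm m)) (R k) (u k)‖
      ≤ ‖ZZ S.κ φ ψ Om (am m) (R k) (u k)‖ + ‖ZZ S.κ φ ψ Om (sc U o (bm m)) (R k) (u k)‖ := norm_add_le _ _
    _ < e := by linarith

end Vale.Agent.P353.Z.AL
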