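import Vale.Agent.P353.AN.L.Stmt
import Vale.Agent.P353.AN.GL.Mea

/-! # P353, all `N`, block L: tails of the scaled slice functions -/

open MeasureTheory Filter Topology
open scoped ContDiff

namespace Vale.Agent.P353.Z.AL

variable {d dh dm r ds : ℕ} {F : Type*} [NormedAddCommGroup F] [InnerProductSpace ℂ F]

/-- the scaling map -/
noncomputable def tl775 (ψ : Spl r ds dh) (R : ℝ) (p : Cfg dh × Wsp dm) : Cfg r × Cfg ds × Wsp dm :=
  (R⁻¹ • AN.hz ψ p.1, AN.hs ψ p.1, Real.sqrt R • p.2)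

theorem tl775_cont (ψ : Spl r ds dh) (R : ℝ) : Continuous (tl775 (dm := dm) ψ R) := by
  have a1 := AN.mea824_chz ψ
  have a2 := AN.mea824_chs ψ
  unfold tl775
  fun_prop

theorem tl775_map (ψ : Spl r ds dh) (R : ℝ) (hR : 0 < R) :
    ENNReal.ofReal ((R ^ (2 * (dm : ℝ) - 9 * (r : ℝ) / 2)) ^ 2) •
      Measure.map (tl775 ψ R) ((volume : Measure (Cfg dh)).prod (volume : Measure (Wsp dm))) =
    (volume : Measure (Cfg r)).prod ((volume : Measure (Cfg ds)).prod (volume : Measure (Wsp dm))) := by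
  have hc0 : 0 < R ^ (2 * (dm : ℝ) - 9 * (r : ℝ) / 2) := Real.rpow_pos_of_pos hR _
  refine Measure.ext fun N hN => ?_
  have hv : StronglyMeasurable (fun q : Cfg r × Cfg ds × Wsp dm =>
      (fun (a : Cfg r) (b : Cfg ds) (c : Wsp dm) => N.indicator (fun _ => (1 : ℂ)) (a, b, c)) q.1 q.2.1 q.2.2) :=
    (stronglyMeasurable_const.indicator hN)
  obtain ⟨-, h1⟩ := AN.mea824_sc ψ R (fun (a : Cfg r) (b : Cfg ds) (c : Wsp dm) =>
    N.indicator (fun _ => (1 : ℂ)) (a, b, c)) hR hv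
  have e1 : ∀ q : Cfg r × Cfg ds × Wsp dm, ‖N.indicator (fun _ => (1 : ℂ)) (q.1, q.2.1, q.2.2)‖ₑ ^ 2 =
      N.indicator (fun _ => (1 : ENNReal)) q := by
    intro q
    by_cases hq : q ∈ N
    · rw [Set.indicator_of_mem (show (q.1, q.2.1, q.2.2) ∈ N from hq), Set.indicator_of_mem hq]
      simp
    · rw [Set.indicator_of_notMem (show (q.1, q.2.1, q.2.2) ∉ N from hq), Set.indicator_of_notMem hq]
      simp
  have e2 : ∀ p : Cfg dh × Wsp dm, ‖AN.Ts0 ψ (fun (a : Cfg r) (b : Cfg ds) (c : Wsp dm) =>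
      N.indicator (fun _ => (1 : ℂ)) (a, b, c)) R p.1 p.2‖ₑ ^ 2 =
      ENNReal.ofReal ((R ^ (2 * (dm : ℝ) - 9 * (r : ℝ) / 2)) ^ 2) *
        (tl775 ψ R ⁻¹' N).indicator (fun _ => (1 : ENNReal)) p := by
    intro p
    unfold AN.Ts0
    rw [enorm_smul, mul_pow]
    have k1 := e1 (tl775 ψ R p)
    have k2 : (tl775 ψ R ⁻¹' N).indicator (fun _ => (1 : ENNReal)) p = N.indicator (fun _ => (1 : ENNReal)) (tl775 ψ R p) := rfl
    rw [k2, ← k1]
    congr 1
    rw [ENNReal.ofReal_pow hc0.le]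
    congr 1
    rw [← ofReal_norm, Complex.norm_real, Real.norm_of_nonneg hc0.le]
  simp only [e2] at h1
  have h2 : ∫⁻ q : Cfg r × Cfg ds × Wsp dm, ‖N.indicator (fun _ => (1 : ℂ)) (q.1, q.2.1, q.2.2)‖ₑ ^ 2
      ∂(volume.prod (volume.prod volume)) = (volume.prod (volume.prod volume)) N := by
    simp only [e1]
    rw [lintegral_indicator_const hN, one_mul]
  have hpre : MeasurableSet (tl775 (dm := dm) ψ R ⁻¹' N) := (tl775_cont ψ R).measurable hN
  rw [h2, lintegral_const_mul _ (measurable_const.indicator hpre), lintegral_indicator_const hpre, one_mul] at h1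
  rw [Measure.smul_apply, smul_eq_mul, Measure.map_apply (tl775_cont ψ R).measurable hN, h1]

theorem tail (S : Setup d F) : TailStmt S := by
  intro hF _ dh dm r ds φ ψ _ v hv
  -- abbreviations
  have hmap := fun (R : ℝ) (hR : 0 < R) => tl775_map (dm := dm) ψ R hR
  have key : ∀ R : ℝ, 0 < R →
      MemLp (fun q : Cfg r × Cfg ds × Wsp dm => v q.1 q.2.1 q.2.2) 2
        (Measure.map (tl775 ψ R) ((volume : Measure (Cfg dh)).prod (volume : Measure (Wsp dm)))) := by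
    intro R hR
    have hc0 : 0 < R ^ (2 * (dm : ℝ) - 9 * (r : ℝ) / 2) := Real.rpow_pos_of_pos hR _
    have hne : ENNReal.ofReal ((R ^ (2 * (dm : ℝ) - 9 * (r : ℝ) / 2)) ^ 2) ≠ 0 := by
      rw [Ne, ENNReal.ofReal_eq_zero, not_le]; positivity
    refine MemLp.of_measure_le_smul (c := (ENNReal.ofReal ((R ^ (2 * (dm : ℝ) - 9 * (r : ℝ) / 2)) ^ 2))⁻¹)
      (ENNReal.inv_ne_top.2 hne) ?_ hv
    rw [← hmap R hR, smul_smul, ENNReal.inv_mul_cancel hne ENNReal.ofReal_ne_top, one_smul]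
  have hts : ∀ R : ℝ, ∀ p : Cfg dh × Wsp dm, AN.Ts0 ψ v R p.1 p.2 =
      ((R ^ (2 * (dm : ℝ) - 9 * (r : ℝ) / 2) : ℝ) : ℂ) •
        ((fun q : Cfg r × Cfg ds × Wsp dm => v q.1 q.2.1 q.2.2) ∘ (tl775 ψ R)) p := fun R p => rfl
  have hn : ∀ R : ℝ, 0 < R → ∀ p : Cfg dh × Wsp dm, ‖AN.Ts0 ψ v R p.1 p.2‖ ^ 2 =
      (R ^ (2 * (dm : ℝ) - 9 * (r : ℝ) / 2)) ^ 2 *
        (fun q : Cfg r × Cfg ds × Wsp dm => ‖v q.1 q.2.1 q.2.2‖ ^ 2) (tl775 ψ R p) := by
    intro R hR p
    have hc0 : 0 < R ^ (2 * (dm : ℝ) - 9 * (r : ℝ) / 2) := Real.rpow_pos_of_pos hR _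
    rw [hts, norm_smul, mul_pow, Complex.norm_real, Real.norm_of_nonneg hc0.le]
    rfl
  -- set version
  have hset : ∀ R : ℝ, 0 < R → ∀ N : Set (Cfg r × Cfg ds × Wsp dm), MeasurableSet N →
      ∫ p in tl775 ψ R ⁻¹' N, ‖AN.Ts0 ψ v R p.1 p.2‖ ^ 2 ∂((volume : Measure (Cfg dh)).prod (volume : Measure (Wsp dm))) =
        ∫ q in N, ‖v q.1 q.2.1 q.2.2‖ ^ 2 ∂(volume.prod (volume.prod volume)) := by
    intro R hR N hN
    have hc0 : 0 < R ^ (2 * (dm : ℝ) - 9 * (r : ℝ) / 2) := Real.rpow_pos_of_pos hR _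
    simp only [hn R hR]
    rw [integral_const_mul]
    have hm : AEStronglyMeasurable (fun q : Cfg r × Cfg ds × Wsp dm => ‖v q.1 q.2.1 q.2.2‖ ^ 2)
        (Measure.map (tl775 ψ R) ((volume : Measure (Cfg dh)).prod (volume : Measure (Wsp dm)))) :=
      ((key R hR).1.norm.pow 2)
    rw [← setIntegral_map hN hm (tl775_cont ψ R).aemeasurable, ← hmap R hR, Measure.restrict_smul,
      integral_smul_measure, ENNReal.toReal_ofReal (by positivity), smul_eq_mul]
  refine ⟨fun R hR => ⟨?_, ?_⟩, ?_⟩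
  · have h1 := ((key R hR).comp_of_map (tl775_cont ψ R).aemeasurable).const_smul
      (((R ^ (2 * (dm : ℝ) - 9 * (r : ℝ) / 2) : ℝ) : ℂ))
    exact h1
  · have h1 := hset R hR Set.univ MeasurableSet.univ
    simpa only [Set.preimage_univ, Measure.restrict_univ] using h1
  · intro ε hε
    have hI : Integrable (fun q : Cfg r × Cfg ds × Wsp dm => ‖v q.1 q.2.1 q.2.2‖ ^ 2)
        (volume.prod (volume.prod volume)) := hv.integrable_norm_pow (by norm_num)
    let N : ℝ → Set (Cfg r × Cfg ds × Wsp dm) := fun R => {q | ε * R ≤ ‖q.2.1‖ ∨ ε * R * Real.sqrt R ≤ ‖q.2.2‖}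
    have hN : ∀ R, MeasurableSet (N R) := by
      intro R
      have m1 : MeasurableSet {q : Cfg r × Cfg ds × Wsp dm | ε * R ≤ ‖q.2.1‖} :=
        measurableSet_le measurable_const (by fun_prop)
      have m2 : MeasurableSet {q : Cfg r × Cfg ds × Wsp dm | ε * R * Real.sqrt R ≤ ‖q.2.2‖} :=
        measurableSet_le measurable_const (by fun_prop)
      exact m1.union m2
    have hpre : ∀ R : ℝ, 0 < R → {p : Cfg dh × Wsp dm | ε * R ≤ ‖AN.hs ψ p.1‖ ∨ ε * R ≤ ‖p.2‖} = tl775 ψ R ⁻¹' (N R) := by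
      intro R hR
      have hs : 0 < Real.sqrt R := Real.sqrt_pos.2 hR
      ext p
      simp only [N, tl775, Set.mem_ofPred_eq, Set.mem_preimage]
      rw [norm_smul, Real.norm_of_nonneg hs.le, mul_comm (Real.sqrt R) ‖p.2‖, mul_le_mul_iff_left₀ hs]
    have hlim : Tendsto (fun R : ℝ => ∫ q, (N R).indicator (fun q => ‖v q.1 q.2.1 q.2.2‖ ^ 2) q
        ∂(volume.prod (volume.prod volume))) atTop (𝓝 (∫ q : Cfg r × Cfg ds × Wsp dm, (0 : ℝ) ∂(volume.prod (volume.prod volume)))) := by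
      refine tendsto_integral_filter_of_dominated_convergence
        (fun q : Cfg r × Cfg ds × Wsp dm => ‖v q.1 q.2.1 q.2.2‖ ^ 2) ?_ ?_ hI ?_
      · exact Eventually.of_forall fun R => hI.1.indicator (hN R)
      · refine Eventually.of_forall fun R => Eventually.of_forall fun q => ?_
        rw [Real.norm_of_nonneg (Set.indicator_nonneg (fun _ _ => by positivity) _)]
        exact Set.indicator_le_self' (fun _ _ => by positivity) _
      · refine Eventually.of_forall fun q => ?_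
        refine tendsto_const_nhds.congr' ?_
        have t1 : Tendsto (fun R : ℝ => ε * R) atTop atTop := tendsto_id.const_mul_atTop hε
        have t2 : Tendsto (fun R : ℝ => ε * R * Real.sqrt R) atTop atTop :=
          t1.atTop_mul_atTop₀ Real.tendsto_sqrt_atTop
        filter_upwards [t1.eventually_gt_atTop ‖q.2.1‖, t2.eventually_gt_atTop ‖q.2.2‖] with R h1 h2
        rw [Set.indicator_of_notMem]
        simp only [N, Set.mem_ofPred_eq, not_or, not_le]
        exact ⟨h1, h2⟩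
    rw [integral_zero] at hlim
    refine hlim.congr' ?_
    filter_upwards [eventually_gt_atTop (0 : ℝ)] with R hR
    rw [integral_indicator (hN R), ← hset R hR (N R) (hN R), hpre R hR]

end Vale.Agent.P353.Z.AL
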