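import Vale.Agent.P353.AN.L.StmtU

/-! # P353, all `N`, block L: tubes over compact sets are injective -/

open MeasureTheory Filter Topology Matrix
open scoped ContDiff

namespace Vale.Agent.P353.Z.AL

variable {d dh dm r ds n : ℕ} {F : Type*} [NormedAddCommGroup F] [InnerProductSpace ℂ F]

theorem tk775_anti (S : Setup d F) (φ : Spl dh dm d) (i : Fin 9) (y : Cfg dh) :
    (S.Dy φ i y)ᵀ = -S.Dy φ i y := by
  ext B C
  simp only [Setup.Dy, Setup.Dm, Matrix.transpose_apply, Matrix.of_apply, Matrix.neg_apply]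
  rw [← Finset.sum_neg_distrib]
  refine Finset.sum_congr rfl fun A _ => ?_
  rw [S.f_cyc (φ (Sum.inr C)) (φ (Sum.inl A)) (φ (Sum.inr B)), S.f_swap (φ (Sum.inl A)) (φ (Sum.inr B)) (φ (Sum.inr C))]
  ring

theorem tk775_sq (D : Matrix (Fin dm) (Fin dm) ℝ) (hD : Dᵀ = -D) (v : Fin dm → ℝ) :
    (D *ᵥ v) ⬝ᵥ (D *ᵥ v) = -(((D * D) *ᵥ v) ⬝ᵥ v) := by
  rw [Matrix.dotProduct_mulVec, ← Matrix.mulVec_transpose, hD, Matrix.neg_mulVec, Matrix.mulVec_mulVec, neg_dotProduct]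

theorem tk775_rg (S : Setup d F) (φ : Spl dh dm d) (ψ : Spl r ds dh) : R8 S φ ψ ⊆ Rg S φ ψ := by
  intro η hη h0
  obtain ⟨v, hv, hv0⟩ := Matrix.exists_mulVec_eq_zero_iff.2 h0
  have h1 : ∑ i, (S.Dz φ ψ η i *ᵥ v) ⬝ᵥ (S.Dz φ ψ η i *ᵥ v) = 0 := by
    have h2 : ∀ i, (S.Dz φ ψ η i *ᵥ v) ⬝ᵥ (S.Dz φ ψ η i *ᵥ v) = -(((S.Dz φ ψ η i * S.Dz φ ψ η i) *ᵥ v) ⬝ᵥ v) :=
      fun i => tk775_sq _ (tk775_anti S φ i _) v
    simp only [h2]
    rw [Finset.sum_neg_distrib, ← sum_dotProduct, ← Matrix.sum_mulVec, hv0, zero_dotProduct, neg_zero]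
  have h3 : (S.Dz φ ψ η 8 *ᵥ v) ⬝ᵥ (S.Dz φ ψ η 8 *ᵥ v) = 0 :=
    (Finset.sum_eq_zero_iff_of_nonneg fun i _ => Finset.sum_nonneg fun _ _ => mul_self_nonneg _).1 h1 8 (Finset.mem_univ _)
  rw [dotProduct_self_eq_zero] at h3
  exact hη (Matrix.exists_mulVec_eq_zero_iff.1 ⟨v, hv, h3⟩)

theorem tk775_norm (ψ : Spl r ds dh) (y : Cfg dh) : ‖y - cmb ψ (AN.hz ψ y) 0‖ = ‖AN.hs ψ y‖ := by
  rw [EuclideanSpace.norm_eq, EuclideanSpace.norm_eq]
  congr 1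
  rw [Fintype.sum_prod_type, Fintype.sum_prod_type]
  refine Finset.sum_congr rfl fun i _ => ?_
  rw [← ψ.sum_comp, Fintype.sum_sum_type]
  simp [cmb, AN.hz, AN.hs]

theorem tk775_cont (ψ : Spl r ds dh) : Continuous fun η : Cfg r => cmb ψ η (0 : Cfg ds) := by
  unfold cmb
  refine (PiLp.continuous_toLp 2 _).comp (continuous_pi fun p => ?_)
  rcases ψ.symm p.2 with a | b
  · simp only [Sum.elim_inl]; fun_prop
  · simp only [Sum.elim_inr]; fun_prop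

theorem tubK_of (S : Setup d F) : TubKOfStmt S := by
  intro hU hD hC hcl dh dm r ds φ ψ z₀ hS
  obtain ⟨ρ₁, hρ₁, hinj⟩ := hU hcl dh dm r ds φ ψ z₀ hS
  obtain ⟨hsm, j, hj, hj0, hdet⟩ := hD dh dm φ hS.std.sub
  obtain ⟨e, he, -⟩ := hC d dh dm φ
  have hj1 : ∀ᶠ a in 𝓝 (0 : EuclideanSpace ℝ (Fin dm)), j a ≠ 0 :=
    hj.continuousAt.eventually_ne (by rw [hj0]; exact one_ne_zero)
  obtain ⟨ρ₂, hρ₂, hball⟩ := Metric.eventually_nhds_iff_ball.1 hj1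
  obtain ⟨ρ₀, hρ₀, hρ₀1, hρ₀2⟩ : ∃ ρ₀ : ℝ, 0 < ρ₀ ∧ ρ₀ < ρ₁ ∧ ρ₀ < ρ₂ :=
    ⟨min ρ₁ ρ₂ / 2, by positivity, by
      have := min_le_left ρ₁ ρ₂
      linarith, by
      have := min_le_right ρ₁ ρ₂
      linarith⟩
  refine ⟨ρ₀, hρ₀, fun K hK hK8 => ?_⟩
  -- coordinates
  have hz : ∀ b, (AN.zm φ (e.symm b), (AN.zy φ (e.symm b), AN.zw φ (e.symm b))) = b := fun b => by
    rw [← he, e.apply_symm_apply]
  have htub : ∀ q : EuclideanSpace ℝ (Fin dm) × (Cfg dh × Wsp dm), AN.tub S φ q.1 q.2 = AN.tz S φ (e.symm q) := by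
    rintro ⟨a, p1, p2⟩
    have h1 := hz (a, (p1, p2))
    simp only [Prod.mk.injEq] at h1
    rw [AN.tz, h1.1, h1.2.1, h1.2.2]
  have hcont : Continuous fun q : EuclideanSpace ℝ (Fin dm) × (Cfg dh × Wsp dm) => AN.tub S φ q.1 q.2 := by
    simp only [htub]
    exact hsm.continuous.comp e.symm.continuous
  -- the compact set
  obtain ⟨C, hCdef⟩ : ∃ C : Set (EuclideanSpace ℝ (Fin dm) × (Cfg dh × Wsp dm)),
      C = Metric.closedBall 0 ρ₀ ×ˢ ((fun η : Cfg r => (cmb ψ η (0 : Cfg ds), (0 : Wsp dm))) '' K) := ⟨_, rfl⟩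
  have hCc : IsCompact C := by
    rw [hCdef]
    exact (isCompact_closedBall 0 ρ₀).prod (hK.image ((tk775_cont ψ).prodMk continuous_const))
  have hCinj : Set.InjOn (fun q : EuclideanSpace ℝ (Fin dm) × (Cfg dh × Wsp dm) => AN.tub S φ q.1 q.2) C := by
    rintro ⟨a, p⟩ hq ⟨a', p'⟩ hq' heq
    rw [hCdef] at hq hq'
    obtain ⟨ha, η, hη, rfl⟩ := hq
    obtain ⟨ha', η', hη', rfl⟩ := hq'
    simp only [mem_closedBall_zero_iff] at ha ha'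
    obtain ⟨h1, h2⟩ := hinj η (tk775_rg S φ ψ (hK8 hη)) η' (tk775_rg S φ ψ (hK8 hη')) a a' (ha.trans_lt hρ₀1)
      (ha'.trans_lt hρ₀1) heq
    rw [h1, h2]
  have hloc : ∀ q ∈ C, ∃ u ∈ 𝓝 q, Set.InjOn (fun q : EuclideanSpace ℝ (Fin dm) × (Cfg dh × Wsp dm) =>
      AN.tub S φ q.1 q.2) u := by
    rintro ⟨a, p⟩ hq
    rw [hCdef] at hq
    obtain ⟨ha, η, hη, rfl⟩ := hq
    simp only [mem_closedBall_zero_iff] at ha
    have hd : (fderiv ℝ (AN.tz S φ) (e.symm (a, (cmb ψ η 0, 0)))).det ≠ 0 := by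
      intro h0
      have h1 := hdet (e.symm (a, (cmb ψ η 0, 0)))
      have h2 := hz (a, (cmb ψ η 0, 0))
      simp only [Prod.mk.injEq] at h2
      rw [h0, abs_zero, h2.1, h2.2.1] at h1
      have h3 : S.Jd φ (cmb ψ η 0) ≠ 0 := abs_ne_zero.2 (hK8 hη)
      have h4 : |j a| ≠ 0 := abs_ne_zero.2 (hball a (by
        rw [Metric.mem_ball, dist_zero_right]
        exact ha.trans_lt hρ₀2))
      exact mul_ne_zero h3 h4 h1.symm
    have hf' : HasFDerivAt (AN.tz S φ) (((fderiv ℝ (AN.tz S φ)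
        (e.symm (a, (cmb ψ η 0, 0)))).toContinuousLinearEquivOfDetNeZero hd : Cfg d ≃L[ℝ] Cfg d) :
          Cfg d →L[ℝ] Cfg d) (e.symm (a, (cmb ψ η 0, 0))) := by
      rw [ContinuousLinearMap.coe_toContinuousLinearEquivOfDetNeZero]
      exact ((hsm.differentiable (by simp)) _).hasFDerivAt
    have hsm' : ContDiffAt ℝ ∞ (AN.tz S φ) (e.symm (a, (cmb ψ η 0, 0))) := hsm.contDiffAt
    obtain ⟨G, hG, hz₀⟩ : ∃ G : OpenPartialHomeomorph (Cfg d) (Cfg d), (∀ z, G z = AN.tz S φ z) ∧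
        e.symm (a, (cmb ψ η 0, 0)) ∈ G.source :=
      ⟨hsm'.toOpenPartialHomeomorph (AN.tz S φ) hf' (by simp), fun z => rfl,
        hsm'.mem_toOpenPartialHomeomorph_source hf' (by simp)⟩
    refine ⟨e.symm ⁻¹' G.source, e.symm.continuous.continuousAt.preimage_mem_nhds (G.open_source.mem_nhds hz₀), ?_⟩
    intro q1 h1 q2 h2 h12
    simp only [htub] at h12
    exact e.symm.injective (G.injOn h1 h2 (by rw [hG, hG]; exact h12))
  obtain ⟨t, ht, htinj⟩ := hCinj.exists_mem_nhdsSet hCc (fun x _ => hcont.continuousAt) hloc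
  obtain ⟨V, hVo, hCV, hVt⟩ := mem_nhdsSet_iff_exists.1 ht
  obtain ⟨δ, hδ, hthick⟩ := hCc.exists_thickening_subset_open hVo hCV
  have hmem : ∀ (a : EuclideanSpace ℝ (Fin dm)) (p : Cfg dh × Wsp dm), ‖a‖ < ρ₀ → p ∈ Nr ψ K dm 1 δ → (a, p) ∈ t := by
    intro a p ha hp
    refine hVt (hthick (Metric.mem_thickening_iff.2 ⟨(a, (cmb ψ (AN.hz ψ p.1) 0, 0)), ?_, ?_⟩))
    · rw [hCdef]
      refine ⟨mem_closedBall_zero_iff.2 ha.le, AN.hz ψ p.1, ?_, rfl⟩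
      have := hp.1
      rwa [inv_one, one_smul] at this
    · rw [Prod.dist_eq, Prod.dist_eq, max_lt_iff, max_lt_iff]
      have h2 := hp.2.1
      have h3 := hp.2.2
      rw [mul_one] at h2 h3
      refine ⟨by simpa using hδ, ?_, ?_⟩
      · rw [dist_eq_norm]
        exact (tk775_norm ψ p.1).trans_lt h2
      · rw [dist_zero_right]
        exact h3
  refine ⟨δ, hδ, fun a a' p p' ha ha' hp hp' heq => ?_⟩
  have h := htinj (hmem a p ha hp) (hmem a' p' ha' hp') heq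
  exact ⟨congrArg Prod.fst h, congrArg Prod.snd h⟩

end Vale.Agent.P353.Z.AL
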