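import Vale.Agent.P353.AN.L.Stmt
import Vale.Agent.P353.AN.D.IC

/-! # P353, all `N`, block L: the space of zero modes (`ZMLStmt`, `ZMFStmt`; helper276) -/

open MeasureTheory Filter Topology
open scoped ContDiff

namespace Vale.Agent.P353.Z.AL

variable {d : ℕ} {F : Type*} [NormedAddCommGroup F] [InnerProductSpace ℂ F]

/-! ### operators (anti)commuting with the fermions -/

/-- `A θ = σ θ A` with a sign `σ` -/
def SgC (S : Setup d F) (A : F →L[ℂ] F) (σ : ℂ) : Prop := ∀ α B, A * S.th α B = σ • (S.th α B * A)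

lemma sgC_vec {S : Setup d F} {A : F →L[ℂ] F} {σ : ℂ} (h : SgC S A σ)
    (N : Matrix (Fin 16) (Fin 16) ℂ) (B : Fin d) (β : Fin 16) :
    A * S.vec N B β = σ • (S.vec N B β * A) := by
  simp only [CS.vec, Finset.mul_sum, Finset.sum_mul, Finset.smul_sum]
  refine Finset.sum_congr rfl fun γ _ => ?_
  rw [mul_smul_comm, h, smul_mul_assoc, smul_comm]

lemma sgC_bil {S : Setup d F} {A : F →L[ℂ] F} {σ : ℂ} (h : SgC S A σ) (hσ : σ * σ = 1)
    (N : Matrix (Fin 16) (Fin 16) ℂ) (B C : Fin d) :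
    A * S.bil N B C = S.bil N B C * A := by
  simp only [CS.bil, Finset.mul_sum, Finset.sum_mul]
  refine Finset.sum_congr rfl fun α _ => ?_
  rw [← mul_assoc, h, smul_mul_assoc, mul_assoc, sgC_vec h, mul_smul_comm, smul_smul, hσ, one_smul,
    mul_assoc]

lemma sgC_cS {S : Setup d F} {A : F →L[ℂ] F} {σ : ℂ} (h : SgC S A σ) (hσ : σ * σ = 1) (C : Fin d) :
    A * S.cS C = S.cS C * A := by
  simp only [Setup.cS, mul_smul_comm, smul_mul_assoc, Finset.mul_sum, Finset.sum_mul,
    sgC_bil h hσ]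

lemma sgC_W {S : Setup d F} {A : F →L[ℂ] F} {σ : ℂ} (h : SgC S A σ) (β : Fin 16) (x : Cfg d) :
    A * S.W β x = σ • (S.W β x * A) := by
  simp only [Setup.W, mul_smul_comm, smul_mul_assoc, Finset.mul_sum, Finset.sum_mul, sgC_vec h,
    Finset.smul_sum]
  refine Finset.sum_congr rfl fun B _ => Finset.sum_congr rfl fun i _ =>
    Finset.sum_congr rfl fun j _ => ?_
  simp only [smul_smul]
  congr 1
  ring

lemma Tst_clm (A : F →L[ℂ] F) {u : Cfg d → F} (hu : Setup.Tst u) :
    Setup.Tst fun x => A (u x) := Setup.Tst.clm contDiff_const hu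

lemma G_clm {S : Setup d F} {A : F →L[ℂ] F} {σ : ℂ} (h : SgC S A σ) (hσ : σ * σ = 1) (C : Fin d)
    {u : Cfg d → F} (hu : Setup.Tst u) (x : Cfg d) :
    S.G C (fun y => A (u y)) x = A (S.G C u x) := by
  have h1 : ∀ i B, pd i B (fun y => A (u y)) x = A (pd i B u x) := fun i B =>
    pd_clm A (hu.diff x)
  have h2 : ∀ v, S.cS C (A v) = A (S.cS C v) := fun v => by
    have := congrArg (fun T : F →L[ℂ] F => T v) (sgC_cS h hσ C)
    exact this.symm
  simp only [Setup.G, h1, h2, map_add, map_smul, map_sum]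

lemma Q_clm {S : Setup d F} {A : F →L[ℂ] F} {σ : ℂ} (h : SgC S A σ) (hσ : σ * σ = 1) (β : Fin 16)
    {u : Cfg d → F} (hu : Setup.Tst u) (x : Cfg d) :
    S.Q β (fun y => A (u y)) x = σ • A (S.Q β u x) := by
  have h1 : ∀ i B, pd i B (fun y => A (u y)) x = A (pd i B u x) := fun i B =>
    pd_clm A (hu.diff x)
  have h2 : ∀ i B v, S.vec (S.g i) B β (A v) = σ • A (S.vec (S.g i) B β v) := fun i B v => by
    have := congrArg (fun T : F →L[ℂ] F => T v) (sgC_vec h (S.g i) B β)
    simp only [mul_apply_eq_comp, smul_apply] at this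
    rw [this, smul_smul, hσ, one_smul]
  have h3 : ∀ v, S.W β x (A v) = σ • A (S.W β x v) := fun v => by
    have := congrArg (fun T : F →L[ℂ] F => T v) (sgC_W h β x)
    simp only [mul_apply_eq_comp, smul_apply] at this
    rw [this, smul_smul, hσ, one_smul]
  simp only [Setup.Q, h1, h2, h3, map_add, map_smul, map_sum, smul_add, Finset.smul_sum]
  congr 1
  refine Finset.sum_congr rfl fun i _ => Finset.sum_congr rfl fun B _ => ?_
  rw [smul_comm]

lemma GInv_clm {S : Setup d F} {A : F →L[ℂ] F} {σ : ℂ} (h : SgC S A σ) (hσ : σ * σ = 1)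
    {u : Cfg d → F} (hu : AD.GInv S u) : AD.GInv S fun x => A (u x) :=
  ⟨Tst_clm A hu.1, fun C x => by rw [G_clm h hσ C hu.1, hu.2, map_zero]⟩

lemma En_clm_le {S : Setup d F} {A : F →L[ℂ] F} {σ : ℂ} (h : SgC S A σ) (hσ : σ * σ = 1)
    {u : Cfg d → F} (hu : Setup.Tst u) :
    AD.En S (fun x => A (u x)) ≤ ‖A‖ ^ 2 * AD.En S u := by
  have hσ1 : ‖σ‖ = 1 := by
    have h1 : ‖σ‖ * ‖σ‖ = 1 := by rw [← norm_mul, hσ, norm_one]
    nlinarith [norm_nonneg σ]
  unfold AD.En
  rw [Finset.mul_sum]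
  refine Finset.sum_le_sum fun β _ => ?_
  have h1 : S.Q β (fun x => A (u x)) = fun x => σ • A (S.Q β u x) :=
    funext fun x => Q_clm h hσ β hu x
  rw [h1, AD.IC.nsq_csmul, hσ1, one_pow, one_mul]
  exact nsq_op_le (A := fun _ => A) (fun _ => le_rfl) (hu.Q S β).memLp

lemma ZM_clm {S : Setup d F} {A : F →L[ℂ] F} {σ : ℂ} (h : SgC S A σ) (hσ : σ * σ = 1)
    {o : Cfg d → F} (ho : AD.ZM S o) : AD.ZM S fun x => A (o x) := by
  obtain ⟨u, hu, hl, he⟩ := ho
  refine ⟨fun n x => A (u n x), fun n => GInv_clm h hσ (hu n),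
    hl.op (A := fun _ => A) continuous_const (fun _ => le_rfl), ?_⟩
  refine squeeze_zero (fun n => AD.IC.En_nonneg S _) (fun n => En_clm_le h hσ (hu n).1) ?_
  simpa using he.const_mul (‖A‖ ^ 2)

/-! ### the space of zero modes -/

lemma ZM_add {S : Setup d F} {o o' : Cfg d → F} (ho : AD.ZM S o) (ho' : AD.ZM S o') :
    AD.ZM S fun x => o x + o' x := by
  obtain ⟨u, hu, hl, he⟩ := ho
  obtain ⟨v, hv, hl', he'⟩ := ho'
  refine ⟨fun n x => u n x + v n x, fun n => AD.IC.GInv_add (hu n) (hv n), hl.add hl', ?_⟩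
  refine squeeze_zero (fun n => AD.IC.En_nonneg S _)
    (fun n => AD.IC.En_add_le S (hu n).1 (hv n).1) ?_
  simpa using (he.const_mul 2).add (he'.const_mul 2)

lemma sgC_smul_one (S : Setup d F) (c : ℂ) : SgC S (c • (1 : F →L[ℂ] F)) 1 := by
  intro α B
  simp

lemma ZM_csmul {S : Setup d F} (c : ℂ) {o : Cfg d → F} (ho : AD.ZM S o) :
    AD.ZM S fun x => c • o x := by
  have := ZM_clm (sgC_smul_one S c) (by norm_num) ho
  simpa using this

lemma ZM_congr {S : Setup d F} {o o' : Cfg d → F} (ho : AD.ZM S o)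
    (h : ∀ᵐ x ∂(volume : Measure (Cfg d)), o' x = o x) : AD.ZM S o' := by
  obtain ⟨u, hu, hl, he⟩ := ho
  refine ⟨u, hu, ⟨hl.mem, (memLp_congr_ae h).2 hl.mem', ?_⟩, he⟩
  refine hl.lim.congr fun n => ?_
  refine integral_congr_ae ?_
  filter_upwards [h] with x hx
  rw [hx]

/-- **L-ZML** -/
theorem zml (S : Setup d F) : ZMLStmt S := by
  refine ⟨fun o o' ho ho' => ZM_add ho ho', fun c o ho => ZM_csmul c ho,
    fun o o' ho h => ZM_congr ho h, fun o ho => ?_, fun A hA o ho => ?_⟩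
  · obtain ⟨u, hu, hl, he⟩ := ho
    exact hl.mem'
  · rcases hA with hA | hA
    · exact ZM_clm (A := A) (σ := 1) (fun α B => by rw [hA, one_smul]) (by norm_num) ho
    · exact ZM_clm (A := A) (σ := -1) (fun α B => by rw [hA, neg_smul, one_smul])
        (by norm_num) ho

/-! ### zero modes are spanned by the orthonormal family of inner completeness -/

lemma L2t_cfix {c : ℕ → ℂ} {c0 : ℂ} (hc : Tendsto c atTop (𝓝 c0)) {f : Cfg d → F}
    (hf : MemLp f 2 (volume : Measure (Cfg d))) :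
    L2t (fun n x => c n • f x) (fun x => c0 • f x) := by
  refine ⟨fun n => hf.const_smul _, hf.const_smul _, ?_⟩
  have h1 : ∀ n, nsq (fun x => c n • f x - c0 • f x) = ‖c n - c0‖ ^ 2 * nsq f := by
    intro n
    rw [← AD.IC.nsq_csmul]
    congr 1
    funext x
    rw [sub_smul]
  simp only [h1]
  have h2 : Tendsto (fun n => ‖c n - c0‖ ^ 2 * nsq f) atTop (𝓝 (‖c0 - c0‖ ^ 2 * nsq f)) :=
    (((hc.sub_const c0).norm).pow 2).mul_const _
  simpa using h2

lemma L2t_sum {ι : Type*} (s : Finset ι) {f : ι → ℕ → Cfg d → F} {g : ι → Cfg d → F}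
    (h : ∀ i, L2t (f i) (g i)) :
    L2t (fun n x => ∑ i ∈ s, f i n x) (fun x => ∑ i ∈ s, g i x) := by
  classical
  induction s using Finset.induction_on with
  | empty => exact ⟨fun _ => by simp, by simp, by simp [nsq]⟩
  | insert b s hb ih =>
    simp only [Finset.sum_insert hb]
    exact (h b).add ih

lemma L2t_sub {f f' : ℕ → Cfg d → F} {g g' : Cfg d → F} (h : L2t f g) (h' : L2t f' g') :
    L2t (fun n x => f n x - f' n x) (fun x => g x - g' x) := by
  have h1 := h.add (h'.op (A := fun _ => -(1 : F →L[ℂ] F)) (C := ‖-(1 : F →L[ℂ] F)‖)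
    continuous_const (fun _ => le_rfl))
  simpa [sub_eq_add_neg] using h1

omit [InnerProductSpace ℂ F] in
lemma L2t_fix {f : Cfg d → F} (hf : MemLp f 2 (volume : Measure (Cfg d))) :
    L2t (fun _ => f) f := ⟨fun _ => hf, hf, by simp [nsq]⟩

omit [InnerProductSpace ℂ F] in
/-- if the masses of the approximants on a ball tend to zero, the limit vanishes there -/
lemma mas_lim {f : ℕ → Cfg d → F} {g : Cfg d → F} (h : L2t f g) (B : Set (Cfg d))
    (h0 : Tendsto (fun n => AD.mas (f n) B) atTop (𝓝 0)) : AD.mas g B = 0 := by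
  have h1 : ∀ n, AD.mas g B ≤ 2 * AD.mas (f n) B + 2 * nsq (fun x => f n x - g x) := by
    intro n
    have i1 : Integrable (fun x => ‖f n x‖ ^ 2) := memLp_norm_sq_int (h.mem n)
    have i2 : Integrable (fun x => ‖f n x - g x‖ ^ 2) := memLp_norm_sq_int ((h.mem n).sub h.mem')
    have h2 : AD.mas g B ≤ ∫ x in B, (2 * ‖f n x‖ ^ 2 + 2 * ‖f n x - g x‖ ^ 2) := by
      refine integral_mono_of_nonneg (Eventually.of_forall fun x => by positivity)
        ((i1.const_mul 2).add (i2.const_mul 2)).integrableOn (Eventually.of_forall fun x => ?_)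
      have h3 : ‖g x‖ ≤ ‖f n x‖ + ‖f n x - g x‖ := by
        have := norm_sub_le (f n x) (f n x - g x)
        rwa [sub_sub_cancel] at this
      have h4 := norm_nonneg (g x)
      simp only
      nlinarith [sq_nonneg (‖f n x‖ - ‖f n x - g x‖)]
    refine h2.trans ?_
    rw [integral_add (i1.const_mul 2).integrableOn (i2.const_mul 2).integrableOn,
      integral_const_mul, integral_const_mul]
    refine add_le_add le_rfl (mul_le_mul_of_nonneg_left ?_ (by norm_num))
    exact setIntegral_le_integral i2 (Eventually.of_forall fun x => by positivity)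
  have h2 : Tendsto (fun n => 2 * AD.mas (f n) B + 2 * nsq (fun x => f n x - g x)) atTop
      (𝓝 (2 * 0 + 2 * 0)) := (h0.const_mul 2).add (h.lim.const_mul 2)
  have h3 := ge_of_tendsto' h2 h1
  simp only [mul_zero, add_zero] at h3
  exact le_antisymm h3 (AD.IC.mas_nonneg _ _)

/-- **L-ZMF** -/
theorem zmf (S : Setup d F) : ZMFStmt S := by
  intro n o C hZ _ hIC o' ho'
  have ho : ∀ j, MemLp (o j) 2 (volume : Measure (Cfg d)) := fun j => (zml S).2.2.2.1 _ (hZ j)
  obtain ⟨u, hu, hl, he⟩ := ho'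
  set c : Fin n → ℕ → ℂ := fun j m => ∫ z, inner ℂ (o j z) (u m z) with hc
  have hcl : ∀ j, Tendsto (c j) atTop (𝓝 (∫ z, inner ℂ (o j z) (o' z))) := fun j =>
    (L2t_fix (ho j)).lim_inner hl
  have hr : L2t (fun m x => u m x - ∑ j, c j m • o j x)
      (fun x => o' x - ∑ j, (∫ z, inner ℂ (o j z) (o' z)) • o j x) :=
    L2t_sub hl (L2t_sum Finset.univ fun j => L2t_cfix (hcl j) (ho j))
  have h0 : ∀ N : ℕ, AD.mas (fun x => o' x - ∑ j, (∫ z, inner ℂ (o j z) (o' z)) • o j x)
      (Metric.ball 0 ((N : ℝ) + 1)) = 0 := by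
    intro N
    refine mas_lim hr _ ?_
    refine squeeze_zero (fun m => AD.IC.mas_nonneg _ _)
      (fun m => hIC ((N : ℝ) + 1) (by linarith [Nat.cast_nonneg (α := ℝ) N]) (u m) (hu m)) ?_
    simpa using he.const_mul (C * ((N : ℝ) + 1) ^ 2)
  have h1 : ∀ N : ℕ, ∀ᵐ x ∂(volume : Measure (Cfg d)), x ∈ Metric.ball (0 : Cfg d) ((N : ℝ) + 1) →
      o' x - ∑ j, (∫ z, inner ℂ (o j z) (o' z)) • o j x = 0 := by
    intro N
    have h2 := h0 N
    unfold AD.mas at h2
    rw [setIntegral_eq_zero_iff_of_nonneg_ae (Eventually.of_forall fun x => by positivity)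
      (memLp_norm_sq_int hr.mem').integrableOn] at h2
    have h3 := (ae_restrict_iff' Metric.isOpen_ball.measurableSet).1 h2
    filter_upwards [h3] with x hx hxN
    have := hx hxN
    simpa using this
  filter_upwards [ae_all_iff.2 h1] with x hx
  obtain ⟨N, hN⟩ := exists_nat_gt ‖x‖
  have h2 := hx N (by rw [Metric.mem_ball, dist_zero_right]; linarith)
  exact sub_eq_zero.1 h2

end Vale.Agent.P353.Z.AL
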