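import Vale.Agent.P353.AN.L.Stmt
import Vale.Agent.P353.AN.D.LiouA

/-! # P353, all `N`, block L: all profiles vanish (L-Zero) -/

open MeasureTheory Filter Topology Matrix
open scoped ContDiff

namespace Vale.Agent.P353.Z.AL

variable {d dh dm r ds n : ℕ} {F : Type*} [NormedAddCommGroup F] [InnerProductSpace ℂ F]

namespace Zero533

lemma sc_add (U : Cfg r → F →L[ℂ] F) (o : Fin n → Cfg ds → F) (b b' : Cfg r → Ek n) :
    sc U o (fun x => b x + b' x) = fun η s => sc U o b η s + sc U o b' η s := by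
  funext η s
  simp [sc, add_smul, Finset.sum_add_distrib]

lemma sc_smul (U : Cfg r → F →L[ℂ] F) (o : Fin n → Cfg ds → F) (c : ℂ) (b : Cfg r → Ek n) :
    sc U o (fun x => c • b x) = fun η s => c • sc U o b η s := by
  funext η s
  simp [sc, Finset.smul_sum, smul_smul]

lemma ZZ_zero (κ : ℝ) (φ : Spl dh dm d) (ψ : Spl r ds dh) (Om : Cfg r → Matrix (Fin dm) (Fin dm) ℝ)
    (R : ℝ) (u : Cfg d → F) : ZZ κ φ ψ Om (fun _ _ => (0 : F)) R u = 0 := by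
  simp [ZZ, AN.bG, AN.Zb]

lemma ulim (𝒰 : Ultrafilter ℕ) (z : ℕ → ℂ) (B : ℝ) (h : ∀ᶠ m in (𝒰 : Filter ℕ), ‖z m‖ ≤ B) :
    Tendsto z (𝒰 : Filter ℕ) (𝓝 (limUnder (𝒰 : Filter ℕ) z)) := by
  have h1 : ((𝒰.map z : Ultrafilter ℂ) : Filter ℂ) ≤ 𝓟 (Metric.closedBall 0 B) := by
    rw [le_principal_iff, Ultrafilter.coe_map, mem_map]
    filter_upwards [h] with m hm
    simpa using hm
  obtain ⟨x, -, hx⟩ := (isCompact_closedBall (0 : ℂ) B).ultrafilter_le_nhds (𝒰.map z) h1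
  exact tendsto_nhds_limUnder ⟨x, hx⟩

lemma shell {A : Set (Cfg r)} (hA : IsCompact A) (h0 : (0 : Cfg r) ∉ A) :
    ∃ s t : ℝ, 0 < s ∧ s < t ∧ A ⊆ AD.shl r s t := by
  obtain ⟨ε, hε, hb⟩ := Metric.isOpen_iff.1 hA.isClosed.isOpen_compl 0 h0
  obtain ⟨M, hM⟩ := hA.isBounded.exists_norm_le
  refine ⟨ε / 2, max M ε + 1, by positivity, ?_, fun x hx => ⟨?_, ?_⟩⟩
  · have := le_max_right M ε
    linarith
  · by_contra hcon
    have h1 : x ∈ Metric.ball (0 : Cfg r) ε := by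
      rw [mem_ball_zero_iff]
      linarith
    exact hb h1 hx
  · have h1 := hM x hx
    have h2 := le_max_left M ε
    linarith

lemma rg {S : Setup d F} {φ : Spl dh dm d} {ψ : Spl r ds dh} {L : Finset (Fin r → ℝ)}
    {Om : Cfg r → Matrix (Fin dm) (Fin dm) ℝ} {K : Submodule ℂ F} {U : Cfg r → F →L[ℂ] F}
    (hB : AX.Bun S φ (AX.Mz S φ (spsw ψ)) L Om K U) : (Coll L)ᶜ ⊆ Rg S φ ψ := by
  intro η hη
  have h := hB.det η hη
  rw [AX.DM_Dz] at h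
  exact h

variable {S : Setup d F} {φ : Spl dh dm d} {ψ : Spl r ds dh} {L : Finset (Fin r → ℝ)}
  {Om : Cfg r → Matrix (Fin dm) (Fin dm) ℝ} {K : Submodule ℂ F} {U : Cfg r → F →L[ℂ] F}
  {o : Fin n → Cfg ds → F} {T : Setup r (Ek n)} {R : ℕ → ℝ} {u : ℕ → Cfg d → F}

lemma zadd (hfin : FiniteDimensional ℂ F) (hLin : LinStmt S) (hI : IsoStmt S) (hdat : Dat S φ ψ L Om K U o T)
    (hSq : AD.Sq S R u) {b b' : Cfg r → Ek n} (hb : LC ((Coll L)ᶜ) b) (hb' : LC ((Coll L)ᶜ) b') (m : ℕ) :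
    ZZ S.κ φ ψ Om (sc U o (fun x => b x + b' x)) (R m) (u m) =
      ZZ S.κ φ ψ Om (sc U o b) (R m) (u m) + ZZ S.κ φ ψ Om (sc U o b') (R m) (u m) := by
  obtain ⟨h2, A, hA, hAΩ, hA0⟩ := hb
  obtain ⟨h2', A', hA', hAΩ', hA0'⟩ := hb'
  have hU : A ∪ A' ⊆ (Coll L)ᶜ := Set.union_subset hAΩ hAΩ'
  have s1 := (hI dh dm r ds n φ ψ L Om K U o T hdat (A ∪ A') (hA.union hA') hU b h2
    (fun x hx => hA0 x fun h => hx (Or.inl h))).1
  have s2 := (hI dh dm r ds n φ ψ L Om K U o T hdat (A ∪ A') (hA.union hA') hU b' h2'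
    (fun x hx => hA0' x fun h => hx (Or.inr h))).1
  rw [sc_add]
  exact (hLin hfin dh dm r ds φ ψ L Om K U hdat.bun (A ∪ A') (hA.union hA') (hU.trans (rg hdat.bun)) (R m)
    (hSq.pos m) (u m) (hSq.inv m).1).2.1 _ _ s1 s2

lemma zsmul (hfin : FiniteDimensional ℂ F) (hLin : LinStmt S) (hI : IsoStmt S) (hdat : Dat S φ ψ L Om K U o T)
    (hSq : AD.Sq S R u) (c : ℂ) {b : Cfg r → Ek n} (hb : LC ((Coll L)ᶜ) b) (m : ℕ) :
    ZZ S.κ φ ψ Om (sc U o (fun x => c • b x)) (R m) (u m) =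
      (starRingEnd ℂ) c * ZZ S.κ φ ψ Om (sc U o b) (R m) (u m) := by
  obtain ⟨h2, A, hA, hAΩ, hA0⟩ := hb
  have s1 := (hI dh dm r ds n φ ψ L Om K U o T hdat A hA hAΩ b h2 hA0).1
  rw [sc_smul]
  exact (hLin hfin dh dm r ds φ ψ L Om K U hdat.bun A hA (hAΩ.trans (rg hdat.bun)) (R m)
    (hSq.pos m) (u m) (hSq.inv m).1).2.2 c _ s1

lemma sqM (h : AD.Sq S R u) : SqM S R u where
  inv := h.inv
  pos := h.pos
  lim := h.lim
  bd := by
    intro s t hs ht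
    obtain ⟨C, hC⟩ := h.bd s t hs ht
    refine ⟨C, fun n => ?_⟩
    have h1 := hC n
    have h2 : 0 ≤ R n ^ 2 * AD.ena S (u n) (AD.shl d (s * R n) (t * R n)) := by
      refine mul_nonneg (sq_nonneg _) (Finset.sum_nonneg fun β _ => ?_)
      exact integral_nonneg fun x => by positivity
    linarith

/-- uniform bound of the functionals -/
lemma zbound (hfin : FiniteDimensional ℂ F) (hC : AN.Cless S) (hUB : UBStmt S) (hI : IsoStmt S) {z₀ : Cfg r}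
    (hstd : AD.Std2 S φ (spsw ψ) z₀) (hdat : Dat S φ ψ L Om K U o T) (hSq : AD.Sq S R u) :
    ∃ C : ℝ, 0 < C ∧ ∀ s t B : ℝ, 0 < s → s < t → 0 ≤ B →
      (∀ᶠ m in atTop, AD.mas (u m) (AD.shl d (s * R m) (t * R m)) ≤ B) → ∀ b : Cfg r → Ek n,
      LC (AD.shl r s t ∩ (Coll L)ᶜ) b → ∀ e : ℝ, 0 < e → ∀ᶠ m in atTop,
      ‖ZZ S.κ φ ψ Om (sc U o b) (R m) (u m)‖ ≤ C * Real.sqrt B * Real.sqrt (∫ x, ‖b x‖ ^ 2) + e := by
  obtain ⟨C, hC0, h⟩ := hUB hfin hC dh dm r ds φ ψ z₀ hstd L Om K U hdat.bun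
  refine ⟨C, hC0, fun s t B hs hst hB hmas b hb e he => ?_⟩
  obtain ⟨h2, A, hA, hAΩ, hA0⟩ := hb
  have hA1 : A ⊆ AD.shl r s t := hAΩ.trans Set.inter_subset_left
  have hA2 : A ⊆ (Coll L)ᶜ := hAΩ.trans Set.inter_subset_right
  obtain ⟨hs2, hn⟩ := hI dh dm r ds n φ ψ L Om K U o T hdat A hA hA2 b h2 hA0
  filter_upwards [h s t hs hst A hA hA1 (hA2.trans (rg hdat.bun)) R u (sqM hSq) _ hs2 e he, hmas] with m h3 h4
  rw [hn] at h3
  refine h3.trans (add_le_add ?_ le_rfl)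
  have h5 : Real.sqrt (AD.mas (u m) (AD.shl d (s * R m) (t * R m))) ≤ Real.sqrt B := Real.sqrt_le_sqrt h4
  have h6 : 0 ≤ C * Real.sqrt (∫ x, ‖b x‖ ^ 2) := by positivity
  calc C * Real.sqrt (∫ x, ‖b x‖ ^ 2) * Real.sqrt (AD.mas (u m) (AD.shl d (s * R m) (t * R m)))
      ≤ C * Real.sqrt (∫ x, ‖b x‖ ^ 2) * Real.sqrt B := mul_le_mul_of_nonneg_left h5 h6
    _ = _ := by ring

lemma sc_zero (U : Cfg r → F →L[ℂ] F) (o : Fin n → Cfg ds → F) :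
    sc U o (fun _ => (0 : Ek n)) = fun _ _ => 0 := by
  funext η s
  simp [sc]

lemma LC_mono {Ω Ω' : Set (Cfg r)} (h : Ω ⊆ Ω') {b : Cfg r → Ek n} (hb : LC Ω b) : LC Ω' b := by
  obtain ⟨h2, A, hA, hAΩ, hA0⟩ := hb
  exact ⟨h2, A, hA, hAΩ.trans h, hA0⟩

lemma LC_ball {Ω : Set (Cfg r)} {η : Cfg r} (hη : η ≠ 0) {b : Cfg r → Ek n} (hb : LC Ω b)
    (h0 : ∀ x, x ∉ Metric.ball η (‖η‖ / 2) → b x = 0) :
    LC (AD.shl r (‖η‖ / 4) (2 * ‖η‖) ∩ Ω) b := by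
  obtain ⟨h2, A, hA, hAΩ, hA0⟩ := hb
  have hn : 0 < ‖η‖ := norm_pos_iff.2 hη
  refine ⟨h2, A ∩ Metric.closedBall η (‖η‖ / 2), hA.inter_right Metric.isClosed_closedBall, ?_, ?_⟩
  · rintro x ⟨hx1, hx2⟩
    rw [mem_closedBall_iff_norm] at hx2
    have h3 := norm_sub_norm_le η x
    have h4 := norm_sub_norm_le x η
    rw [norm_sub_rev] at h3
    refine ⟨⟨?_, ?_⟩, hAΩ hx1⟩ <;> linarith
  · intro x hx
    by_cases h : x ∈ A
    · refine h0 x fun hb => hx ⟨h, Metric.ball_subset_closedBall hb⟩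
    · exact hA0 x h

lemma LC_Q0 (T : Setup r (Ek n)) {ζ : Cfg r → Ek n} (hζ : AD.TOff L ζ) (β : Fin 16) :
    LC ((Coll L ∪ {0})ᶜ) (T.Q0 β ζ) := by
  obtain ⟨⟨htst, hdis⟩, h0⟩ := hζ
  have hQ := AD.lio_Tst_Q0 T htst β
  refine ⟨hQ.memLp, tsupport ζ, htst.2, ?_, fun x hx => ?_⟩
  · intro x hx
    rintro (h | h)
    · exact Set.disjoint_left.1 hdis hx h
    · rw [Set.mem_singleton_iff] at h
      subst h
      exact h0 hx
  · have h1 : fderiv ℝ ζ x = 0 := fderiv_of_notMem_tsupport (𝕜 := ℝ) hx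
    simp [Setup.Q0, pd, h1]

end Zero533

open Zero533 in
/-- **L-Zero** -/
theorem zero_of (S : Setup d F) : ZeroOfStmt S := by
  intro hRz hLin hUB hI hEq hLiou hCut hfin hC dh dm r ds n φ ψ z₀ hstd L Om K U o T hdat R u hSq hG hV b₀ hb₀
  rcases Nat.eq_zero_or_pos r with hr | hr
  · subst hr
    have h1 : b₀ = fun _ => 0 := by
      funext x
      obtain ⟨-, A, -, hAΩ, hA0⟩ := hb₀
      refine hA0 x fun hx => hAΩ hx (Or.inr ?_)
      exact Subsingleton.elim _ _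
    rw [h1, sc_zero]
    simp only [ZZ_zero]
    exact tendsto_const_nhds
  obtain ⟨C, hC0, hbd⟩ := zbound hfin hC hUB hI hstd hdat hSq
  set Ω : Set (Cfg r) := (Coll L ∪ {0})ᶜ with hΩdef
  have hΩ : IsOpen Ω := (hdat.bun.closed.union isClosed_singleton).isOpen_compl
  have hΩ1 : Ω ⊆ (Coll L)ᶜ := Set.compl_subset_compl.2 Set.subset_union_left
  have hΩ0 : (0 : Cfg r) ∉ Ω := fun h => h (Or.inr rfl)
  have hsh : ∀ s t : ℝ, 0 < s → AD.shl r s t ∩ (Coll L)ᶜ ⊆ Ω := by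
    rintro s t hs x ⟨hx1, hx2⟩ (h | h)
    · exact hx2 h
    · rw [Set.mem_singleton_iff] at h
      subst h
      have := hx1.1
      rw [norm_zero] at this
      linarith
  by_contra hcon
  obtain ⟨e, he, hfr⟩ : ∃ e : ℝ, 0 < e ∧ ∃ᶠ m in atTop, e ≤ ‖ZZ S.κ φ ψ Om (sc U o b₀) (R m) (u m)‖ := by
    by_contra h
    push Not at h
    apply hcon
    rw [Metric.tendsto_nhds]
    intro ε hε
    have h1 := h ε hε
    filter_upwards [h1] with m hm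
    rw [dist_zero_right]
    exact hm
  have hne : (atTop ⊓ 𝓟 {m : ℕ | e ≤ ‖ZZ S.κ φ ψ Om (sc U o b₀) (R m) (u m)‖}).NeBot :=
    frequently_mem_iff_neBot.1 hfr
  set 𝒰 := Ultrafilter.of (atTop ⊓ 𝓟 {m : ℕ | e ≤ ‖ZZ S.κ φ ψ Om (sc U o b₀) (R m) (u m)‖}) with h𝒰def
  have h𝒰 : (𝒰 : Filter ℕ) ≤ atTop ⊓ 𝓟 {m : ℕ | e ≤ ‖ZZ S.κ φ ψ Om (sc U o b₀) (R m) (u m)‖} :=
    Ultrafilter.of_le _
  have h𝒰1 : (𝒰 : Filter ℕ) ≤ atTop := h𝒰.trans inf_le_left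
  have h𝒰2 : ∀ᶠ m in (𝒰 : Filter ℕ), e ≤ ‖ZZ S.κ φ ψ Om (sc U o b₀) (R m) (u m)‖ :=
    le_principal_iff.1 (h𝒰.trans inf_le_right)
  have hmasB : ∀ s t : ℝ, 0 < s → s < t → ∃ B : ℝ, 0 ≤ B ∧
      ∀ᶠ m in atTop, AD.mas (u m) (AD.shl d (s * R m) (t * R m)) ≤ B := by
    intro s t hs hst
    obtain ⟨B, hB⟩ := (sqM hSq).bd s t hs hst
    exact ⟨max B 0, le_max_right _ _, Eventually.of_forall fun m => (hB m).trans (le_max_left _ _)⟩
  let ℓ : (Cfg r → Ek n) → ℂ := fun b =>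
    limUnder (𝒰 : Filter ℕ) (fun m => ZZ S.κ φ ψ Om (sc U o b) (R m) (u m))
  have hcv : ∀ b, LC Ω b → Tendsto (fun m => ZZ S.κ φ ψ Om (sc U o b) (R m) (u m)) (𝒰 : Filter ℕ) (𝓝 (ℓ b)) := by
    intro b hb
    obtain ⟨h2, A, hA, hAΩ, hA0⟩ := hb
    obtain ⟨s, t, hs, hst, hAs⟩ := shell hA fun h => hΩ0 (hAΩ h)
    obtain ⟨B, hB0, hB⟩ := hmasB s t hs hst
    have h3 := hbd s t B hs hst hB0 hB b ⟨h2, A, hA, Set.subset_inter hAs (hAΩ.trans hΩ1), hA0⟩ 1 one_pos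
    exact ulim 𝒰 _ _ (h3.filter_mono h𝒰1)
  have hℓ : ∀ s t B : ℝ, 0 < s → s < t → 0 ≤ B →
      (∀ᶠ m in atTop, AD.mas (u m) (AD.shl d (s * R m) (t * R m)) ≤ B) → ∀ b : Cfg r → Ek n,
      LC (AD.shl r s t ∩ (Coll L)ᶜ) b → ‖ℓ b‖ ≤ C * Real.sqrt B * Real.sqrt (∫ x, ‖b x‖ ^ 2) := by
    intro s t B hs hst hB0 hB b hb
    refine le_of_forall_pos_le_add fun ε hε => ?_
    exact le_of_tendsto (hcv b (LC_mono (hsh s t hs) hb)).norm
      ((hbd s t B hs hst hB0 hB b hb ε hε).filter_mono h𝒰1)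
  obtain ⟨f, hfm, -, hf, hf'⟩ := hRz r n Ω ℓ hΩ
    (fun b b' hb hb' => by
      refine Tendsto.limUnder_eq (((hcv b hb).add (hcv b' hb')).congr fun m => ?_)
      exact (zadd hfin hLin hI hdat hSq (LC_mono hΩ1 hb) (LC_mono hΩ1 hb') m).symm)
    (fun c b hb => by
      refine Tendsto.limUnder_eq (((hcv b hb).const_mul _).congr fun m => ?_)
      exact (zsmul hfin hLin hI hdat hSq c (LC_mono hΩ1 hb) m).symm)
    (fun η hη => by
      have hη0 : η ≠ 0 := by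
        rintro rfl
        exact hΩ0 hη
      have hn : 0 < ‖η‖ := norm_pos_iff.2 hη0
      obtain ⟨B, hB0, hB⟩ := hmasB (‖η‖ / 4) (2 * ‖η‖) (by positivity) (by linarith)
      refine ⟨‖η‖ / 2, C * Real.sqrt B, by positivity, fun b hb hb0 => ?_⟩
      exact hℓ _ _ B (by positivity) (by linarith) hB0 hB b (LC_ball hη0 (LC_mono hΩ1 hb) hb0))
  have hnull : ∀ᵐ x ∂(volume : Measure (Cfg r)), x ∉ Coll L := by
    obtain ⟨_, _, _, _, _, h, _⟩ := hCut r L hdat.bun.L_ne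
    exact h
  have hset : ∀ s t : ℝ, (AD.shl r s t ∩ (Coll L)ᶜ : Set (Cfg r)) =ᵐ[volume] AD.shl r s t := by
    intro s t
    filter_upwards [hnull] with x hx
    exact propext ⟨fun h => h.1, fun h => ⟨h, hx⟩⟩
  have hshell : ∀ s t B : ℝ, 0 < s → s < t → 0 ≤ B →
      (∀ᶠ m in atTop, AD.mas (u m) (AD.shl d (s * R m) (t * R m)) ≤ B) →
      IntegrableOn (fun x => ‖f x‖ ^ 2) (AD.shl r s t) (volume : Measure (Cfg r)) ∧
        ∫ x in AD.shl r s t, ‖f x‖ ^ 2 ≤ C ^ 2 * B := by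
    intro s t B hs hst hB0 hB
    have hopen : IsOpen (AD.shl r s t ∩ (Coll L)ᶜ) := by
      refine IsOpen.inter ?_ hdat.bun.closed.isOpen_compl
      exact (isOpen_lt continuous_const continuous_norm).inter (isOpen_lt continuous_norm continuous_const)
    have h1 := hf' (AD.shl r s t ∩ (Coll L)ᶜ) (C * Real.sqrt B) hopen (hsh s t hs) (by positivity)
      (fun b hb => hℓ s t B hs hst hB0 hB b hb)
    refine ⟨h1.1.congr_set_ae (hset s t).symm, ?_⟩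
    rw [← setIntegral_congr_set (hset s t)]
    refine h1.2.trans (le_of_eq ?_)
    rw [mul_pow, Real.sq_sqrt hB0]
  have hf0 : ∀ᵐ x ∂(volume : Measure (Cfg r)), f x = 0 := by
    obtain ⟨C₁, hC₁⟩ := hG
    refine hLiou r n T (hCut r) hr L hdat.bun.L_ne f hfm (fun s t hs hst => ?_) ⟨C ^ 2 * max C₁ 0, fun k => ?_⟩
      (fun β ζ hζ => ?_)
    · obtain ⟨B, hB0, hB⟩ := hmasB s t hs hst
      exact (hshell s t B hs hst hB0 hB).1
    · have h2 : (0 : ℝ) < (2 : ℝ) ^ (3 * |k|) := by positivity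
      have h3 : (2 : ℝ) ^ k < (2 : ℝ) ^ (k + 1) := zpow_lt_zpow_right₀ (by norm_num) (by omega)
      have h1 := (hshell ((2 : ℝ) ^ k) ((2 : ℝ) ^ (k + 1)) (max C₁ 0 * (2 : ℝ) ^ (3 * |k|)) (by positivity) h3
        (by positivity) ?_).2
      · rw [AD.dsh, mul_assoc]
        exact h1
      · filter_upwards [hC₁ k] with m hm
        exact hm.trans (mul_le_mul_of_nonneg_right (le_max_left _ _) h2.le)
    · rw [← hf _ (LC_Q0 T hζ β)]
      have h1 := hEq hfin hC dh dm r ds n φ ψ z₀ hstd L Om K U o T hdat R u hSq hV β ζ hζ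
      exact (h1.mono_left h𝒰1).limUnder_eq
  have h1 : ℓ b₀ = 0 := by
    rw [hf b₀ hb₀]
    have h2 : ∫ x, inner ℂ (b₀ x) (f x) = ∫ x : Cfg r, (0 : ℂ) := by
      refine integral_congr_ae ?_
      filter_upwards [hf0] with x hx
      rw [hx, inner_zero_right]
    rw [h2, integral_zero]
  have h2 : e ≤ ‖ℓ b₀‖ := ge_of_tendsto (hcv b₀ hb₀).norm h𝒰2
  rw [h1, norm_zero] at h2
  linarith

end Vale.Agent.P353.Z.AL
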