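import Vale.Agent.P353.AN.L.Lio
import Vale.Agent.P353.AN.L.Dat
import Vale.Agent.P353.AN.L.Riesz
import Vale.Agent.P353.AN.L.RadSup
import Vale.Agent.P353.AN.L.Lin
import Vale.Agent.P353.AN.L.Tail
import Vale.Agent.P353.AN.L.VG
import Vale.Agent.P353.AN.L.ZM
import Vale.Agent.P353.AN.L.GluAC
import Vale.Agent.P353.AN.L.InjU
import Vale.Agent.P353.AN.L.TubK
import Vale.Agent.P353.AN.L.MasK
import Vale.Agent.P353.AN.L.Crd
import Vale.Agent.P353.AN.L.Null
import Vale.Agent.P353.AN.L.UB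
import Vale.Agent.P353.AN.L.Iso
import Vale.Agent.P353.AN.L.Eq
import Vale.Agent.P353.AN.L.Zero
import Vale.Agent.P353.AN.L.Spz
import Vale.Agent.P353.AN.L.Sf
import Vale.Agent.P353.AN.L.GluCMain
import Vale.Agent.P353.AN.P.Inj
import Vale.Agent.P353.AN.D.LiouA
import Vale.Agent.P353.AN.D.LiouB
import Vale.Agent.P353.AN.F.Cut
import Vale.Agent.P353.AN.E.QInv
import Vale.Agent.P353.AN.E.Zm
import Vale.Agent.P353.AN.E.GLimL
import Vale.Agent.P353.AN.C.Frame
import Vale.Agent.P353.AN.X.All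
import Vale.Agent.P353.AN.X.Root
import Vale.Agent.P353.AN.B.AlgQF
import Vale.Agent.P353.AN.GL.Gau
import Vale.Agent.P353.AN.GL.Mom
import Vale.Agent.P353.AN.GL.Mea
import Vale.Agent.P353.AN.GL.Eqv
import Vale.Agent.P353.AN.GL.GluK
import Vale.Agent.P353.AN.GL.GluBd
import Vale.Agent.P353.AN.GL.Glu
import Vale.Agent.P353.AN.GL.Cnv
import Vale.Agent.P353.AN.GL.Pair
import Vale.Agent.P353.AN.GL.Wgt
import Vale.Agent.P353.AN.GL.Sup
import Vale.Agent.P353.AN.GL.TayT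
import Vale.Agent.P353.AN.GL.TubeJ
import Vale.Agent.P353.AN.A.Norm
import Vale.Agent.P353.AN.A.Dec
import Vale.Agent.P353.AN.A.Det
import Vale.Agent.P353.AN.A.Dexp
import Vale.Agent.P353.AN.A.Coo
import Vale.Agent.P353.AN.A.TubeF
import Vale.Agent.P353.AN.A.Inj
import Vale.Agent.P353.AN.A.Bd
import Vale.Agent.P353.AN.A.Rot

/-! # P353, all `N`, block L (LIO): assembly -/

open MeasureTheory Filter Topology Matrix
open scoped ContDiff

namespace Vale.Agent.P353.Z.AL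

variable {d dh dm r ds n : ℕ} {F : Type*} [NormedAddCommGroup F] [InnerProductSpace ℂ F]

/-- Liouville theorem -/
theorem liouAll {K : Type*} [NormedAddCommGroup K] [InnerProductSpace ℂ K] [CompleteSpace K] (T : Setup r K) :
    AD.LiouStmt T := by
  intro hcut hr L hL f hf hI hC hw
  obtain ⟨h1, h2⟩ := AD.liouA T hcut hr L hL f hf hI hC hw
  exact AD.liouB T hr h1 hI hC h2

theorem det0 (S : Setup d F) : AN.DetStmt S := AN.det_stmt S (AN.dexp_stmt S)

theorem mea0 (S : Setup d F) : AN.MeaStmt S := AN.mea_stmt S (det0 S) (AN.eqv_stmt S)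

theorem tube0 (S : Setup d F) : AN.TubeStmt S :=
  AN.tube_stmt S (det0 S) AN.coo_stmt (AN.inj_stmt S (det0 S) AN.coo_stmt)

theorem norm0 (S : Setup d F) : AN.NormStmt S := AN.norm_stmt S (tube0 S) (AN.dec_stmt S)

theorem tubeJ0 (S : Setup d F) : AN.TubeJStmt S :=
  AN.tubeJ_stmt S (det0 S) AN.coo_stmt (AN.inj_stmt S (det0 S) AN.coo_stmt)

theorem tayT0 (S : Setup d F) : AN.TayTStmt S := AN.tayT_stmt S (AN.bd_stmt S)

theorem pair0 (S : Setup d F) : AN.PairStmt S := AN.pair_stmt S (tubeJ0 S) (AN.eqv_stmt S) (mea0 S)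

theorem wgt0 (S : Setup d F) : AN.WgtStmt S := AN.wgt_stmt S (tayT0 S) (AN.eqv_stmt S) (mea0 S)

theorem gluBd0 (S : Setup d F) : AN.GluBdStmt S :=
  AN.gluBd_stmt S (pair0 S) (mea0 S) (wgt0 S) (AN.sup_stmt S (tube0 S)) (norm0 S)

theorem gluK0 (S : Setup d F) : AN.GluKStmt S := AN.gluK_stmt S (fun S' => gluBd0 S') (AN.rot_stmt S)

theorem datAll (S : Setup d F) : DatStmt S :=
  dat_of S (fun _ _ φ => AX.bunAll S φ) AX.root fun _ S' => ⟨zml S', zmf S'⟩

theorem masKAll (S : Setup d F) : MasKStmt S :=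
  masK_of S (tubK_of S (injU_of S fun _ S' => AP.inj S') (det0 S) AN.coo_stmt) (det0 S) AN.coo_stmt

theorem cnv0 (S : Setup d F) : AN.CnvStmt S := AN.cnv_stmt S (tayT0 S) (AN.eqv_stmt S) (mea0 S) (det0 S)

theorem glu0 (S : Setup d F) : AN.GluStmt S :=
  AN.glu_stmt S (pair0 S) (mea0 S) (wgt0 S) (cnv0 S) (AN.sup_stmt S (tube0 S)) AN.gau_stmt AN.mom_stmt (norm0 S)

theorem gluCAll (S : Setup d F) : GluCStmt S :=
  gluC_of S (glu0 S) (norm0 S) (mea0 S) AN.gau_stmt alg (rad S) supZ (lin S) (tail S) (vg S)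

theorem gluAAll (S : Setup d F) : GluAStmt S := gluA_ofC S (gluCAll S)

/-- uniform bound (mass bound up to the collisions) -/
theorem ubAll (S : Setup d F) : UBStmt S :=
  ub_of S (lin S) (mea0 S) AN.gau_stmt alg (tail S) (vg S) (masKAll S) (gluCAll S)
    (crd_of S (gluK0 S) AN.mom_stmt (rad S) supZ) (null8 S)

/-- no profiles for vanishing energy, from the limit equation -/
theorem spzAll (S : Setup d F) : SpzStmt S :=
  spz_of S (gluAAll S) (sf S) (ubAll S) (iso S) (lin S) (fun _ S' => zml S') AF.cut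

theorem lioE (S : Setup d F)
    (hE : ∀ (dh dm r ds : ℕ) (φ : Spl dh dm d) (ψ : Spl r ds dh), AE.GLimStmt S φ ψ) (hC : AN.Cless S) : AD.LioStmt S :=
  lio_of S hC (datAll S)
    (zero_of S riesz (lin S) (ubAll S) (iso S)
      (eq_of S (fun _ _ _ _ φ ψ => AE.gLimL S φ ψ (hE _ _ _ _ φ ψ)) (AN.frame_stmt S) (AE.qInv S) (fun _ T => AE.zmApp T)
        (ubAll S) (lin S) (iso S))
      (fun _ _ T => liouAll T) AF.cut)
    (spzAll S)

end Vale.Agent.P353.Z.AL
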