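import Vale.Agent.P353.AN.D.StmtL
import Vale.Agent.P353.AN.E.Defs
import Vale.Agent.P353.AN.GL.Stmt
import Vale.Agent.P353.AN.X.VFr

/-! # P353, all `N`, block L (LIO, helper62): definitions

`φ : Spl dh dm d`, `ψ : Spl r ds dh` (`inl` = centre `z`, `inr` = `s`, convention of blocks E, GL; block D uses `spsw ψ`).
`ZZ` is the global functional of block GL with sharp cutoffs; sections are `∑_j b_j(η) U(η) o_j(s)`. -/

open MeasureTheory Filter Topology Matrix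
open scoped ContDiff

namespace Vale.Agent.P353.Z.AL

variable {d dh dm r ds n : ℕ} {F : Type*} [NormedAddCommGroup F] [InnerProductSpace ℂ F]

/-- fibre of the profiles -/
abbrev Ek (n : ℕ) : Type := EuclideanSpace ℂ (Fin n)

/-- section with coefficients `b` in the frame `U(η) o_j(s)` -/
noncomputable def sc (U : Cfg r → F →L[ℂ] F) (o : Fin n → Cfg ds → F) (b : Cfg r → Ek n) (η : Cfg r) (s : Cfg ds) : F :=
  ∑ j, b η j • U η (o j s)

open Classical in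
/-- sharp cutoffs `|x^s| ≤ R^{1/2}`, `|X| ≤ R` -/
noncomputable def chi (R : ℝ) (q : Cfg r × Cfg ds × Cfg dm) : ℝ := if ‖q.2.1‖ ≤ Real.sqrt R ∧ ‖q.2.2‖ ≤ R then 1 else 0

/-- global functional of the section `a` -/
noncomputable def ZZ (κ : ℝ) (φ : Spl dh dm d) (ψ : Spl r ds dh) (Om : Cfg r → Matrix (Fin dm) (Fin dm) ℝ)
    (a : Cfg r → Cfg ds → F) (R : ℝ) (u : Cfg d → F) : ℂ :=
  ∫ x, inner ℂ (AN.Zb φ ψ (fun q => ((chi R q : ℝ) : ℂ) • AN.bG κ Om a q) R x) (u x)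

/-- `L²` sections supported over `A` -/
def Sec2 (A : Set (Cfg r)) (a : Cfg r → Cfg ds → F) : Prop :=
  MemLp (fun q : Cfg r × Cfg ds => a q.1 q.2) 2 (volume.prod volume) ∧ ∀ η s, a η s ≠ 0 → η ∈ A

/-- squared `L²` norm of a section -/
noncomputable def n2 (a : Cfg r → Cfg ds → F) : ℝ := ∫ q : Cfg r × Cfg ds, ‖a q.1 q.2‖ ^ 2 ∂(volume.prod volume)

/-- part of the slice over `R A` -/
def Nr (ψ : Spl r ds dh) (A : Set (Cfg r)) (dm : ℕ) (R ε : ℝ) : Set (Cfg dh × Wsp dm) :=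
  {p | R⁻¹ • AN.hz ψ p.1 ∈ A ∧ ‖AN.hs ψ p.1‖ < ε * R ∧ ‖p.2‖ < ε * R}

/-- slice functional over `R A` -/
noncomputable def Sl (S : Setup d F) (φ : Spl dh dm d) (ψ : Spl r ds dh) (Om : Cfg r → Matrix (Fin dm) (Fin dm) ℝ)
    (A : Set (Cfg r)) (ε : ℝ) (a : Cfg r → Cfg ds → F) (R : ℝ) (u : Cfg d → F) : ℂ :=
  ∫ p in Nr ψ A dm R ε, inner ℂ (AN.Ts0 ψ (AN.vG S φ ψ Om a) R p.1 p.2) (S.res φ u p.1 p.2) ∂(volume.prod volume)

/-- regular scalar points: all roots are different from `0` -/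
def Rg (S : Setup d F) (φ : Spl dh dm d) (ψ : Spl r ds dh) : Set (Cfg r) :=
  {η | (∑ i, S.Dz φ ψ η i * S.Dz φ ψ η i).det ≠ 0}

/-- growth bound of `LioStmt` -/
def Grw (R : ℕ → ℝ) (u : ℕ → Cfg d → F) : Prop :=
  ∃ C : ℝ, ∀ k : ℤ, ∀ᶠ n in atTop, AD.mas (u n) (AD.shl d ((2 : ℝ) ^ k * R n) ((2 : ℝ) ^ (k + 1) * R n)) ≤
    C * (2 : ℝ) ^ (3 * |k|)

/-- vanishing energy in every shell -/
def VanE (S : Setup d F) (R : ℕ → ℝ) (u : ℕ → Cfg d → F) : Prop :=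
  ∀ s t : ℝ, 0 < s → s < t →
    Tendsto (fun n => R n ^ 2 * AD.ena S (u n) (AD.shl d (s * R n) (t * R n))) atTop (𝓝 0)

/-- functions with `L²` norm and compact support in `Ω` -/
def LC (Ω : Set (Cfg r)) (b : Cfg r → Ek n) : Prop :=
  MemLp b 2 (volume : Measure (Cfg r)) ∧ ∃ A, IsCompact A ∧ A ⊆ Ω ∧ ∀ x, x ∉ A → b x = 0

/-- **data of a stratum**: vacuum bundle, orthonormal basis `o` of the zero modes of `s` with values in `K`, and the flat Clifford system `T`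
of the centre fermions on `ℂ^n` -/
structure Dat (S : Setup d F) (φ : Spl dh dm d) (ψ : Spl r ds dh) (L : Finset (Fin r → ℝ))
    (Om : Cfg r → Matrix (Fin dm) (Fin dm) ℝ) (K : Submodule ℂ F) (U : Cfg r → F →L[ℂ] F) (o : Fin n → Cfg ds → F)
    (T : Setup r (Ek n)) : Prop where
  sub : S.IsSub φ
  cen : S.IsCen φ ψ
  bun : AX.Bun S φ (AX.Mz S φ (spsw ψ)) L Om K U
  mem : ∀ j, MemLp (o j) 2 (volume : Measure (Cfg ds))
  zm : ∀ j, AD.ZM (S.int φ ψ sub cen) (o j)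
  ort : ∀ j k, ∫ x, inner ℂ (o j x) (o k x) = if j = k then 1 else 0
  val : ∀ j, ∀ᵐ s ∂(volume : Measure (Cfg ds)), o j s ∈ K
  gam : T.g = S.g
  thT : ∀ α A k, ∀ᵐ s ∂(volume : Measure (Cfg ds)), S.th α (φ (Sum.inl (ψ (Sum.inl A)))) (o k s) =
    ∑ j, T.th α A (EuclideanSpace.single k 1) j • o j s
  full : ∀ o', AD.ZM (S.int φ ψ sub cen) o' → (∀ᵐ s ∂(volume : Measure (Cfg ds)), o' s ∈ K) →
    ∃ c : Fin n → ℂ, ∀ᵐ s ∂(volume : Measure (Cfg ds)), o' s = ∑ j, c j • o j s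

end Vale.Agent.P353.Z.AL
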