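import Vale.Agent.P353.AN.L.Lin

/-! # P353, all `N`, block L: the global functional has an `L²` kernel (prover helper182) -/

open MeasureTheory Filter Topology Matrix
open scoped ContDiff ENNReal

namespace Vale.Agent.P353.Z.AL

variable {d : ℕ} {F : Type*} [NormedAddCommGroup F] [InnerProductSpace ℂ F]

/-- the kernel of `ZZ` is in `L²` -/
theorem zmem0 (S : Setup d F) {dh dm r ds : ℕ} {φ : Spl dh dm d} {ψ : Spl r ds dh}
    {L : Finset (Fin r → ℝ)} {Om : Cfg r → Matrix (Fin dm) (Fin dm) ℝ} {K : Submodule ℂ F} {U : Cfg r → F →L[ℂ] F}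
    (hB : AX.Bun S φ (AX.Mz S φ (spsw ψ)) L Om K U) {A : Set (Cfg r)} (hA : IsCompact A) (hAR : A ⊆ Rg S φ ψ)
    {R : ℝ} (hR : 0 < R) {a : Cfg r → Cfg ds → F} (ha : Sec2 A a) :
    MemLp (AN.Zb φ ψ (fun q => ((chi R q : ℝ) : ℂ) • AN.bG S.κ Om a q) R) 2 (volume : Measure (Cfg d)) := by
  have hdet : ∀ η ∈ A, (∑ i, DM (AX.Mz S φ (spsw ψ)) η i * DM (AX.Mz S φ (spsw ψ)) η i).det ≠ 0 := by
    intro η hη
    have h := hAR hη
    simp only [Rg, Set.mem_ofPred_eq] at h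
    simp only [AX.DM_Dz]
    exact h
  have hO : ∀ B C, ContinuousOn (fun η => Om η B C) A := fun B C =>
    (hB.om_smooth B C).continuousOn.mono fun η hη => hdet η hη
  exact lin_memZ φ ψ S.κ_pos hA hO (fun η hη => hB.om η (hdet η hη)) ha hR

/-- **L-ZMem** (same order of arguments as `LinStmt`) -/
theorem zmem (S : Setup d F) : FiniteDimensional ℂ F → ∀ (dh dm r ds : ℕ) (φ : Spl dh dm d) (ψ : Spl r ds dh)
    (L : Finset (Fin r → ℝ)) (Om : Cfg r → Matrix (Fin dm) (Fin dm) ℝ) (K : Submodule ℂ F) (U : Cfg r → F →L[ℂ] F),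
    AX.Bun S φ (AX.Mz S φ (spsw ψ)) L Om K U → ∀ A, IsCompact A → A ⊆ Rg S φ ψ → ∀ R : ℝ, 0 < R →
    ∀ a : Cfg r → Cfg ds → F, Sec2 A a →
    MemLp (AN.Zb φ ψ (fun q => ((chi R q : ℝ) : ℂ) • AN.bG S.κ Om a q) R) 2 (volume : Measure (Cfg d)) :=
  fun _ _ _ _ _ _ _ _ _ _ _ hB _ hA hAR _ hR _ ha => zmem0 S hB hA hAR hR ha

end Vale.Agent.P353.Z.AL
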