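import Vale.Agent.P353.AN.L.Defs
import Vale.Agent.P353.AN.E.Stmt

/-! # P353, all `N`, block L (LIO, helper62): statements

OUTPUT: `AD.LioStmt S` for centreless `S`. A prover delivers `theorem <name> … : XStmt …` in `Vale/Agent/P353/AN/L/<File>.lean`, importing
this file and landed files of `Z`, `Z/U`, `AN`, with other statements only as hypotheses. -/

open MeasureTheory Filter Topology Matrix
open scoped ContDiff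

namespace Vale.Agent.P353.Z.AL

variable {d dh dm r ds n : ℕ} {F : Type*} [NormedAddCommGroup F] [InnerProductSpace ℂ F]

/-- **L-Riesz** representation of locally bounded antilinear functionals. PROOF. Compact exhaustion `A_m` of `Ω` (`A_m ⊆ interior A_{m+1}`). `A_m` is
covered by finitely many balls of the hypothesis; with the disjoint pieces `B_i = ball_i \ ⋃_{j<i} ball_j` and `b = ∑1_{B_i}b`: `|ℓ b| ≤ C_m‖b‖` for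
`b` supported in `A_m` (so `ℓ` respects a.e. equality). Riesz in `Lp (Ek n) 2 (volume.restrict A_m)` (`InnerProductSpace.toDual`; extend by `0`): `ℓ b = ∫⟨b,F_m⟩`.
Uniqueness: `F_{m+1} = F_m` a.e. on `A_m` (test with `1_{A_m}(F_{m+1}-F_m)`). `f = F_m` on `A_m \ A_{m-1}`. Last part: `b = 1_A f`, `A ⊆ Ω'` compact:
`∫_A‖f‖² = ℓ(b) ≤ C(∫_A‖f‖²)^{1/2}`; exhaust `Ω'` (monotone convergence). -/
def RieszStmt : Prop := ∀ (r n : ℕ) (Ω : Set (Cfg r)) (ℓ : (Cfg r → Ek n) → ℂ), IsOpen Ω →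
  (∀ b b', LC Ω b → LC Ω b' → ℓ (fun x => b x + b' x) = ℓ b + ℓ b') →
  (∀ (c : ℂ) b, LC Ω b → ℓ (fun x => c • b x) = (starRingEnd ℂ) c * ℓ b) →
  (∀ η ∈ Ω, ∃ δ C : ℝ, 0 < δ ∧ ∀ b, LC Ω b → (∀ x, x ∉ Metric.ball η δ → b x = 0) →
    ‖ℓ b‖ ≤ C * Real.sqrt (∫ x, ‖b x‖ ^ 2)) →
  ∃ f : Cfg r → Ek n, AEStronglyMeasurable f (volume : Measure (Cfg r)) ∧
    (∀ A, IsCompact A → A ⊆ Ω → IntegrableOn (fun x => ‖f x‖ ^ 2) A (volume : Measure (Cfg r))) ∧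
    (∀ b, LC Ω b → ℓ b = ∫ x, inner ℂ (b x) (f x)) ∧
    ∀ (Ω' : Set (Cfg r)) (C : ℝ), IsOpen Ω' → Ω' ⊆ Ω → 0 ≤ C →
      (∀ b, LC Ω' b → ‖ℓ b‖ ≤ C * Real.sqrt (∫ x, ‖b x‖ ^ 2)) →
      IntegrableOn (fun x => ‖f x‖ ^ 2) Ω' (volume : Measure (Cfg r)) ∧ ∫ x in Ω', ‖f x‖ ^ 2 ≤ C ^ 2

/-- sequences of gauge invariant test functions with locally (off `0`) bounded mass at scale `R n → ∞` -/
structure SqM (S : Setup d F) (R : ℕ → ℝ) (u : ℕ → Cfg d → F) : Prop where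
  inv : ∀ n, AD.GInv S (u n)
  pos : ∀ n, 0 < R n
  lim : Tendsto R atTop atTop
  bd : ∀ s t : ℝ, 0 < s → s < t → ∃ C : ℝ, ∀ n, AD.mas (u n) (AD.shl d (s * R n) (t * R n)) ≤ C

/-- **L-Rad** radial cutoff. PROOF. `u'(x) = ρ(|x|²/R²)u(x)`, `ρ` smooth, `= 1` on `[s²,t²]`, support in `[s²/4, 4t²]`, `0 ≤ ρ ≤ 1`; `G_C` kills functions of `|x|²`
(`f` antisymmetric): compare `AN/D/NonComm.lean`, `Z/Loc` (`Q_cut`), `Z/U/GrpExp`. -/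
def RadStmt (S : Setup d F) : Prop := ∀ (R : ℕ → ℝ) (u : ℕ → Cfg d → F), SqM S R u → ∀ s t : ℝ, 0 < s → s < t →
  ∃ (u' : ℕ → Cfg d → F) (C : ℝ), (∀ n, AD.GInv S (u' n)) ∧ (∀ n x, s * R n ≤ ‖x‖ → ‖x‖ ≤ t * R n → u' n x = u n x) ∧
    (∀ n, ∫ x, ‖u' n x‖ ^ 2 ≤ C) ∧ ∀ n x, ‖u' n x‖ ≤ ‖u n x‖

/-- **L-Sup** the functional only sees a shell. PROOF: `‖x‖² = ‖x^z‖² + ‖x^s‖² + ‖x^m‖²` (coordinates are permuted), on the support `x^z ∈ R·A`,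
`‖x^s‖ ≤ √R`, `‖x^m‖ ≤ √R`; `A ⊆ shl s t` compact, so `s' ≤ ‖η‖ ≤ t'` on `A` with `s < s'`, `t' < t`. -/
def SupZStmt (F : Type*) [NormedAddCommGroup F] [InnerProductSpace ℂ F] : Prop := ∀ (d dh dm r ds : ℕ) (φ : Spl dh dm d)
  (ψ : Spl r ds dh) (κ : ℝ) (Om : Cfg r → Matrix (Fin dm) (Fin dm) ℝ) (s t : ℝ) (A : Set (Cfg r)), 0 < s → s < t →
  IsCompact A → A ⊆ AD.shl r s t → ∃ R₀ : ℝ, 0 < R₀ ∧ ∀ R : ℝ, R₀ ≤ R → ∀ a : Cfg r → Cfg ds → F, (∀ η x, a η x ≠ 0 → η ∈ A) →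
    (∀ x : Cfg d, AN.Zb φ ψ (fun q => ((chi R q : ℝ) : ℂ) • AN.bG κ Om a q) R x ≠ 0 → x ∈ AD.shl d (s * R) (t * R)) ∧
    ∀ u u' : Cfg d → F, (∀ x ∈ AD.shl d (s * R) (t * R), u x = u' x) → ZZ κ φ ψ Om a R u = ZZ κ φ ψ Om a R u'

/-- **L-Lin** `ZZ` is antilinear in the section. PROOF. `x ↦ Zb(…)(x)` is in `L²`: substitution `x^z = Rη`, `x^s = s`, `x^m = R^{-1/2}X`, and
`chi·bG = 1_{|s| ≤ √R, |X| ≤ R}·Nf(Om η)e^{-½qX}a(η,s)` with `0 < e^{-½qX} ≤ 1`, `Nf(Om η)` continuous, hence bounded, on `A` (`Om` is continuous and positive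
definite on `Rg`; `Gs`, `Kx` are continuous functions of a positive definite matrix), `∫∫‖a‖² < ∞`, `|{|X| ≤ R}| < ∞`. `u ∈ L²`. -/
def LinStmt (S : Setup d F) : Prop := FiniteDimensional ℂ F → ∀ (dh dm r ds : ℕ) (φ : Spl dh dm d) (ψ : Spl r ds dh)
  (L : Finset (Fin r → ℝ)) (Om : Cfg r → Matrix (Fin dm) (Fin dm) ℝ) (K : Submodule ℂ F) (U : Cfg r → F →L[ℂ] F),
  AX.Bun S φ (AX.Mz S φ (spsw ψ)) L Om K U → ∀ A, IsCompact A → A ⊆ Rg S φ ψ → ∀ R : ℝ, 0 < R →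
  ∀ u : Cfg d → F, Setup.Tst u →
    (∀ a, Sec2 A a → Integrable fun x => inner ℂ (AN.Zb φ ψ (fun q => ((chi R q : ℝ) : ℂ) • AN.bG S.κ Om a q) R x) (u x)) ∧
    (∀ a a', Sec2 A a → Sec2 A a' → ZZ S.κ φ ψ Om (fun η s => a η s + a' η s) R u =
      ZZ S.κ φ ψ Om a R u + ZZ S.κ φ ψ Om a' R u) ∧
    ∀ (c : ℂ) a, Sec2 A a → ZZ S.κ φ ψ Om (fun η s => c • a η s) R u = (starRingEnd ℂ) c * ZZ S.κ φ ψ Om a R u

/-- **L-UB** (owner helper714, block MB): uniform bound of the functionals by the mass of the shell; `C` does not depend on `A`. -/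
def UBStmt (S : Setup d F) : Prop := FiniteDimensional ℂ F → AN.Cless S → ∀ (dh dm r ds : ℕ) (φ : Spl dh dm d) (ψ : Spl r ds dh)
  (z₀ : Cfg r), AD.Std2 S φ (spsw ψ) z₀ → ∀ (L : Finset (Fin r → ℝ)) (Om : Cfg r → Matrix (Fin dm) (Fin dm) ℝ) (K : Submodule ℂ F)
  (U : Cfg r → F →L[ℂ] F), AX.Bun S φ (AX.Mz S φ (spsw ψ)) L Om K U → ∃ C : ℝ, 0 < C ∧ ∀ s t : ℝ, 0 < s → s < t →
  ∀ A, IsCompact A → A ⊆ AD.shl r s t → A ⊆ Rg S φ ψ → ∀ (R : ℕ → ℝ) (u : ℕ → Cfg d → F), SqM S R u → ∀ a, Sec2 A a →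
    ∀ e : ℝ, 0 < e → ∀ᶠ n in atTop, ‖ZZ S.κ φ ψ Om a (R n) (u n)‖ ≤
      C * Real.sqrt (n2 a) * Real.sqrt (AD.mas (u n) (AD.shl d (s * R n) (t * R n))) + e

/-- **L-Iso** norm of sections. PROOF. `U` is continuous on the open set `(Coll L)ᶜ ⊇ A`, so `(η,s) ↦ b_j(η)U(η)o_j(s)` is a.e. strongly measurable
(`1_A(η)b_j(η)U(η)` is, and `o_j` is; evaluation is continuous); `⟨U o_j(s), U o_k(s)⟩ = ⟨o_j(s),o_k(s)⟩`, integrate over `s` (`ort`), then over `η`. -/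
def IsoStmt (S : Setup d F) : Prop := ∀ (dh dm r ds n : ℕ) (φ : Spl dh dm d) (ψ : Spl r ds dh)
  (L : Finset (Fin r → ℝ)) (Om : Cfg r → Matrix (Fin dm) (Fin dm) ℝ) (K : Submodule ℂ F) (U : Cfg r → F →L[ℂ] F)
  (o : Fin n → Cfg ds → F) (T : Setup r (Ek n)), Dat S φ ψ L Om K U o T → ∀ A, IsCompact A → A ⊆ (Coll L)ᶜ →
  ∀ b : Cfg r → Ek n, MemLp b 2 (volume : Measure (Cfg r)) → (∀ x, x ∉ A → b x = 0) →
    Sec2 A (sc U o b) ∧ n2 (sc U o b) = ∫ x, ‖b x‖ ^ 2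

/-- **L-Eq** limit equation for vanishing energy (from block E `GLimStmt`, see `StmtB`) -/
def LEqStmt (S : Setup d F) : Prop := FiniteDimensional ℂ F → AN.Cless S → ∀ (dh dm r ds n : ℕ) (φ : Spl dh dm d) (ψ : Spl r ds dh)
  (z₀ : Cfg r), AD.Std2 S φ (spsw ψ) z₀ →
  ∀ (L : Finset (Fin r → ℝ)) (Om : Cfg r → Matrix (Fin dm) (Fin dm) ℝ) (K : Submodule ℂ F) (U : Cfg r → F →L[ℂ] F)
  (o : Fin n → Cfg ds → F) (T : Setup r (Ek n)), Dat S φ ψ L Om K U o T → ∀ (R : ℕ → ℝ) (u : ℕ → Cfg d → F), AD.Sq S R u →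
  VanE S R u → ∀ β, ∀ b : Cfg r → Ek n, AD.TOff L b →
    Tendsto (fun n => ZZ S.κ φ ψ Om (sc U o (T.Q0 β b)) (R n) (u n)) atTop (𝓝 0)

/-- **L-Zero** all profiles vanish. PROOF. `Ω = (Coll L ∪ {0})ᶜ` (open, `Bun.closed`). Suppose `ZZ_n(b₀)` does not tend to `0`: `∃ᶠ n, e ≤ ‖ZZ_n(b₀)‖`; take an
ultrafilter `𝒰 ≤ atTop ⊓ 𝓟 {n | e ≤ ‖ZZ_n(b₀)‖}`. For `b ∈ LC Ω` the sequence `ZZ_n(b) = ZZ (sc U o b) (R n) (u n)` is eventually bounded (UB, Iso, `Sq.bd`; a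
compact subset of `Ω` lies in a shell), so it converges along `𝒰`; `ℓ(b)` = limit. Additive, antilinear (L-Lin). UB and Iso: `|ℓ(b)| ≤ C‖b‖M^{1/2}` if `b` is supported in
`shl s t` and `mas ≤ M` eventually. L-Riesz gives `f`. With `Ω' = shl r s t \ Coll L`: `IntegrableOn ‖f‖² (shl r s t)` (`Coll L` is a null set: `AF.CutStmt`); with
`Ω' = dsh r k \ Coll L`: `∫_{dsh k}‖f‖² ≤ C²C₁2^{3|k|}`. L-Eq: `∫⟨T.Q0 β ζ, f⟩ = ℓ(T.Q0 β ζ) = 0` for `ζ ∈ TOff L`. `AD.LiouStmt T` gives `f = 0`, so `ℓ(b₀) = 0`,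
contradiction. (`r = 0`: `Ω = ∅`.) -/
def ZeroStmt (S : Setup d F) : Prop := FiniteDimensional ℂ F → AN.Cless S → ∀ (dh dm r ds n : ℕ) (φ : Spl dh dm d) (ψ : Spl r ds dh)
  (z₀ : Cfg r), AD.Std2 S φ (spsw ψ) z₀ →
  ∀ (L : Finset (Fin r → ℝ)) (Om : Cfg r → Matrix (Fin dm) (Fin dm) ℝ) (K : Submodule ℂ F) (U : Cfg r → F →L[ℂ] F)
  (o : Fin n → Cfg ds → F) (T : Setup r (Ek n)), Dat S φ ψ L Om K U o T → ∀ (R : ℕ → ℝ) (u : ℕ → Cfg d → F), AD.Sq S R u →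
  Grw R u → VanE S R u → ∀ b : Cfg r → Ek n, LC ((Coll L ∪ {0})ᶜ) b →
    Tendsto (fun n => ZZ S.κ φ ψ Om (sc U o b) (R n) (u n)) atTop (𝓝 0)

def ZeroOfStmt (S : Setup d F) : Prop := RieszStmt → LinStmt S → UBStmt S → IsoStmt S → LEqStmt S →
  (∀ (r n : ℕ) (T : Setup r (Ek n)), AD.LiouStmt T) → (∀ r, AF.CutStmt r) → ZeroStmt S

/-- **L-Tail** tails of the scaled slice functions. PROOF: substitution `y^z = Rη`, `w = R^{-1/2}ω` (`MeaStmt`, second part, applied to `v` times an indicator):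
`= ∫_{‖s‖ ≥ εR or ‖ω‖ ≥ εR^{3/2}}‖v‖² → 0`. -/
def TailStmt (S : Setup d F) : Prop := FiniteDimensional ℂ F → AN.MeaStmt S → ∀ (dh dm r ds : ℕ) (φ : Spl dh dm d)
  (ψ : Spl r ds dh), S.IsSub φ → ∀ v : Cfg r → Cfg ds → Wsp dm → F,
  MemLp (fun q : Cfg r × Cfg ds × Wsp dm => v q.1 q.2.1 q.2.2) 2 (volume.prod (volume.prod volume)) →
    (∀ R : ℝ, 0 < R → MemLp (fun p : Cfg dh × Wsp dm => AN.Ts0 ψ v R p.1 p.2) 2 (volume.prod volume) ∧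
      ∫ p : Cfg dh × Wsp dm, ‖AN.Ts0 ψ v R p.1 p.2‖ ^ 2 ∂(volume.prod volume) =
        ∫ q : Cfg r × Cfg ds × Wsp dm, ‖v q.1 q.2.1 q.2.2‖ ^ 2 ∂(volume.prod (volume.prod volume))) ∧
    ∀ ε : ℝ, 0 < ε → Tendsto (fun R : ℝ => ∫ p in {p : Cfg dh × Wsp dm | ε * R ≤ ‖AN.hs ψ p.1‖ ∨ ε * R ≤ ‖p.2‖},
      ‖AN.Ts0 ψ v R p.1 p.2‖ ^ 2 ∂(volume.prod volume)) atTop (𝓝 0)

/-- **L-VG** the slice section is normalised. PROOF: `GauStmt` (`0 < ∫gR²`, integrable), Fubini; measurability: `(η,w) ↦ gR (Dz η)(Om η) 1 w` is continuous on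
`A × Wsp` (`Om` continuous; `D_8⁻¹`, `t2⁻¹` continuous where the determinants do not vanish), `η ↦ ∫gR²` is measurable (`StronglyMeasurable.integral_prod_right`). -/
def VGStmt (S : Setup d F) : Prop := FiniteDimensional ℂ F → AN.GauStmt → AlgStmt → ∀ (dh dm r ds : ℕ) (φ : Spl dh dm d)
  (ψ : Spl r ds dh) (Om : Cfg r → Matrix (Fin dm) (Fin dm) ℝ) (A : Set (Cfg r)), IsCompact A →
  (∀ η ∈ A, Frz (AN.Dz S φ ψ η) ∧ IsOm S.κ (AN.Dz S φ ψ η) (Om η)) → ContinuousOn Om A → ∀ a, Sec2 A a →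
    MemLp (fun q : Cfg r × Cfg ds × Wsp dm => AN.vG S φ ψ Om a q.1 q.2.1 q.2.2) 2 (volume.prod (volume.prod volume)) ∧
    ∫ q : Cfg r × Cfg ds × Wsp dm, ‖AN.vG S φ ψ Om a q.1 q.2.1 q.2.2‖ ^ 2 ∂(volume.prod (volume.prod volume)) = n2 a

/-- **L-GluA** global functional = slice functional over a small ball in the standard frame, with PRESCRIBED slice radius `ε`. PROOF. `Std S φ (cmb ψ z 0)` for all `z`
near `z₀` (`det D_8 ≠ 0` is open), `Frz` from `AX.frz_Dz`. Choose `ε₀` such that `Nr ψ (closedBall z₀ ε₀) dm R ε₀ ⊆ Nb (cmb ψ z₀ 0) dm R ε₁`, `ε₁` = radius of `NormStmt` at `z₀` (so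
`∫_{Nr}‖res u_n‖² ≤ C`). Fix `ε ≤ ε₀`. For each `z ∈ closedBall z₀ ε` `GluStmt` at `z` with a slice radius `ε_z` (also `≤` radius of `NormStmt` at `z`) gives `δ_z`; finitely many
balls `B(z_k,δ_k)` cover; `A_k` = disjoint Borel pieces; `a = ∑1_{A_k}a`, `ZZ` and `Sl` are additive (L-Lin). For each piece (with `u'` of L-Rad; `ZZ` does not change by L-Sup; the slice integrals
do not change since `Nb`, `Nr` lie in a shell): `ZZ(1_{A_k}a) - ∫_{Nb(z_k)}⟨Ts0 (vG 1_{A_k}a), res u⟩ → 0` (cutoffs `chi (R n)` are admissible for large `n`; change them to `0` for the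
finitely many other `n`), and `|∫_{Nb(z_k,R,ε_k)} - ∫_{Nr A R ε}| ≤ ` (norm of `Ts0(vG a)` on `{‖s‖ ≥ ε'R or ‖w‖ ≥ ε'R}`) × (norm of `res u` on `Nb ∪ Nr`) `→ 0` (L-Tail, L-VG, `NormStmt`). -/
def GluAStmt (S : Setup d F) : Prop := FiniteDimensional ℂ F → ∀ (dh dm r ds : ℕ) (φ : Spl dh dm d) (ψ : Spl r ds dh)
  (z₀ : Cfg r), AD.Std2 S φ (spsw ψ) z₀ → z₀ ≠ 0 → ∀ (L : Finset (Fin r → ℝ)) (Om : Cfg r → Matrix (Fin dm) (Fin dm) ℝ)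
  (K : Submodule ℂ F) (U : Cfg r → F →L[ℂ] F), AX.Bun S φ (AX.Mz S φ (spsw ψ)) L Om K U → ∃ ε₀ : ℝ, 0 < ε₀ ∧
  (∀ η ∈ Metric.closedBall z₀ ε₀, (S.Dz φ ψ η 8).det ≠ 0 ∧ η ∈ Rg S φ ψ) ∧
  ∀ ε : ℝ, 0 < ε → ε ≤ ε₀ → ∀ (R : ℕ → ℝ) (u : ℕ → Cfg d → F), SqM S R u → ∀ a, Sec2 (Metric.closedBall z₀ ε) a →
    Tendsto (fun n => ZZ S.κ φ ψ Om a (R n) (u n) - Sl S φ ψ Om (Metric.closedBall z₀ ε) ε a (R n) (u n)) atTop (𝓝 0)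

def GluAOfStmt (S : Setup d F) : Prop := AN.GluStmt S → AN.NormStmt S → AN.MeaStmt S → AN.GauStmt → AlgStmt → RadStmt S → SupZStmt F →
  LinStmt S → TailStmt S → VGStmt S → GluAStmt S

/-- **L-Sf** `sfun` is the slice functional of the section `χ(η)Π_{F0(η)}o(s)`. PROOF. `omc (Dz yz) = Om yz` (`AX.omc_eq`, `OmUStmt`); homogeneity: `gR (R•D) (R•Om) 1 w = gR D Om 1 (√R w)`
(`tI`, `VV` do not change), `∫gR(R•D)² = R^{-4dm}∫gR(D)²`, `F0 (R•D)(R•Om) = F0 D Om` (`F0Stmt`), `Dz (R•yz) = R•Dz yz`, `Om (R•yz) = R•Om yz` (`Bun.om_scale`); so for `yz = Rη`: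
`R^{-9r/2}χ(η)vcz(yz)(o(ys))(w) = Ts0(vG a)R (cmb yz ys) w`, `a(η,s) = χ(η)Π o(s)`. Fubini for the bounded region (`y ↔ (yz,ys)` measure preserving; the integrand is integrable:
`o ∈ L²`, `res u` bounded, bounded region) turns the iterated integrals into the integral over `Nr`. -/
def SfStmt (S : Setup d F) : Prop := ∀ _ : FiniteDimensional ℂ F, ∀ (dh dm r ds : ℕ) (φ : Spl dh dm d) (ψ : Spl r ds dh)
  (z₀ : Cfg r), AD.Std2 S φ (spsw ψ) z₀ → ∀ (L : Finset (Fin r → ℝ)) (Om : Cfg r → Matrix (Fin dm) (Fin dm) ℝ)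
  (K : Submodule ℂ F) (U : Cfg r → F →L[ℂ] F), AX.Bun S φ (AX.Mz S φ (spsw ψ)) L Om K U →
  ∀ ε : ℝ, 0 < ε → (∀ η ∈ Metric.closedBall z₀ ε, (S.Dz φ ψ η 8).det ≠ 0) →
  ∀ χ : Cfg r → ℝ, ContDiff ℝ ∞ χ → tsupport χ ⊆ Metric.ball z₀ ε → ∀ o : Cfg ds → F, MemLp o 2 (volume : Measure (Cfg ds)) →
    Sec2 (Metric.closedBall z₀ ε) (fun η s => ((χ η : ℝ) : ℂ) • (S.F0 φ (S.Dz φ ψ η) (Om η)).starProjection (o s)) ∧
    ∀ R : ℝ, 0 < R → ∀ u : Cfg d → F, Setup.Tst u →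
      AD.sfun S φ (spsw ψ) ε R χ o u = Sl S φ ψ Om (Metric.closedBall z₀ ε) ε
        (fun η s => ((χ η : ℝ) : ℂ) • (S.F0 φ (S.Dz φ ψ η) (Om η)).starProjection (o s)) R u

/-- **L-ZML** zero modes form a space stable under operators (anti)commuting with the fermions of `S`. PROOF. `u_n → o` in `L²`, `u_n ∈ GInv`, `En → 0`; `A∘u_n` is a test function,
`G_C(A∘u) = A∘(G_Cu)` (`A` commutes with the bilinears `cS`), `Q_β(A∘u) = ±A∘(Q_βu)`. -/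
def ZMLStmt (S : Setup d F) : Prop :=
  (∀ o o', AD.ZM S o → AD.ZM S o' → AD.ZM S fun x => o x + o' x) ∧ (∀ (c : ℂ) o, AD.ZM S o → AD.ZM S fun x => c • o x) ∧
  (∀ o o' : Cfg d → F, AD.ZM S o → (∀ᵐ x ∂(volume : Measure (Cfg d)), o' x = o x) → AD.ZM S o') ∧
  (∀ o, AD.ZM S o → MemLp o 2 (volume : Measure (Cfg d))) ∧
  ∀ A : F →L[ℂ] F, ((∀ α B, A * S.th α B = S.th α B * A) ∨ (∀ α B, A * S.th α B = -(S.th α B * A))) →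
    ∀ o, AD.ZM S o → AD.ZM S fun x => A (o x)

/-- **L-ZMF** the zero modes are spanned by the functions `o_j` of `ICStmt`. PROOF: `o ∈ ZM`, `u_n → o`: `mas(u_n - ∑⟨o_j,u_n⟩o_j)(ball 0 ρ) ≤ Cρ²En(u_n) → 0`, so
`o = ∑⟨o_j,o⟩o_j` a.e. on every ball. -/
def ZMFStmt (S : Setup d F) : Prop := ∀ (n : ℕ) (o : Fin n → Cfg d → F) (C : ℝ), (∀ j, AD.ZM S (o j)) →
  (∀ j k, ∫ x, inner ℂ (o j x) (o k x) = if j = k then 1 else 0) →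
  (∀ ρ : ℝ, 1 ≤ ρ → ∀ u, AD.GInv S u →
    AD.mas (fun x => u x - ∑ j, (∫ z, inner ℂ (o j z) (u z)) • o j x) (Metric.ball 0 ρ) ≤ C * ρ ^ 2 * AD.En S u) →
  ∀ o', AD.ZM S o' → ∀ᵐ x ∂(volume : Measure (Cfg d)), o' x = ∑ j, (∫ z, inner ℂ (o j z) (o' z)) • o j x

/-- **L-Dat** data of a stratum exist. PROOF. `AX`: `tor_Mz`, `RootStmt`, `BunStmt` give `L, Om, K, U`. `W` = space of zero modes of `s` with values in `K` a.e. (in `L²(Cfg ds;F)`): finite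
dimensional (L-ZMF, `ICStmt h.ss`; note `h.ss = S.int φ ψ …` up to `spsw (spsw ψ) = ψ`, here it is literally `S.int`), orthonormal basis `o_j` (`exists_orthonormalBasis` in `Lp`, take
representatives). `θ^z` maps `W` to `W` (L-ZML: it anticommutes with `θ^s`; `Bun.K_th`), so `T.th α A` = its matrix; `T.g = S.g`, `T.f = 0`, `T.κ = 1`; anticommutation and self-adjointness are inherited. -/
def DatStmt (S : Setup d F) : Prop := FiniteDimensional ℂ F → ∀ (dh dm r ds : ℕ) (φ : Spl dh dm d) (ψ : Spl r ds dh)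
  (z₀ : Cfg r) (h : AD.Std2 S φ (spsw ψ) z₀), AD.ICStmt h.ss →
  ∃ (L : Finset (Fin r → ℝ)) (Om : Cfg r → Matrix (Fin dm) (Fin dm) ℝ) (K : Submodule ℂ F) (U : Cfg r → F →L[ℂ] F) (n : ℕ)
    (o : Fin n → Cfg ds → F) (T : Setup r (Ek n)), Dat S φ ψ L Om K U o T

def DatOfStmt (S : Setup d F) : Prop := (∀ (dh dm : ℕ) (φ : Spl dh dm d), AX.BunStmt S φ) → AX.RootStmt →
  (∀ (e : ℕ) (S' : Setup e F), ZMLStmt S' ∧ ZMFStmt S') → DatStmt S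

/-- **L-Spz** back to the slice functionals. PROOF. `a(η,s) = χ(η)Π_{F0(η)}o(s)`; by L-Sf and L-GluA it is enough that `ZZ_n(a) → 0`. For `η ∉ Coll L`: `Π_{F0(η)} = U(η)Π_KU(η)⁻¹`
(`Bun.U_mem`, `U` unitary), `U(η)⁻¹` commutes with `θ^h` (`U_comm`), so `s ↦ Π_KU(η)⁻¹o(s)` is a zero mode with values in `K` (L-ZML), `= ∑c_j(η)o_j`, `c_j(η) = ⟨o_j,U(η)⁻¹o⟩ = ∫⟨U(η)o_j(s),o(s)⟩ds`
(`Dat.full`, `ort`), bounded and continuous off `Coll L`. So `a = sc U o b` a.e., `b = χc`. With the cutoffs `η_m` of `AF.CutStmt` `b_m = η_mb ∈ LC (Coll L ∪ {0})ᶜ` (`ε₀ < ‖z₀‖`), `ZZ_n(sc U o b_m) → 0`, and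
`|ZZ_n(a - sc U o b_m)| ≤ C·(n2)^{1/2}M^{1/2} + e` (L-UB, `closedBall z₀ ε ⊆ shl s t ∩ Rg`), `n2(a - sc U o b_m) = ∫(1-η_m)²‖b‖² → 0`. -/
def SpzStmt (S : Setup d F) : Prop := ∀ _ : FiniteDimensional ℂ F, AN.Cless S → ∀ (dh dm r ds n : ℕ) (φ : Spl dh dm d)
  (ψ : Spl r ds dh) (z₀ : Cfg r) (h : AD.Std2 S φ (spsw ψ) z₀), z₀ ≠ 0 →
  ∀ (L : Finset (Fin r → ℝ)) (Om : Cfg r → Matrix (Fin dm) (Fin dm) ℝ) (K : Submodule ℂ F) (U : Cfg r → F →L[ℂ] F)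
  (o : Fin n → Cfg ds → F) (T : Setup r (Ek n)), Dat S φ ψ L Om K U o T → ∃ ε₀ : ℝ, 0 < ε₀ ∧ ∀ ε : ℝ, 0 < ε → ε ≤ ε₀ →
  ∀ (R : ℕ → ℝ) (u : ℕ → Cfg d → F), SqM S R u →
    (∀ b : Cfg r → Ek n, LC ((Coll L ∪ {0})ᶜ) b → Tendsto (fun n => ZZ S.κ φ ψ Om (sc U o b) (R n) (u n)) atTop (𝓝 0)) →
    AD.SPZ S φ (spsw ψ) z₀ h ε R u

def SpzOfStmt (S : Setup d F) : Prop := GluAStmt S → SfStmt S → UBStmt S → IsoStmt S → LinStmt S →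
  (∀ (e : ℕ) (S' : Setup e F), ZMLStmt S') → (∀ r, AF.CutStmt r) → SpzStmt S

/-- **L-Lio** OUTPUT. PROOF: `ψ' = spsw ψ` with `ψ = spsw ψ'`; `z₀ ≠ 0`; L-Dat, L-Zero, L-Spz; `l = id`. -/
def LioOfStmt (S : Setup d F) : Prop := AN.Cless S → DatStmt S → ZeroStmt S → SpzStmt S → AD.LioStmt S

/-- **L-Appr** approximation of zero modes with values in `K` by gauge invariant test functions with values in `K`, supported in `‖s‖ ≤ η_nR_n` (input of block E).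
PROOF. `u_k → o`, `En(u_k) → 0`; `Π_K∘u_k` (L-ZML: `Π_K` commutes with `θ`, since `K` is invariant and `θ` self-adjoint). `t(ρ) = ∫_{‖x‖ ≥ ρ}‖o‖²`; `η_n = min(e₀, max(t(√R_n/2)^{1/4}, R_n^{-1/2}))`-like:
`η_n → 0`, `η_nR_n ≥ √R_n` (for large `n`), `t(η_nR_n/2)/η_n² → 0`. `Φ_n = c(‖x‖²/(η_nR_n)²)·Π_Ku_{k(n)}`, `k(n)` so large that `R_n²En(u_k)`, `‖u_k-o‖²/η_n²` are `≤ 1/n`. `‖Q_β(χu)‖² ≤ 2‖χQ_βu‖² + C(η_nR_n)⁻²∫_{η_nR_n/2 ≤ ‖x‖}‖u‖²`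
(`Q_cut` in `Z/Loc`). Gradient: `8∑‖∂Φ‖² ≤ En(Φ) + C∫‖x‖‖Φ‖² ≤ En + Cη_nR_n‖Φ‖²` (`Z/Energy`, `Fx`). -/
def ApprStmt (S : Setup d F) : Prop := FiniteDimensional ℂ F → ∀ K : Submodule ℂ F, (∀ α A, ∀ v ∈ K, S.th α A v ∈ K) →
  ∀ o, AD.ZM S o → (∀ᵐ x ∂(volume : Measure (Cfg d)), o x ∈ K) →
  ∀ R : ℕ → ℝ, Tendsto R atTop atTop → (∀ n, 1 ≤ R n) → ∀ e₀ : ℝ, 0 < e₀ →
    ∃ (η : ℕ → ℝ) (Φ : ℕ → Cfg d → F), (∀ n, 0 < η n ∧ η n ≤ e₀) ∧ Tendsto η atTop (𝓝 0) ∧ (∀ n, AD.GInv S (Φ n)) ∧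
      (∀ n, AE.IntF K (η n) (R n) (Φ n)) ∧ L2t Φ o ∧
      Tendsto (fun n => R n ^ 2 * ∑ β, nsq (S.Q β (Φ n))) atTop (𝓝 0) ∧
      Tendsto (fun n => (∑ i, ∑ A, nsq (pd i A (Φ n))) / R n) atTop (𝓝 0)

end Vale.Agent.P353.Z.AL
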