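import Vale.Agent.P353.AN.L.Stmt
import Vale.Agent.P353.AN.GL.Wgt

/-! # P353, all `N`, block L: comparison of slice integrals over two regions (part of `GluAOfStmt`) -/

open MeasureTheory Filter Topology Matrix
open scoped ContDiff

namespace Vale.Agent.P353.Z.AL

set_option linter.unusedSectionVars false

variable {d dh dm r ds n : ℕ} {F : Type*} [NormedAddCommGroup F] [InnerProductSpace ℂ F]

/-- Cauchy–Schwarz for the `L²` pairing -/
theorem gb459_cs {X : Type*} [MeasurableSpace X] {μ : Measure X} {T g : X → F} (hT : MemLp T 2 μ) (hg : MemLp g 2 μ) :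
    ‖∫ p, inner ℂ (T p) (g p) ∂μ‖ ≤ Real.sqrt (∫ p, ‖T p‖ ^ 2 ∂μ) * Real.sqrt (∫ p, ‖g p‖ ^ 2 ∂μ) := by
  have h1 : ‖∫ p, inner ℂ (T p) (g p) ∂μ‖ ≤ ∫ p, ‖T p‖ * ‖g p‖ ∂μ := by
    refine norm_integral_le_of_norm_le ?_ (Eventually.of_forall fun p => norm_inner_le_norm _ _)
    exact hT.norm.integrable_mul hg.norm
  have h2 := integral_mul_le_Lp_mul_Lq_of_nonneg (μ := μ) (p := 2) (q := 2) Real.HolderConjugate.two_two
    (f := fun p => ‖T p‖) (g := fun p => ‖g p‖) (Eventually.of_forall fun p => norm_nonneg _)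
    (Eventually.of_forall fun p => norm_nonneg _) (by simpa using hT.norm) (by simpa using hg.norm)
  refine h1.trans (h2.trans (le_of_eq ?_))
  simp only [Real.sqrt_eq_rpow, Real.rpow_two]

/-- monotonicity of the square integral in the region -/
theorem gb459_mono {X : Type*} [MeasurableSpace X] {μ : Measure X} {T : X → F} {A B : Set X} (hAB : A ⊆ B)
    (hT : MemLp T 2 (μ.restrict B)) : ∫ p in A, ‖T p‖ ^ 2 ∂μ ≤ ∫ p in B, ‖T p‖ ^ 2 ∂μ := by
  have hi : IntegrableOn (fun p => ‖T p‖ ^ 2) B μ := by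
    have := hT.integrable_norm_pow (p := 2) two_ne_zero
    simpa [IntegrableOn] using this
  exact setIntegral_mono_set hi (Eventually.of_forall fun p => by positivity) (LE.le.eventuallyLE hAB)

/-- the pairings over two regions differ little if the regions agree, outside `B`, on the support of `T` -/
theorem gb459_cmp {X : Type*} [MeasurableSpace X] {μ : Measure X} {T g : X → F} {N₁ N₂ B : Set X}
    (h1 : MeasurableSet N₁) (h2 : MeasurableSet N₂) (hB : MeasurableSet B)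
    (hT : MemLp T 2 μ) (hg1 : MemLp g 2 (μ.restrict N₁)) (hg2 : MemLp g 2 (μ.restrict N₂))
    (h : ∀ p, T p ≠ 0 → p ∉ B → (p ∈ N₁ ↔ p ∈ N₂)) :
    ‖(∫ p in N₁, inner ℂ (T p) (g p) ∂μ) - ∫ p in N₂, inner ℂ (T p) (g p) ∂μ‖ ≤
      Real.sqrt (∫ p in B, ‖T p‖ ^ 2 ∂μ) *
        (Real.sqrt (∫ p in N₁, ‖g p‖ ^ 2 ∂μ) + Real.sqrt (∫ p in N₂, ‖g p‖ ^ 2 ∂μ)) := by
  have hint : ∀ N : Set X, MemLp g 2 (μ.restrict N) → IntegrableOn (fun p => inner ℂ (T p) (g p)) N μ := by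
    intro N hg
    refine Integrable.mono' ((hT.restrict N).norm.integrable_mul hg.norm) ((hT.restrict N).1.inner hg.1)
      (Eventually.of_forall fun p => norm_inner_le_norm _ _)
  have key : ∀ N : Set X, MeasurableSet N → MemLp g 2 (μ.restrict N) →
      ‖∫ p in N ∩ B, inner ℂ (T p) (g p) ∂μ‖ ≤
        Real.sqrt (∫ p in B, ‖T p‖ ^ 2 ∂μ) * Real.sqrt (∫ p in N, ‖g p‖ ^ 2 ∂μ) := by
    intro N hN hg
    have hTr : MemLp T 2 (μ.restrict (N ∩ B)) := hT.restrict _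
    have hgr : MemLp g 2 (μ.restrict (N ∩ B)) := hg.mono_measure (Measure.restrict_mono Set.inter_subset_left le_rfl)
    refine (gb459_cs hTr hgr).trans ?_
    refine mul_le_mul (Real.sqrt_le_sqrt ?_) (Real.sqrt_le_sqrt ?_) (Real.sqrt_nonneg _) (Real.sqrt_nonneg _)
    · exact gb459_mono Set.inter_subset_right (hT.restrict _)
    · exact gb459_mono Set.inter_subset_left hg
  have e1 : ∫ p in N₁, inner ℂ (T p) (g p) ∂μ =
      (∫ p in N₁ ∩ B, inner ℂ (T p) (g p) ∂μ) + ∫ p in N₁ \ B, inner ℂ (T p) (g p) ∂μ :=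
    (integral_inter_add_sdiff hB (hint N₁ hg1)).symm
  have e2 : ∫ p in N₂, inner ℂ (T p) (g p) ∂μ =
      (∫ p in N₂ ∩ B, inner ℂ (T p) (g p) ∂μ) + ∫ p in N₂ \ B, inner ℂ (T p) (g p) ∂μ :=
    (integral_inter_add_sdiff hB (hint N₂ hg2)).symm
  have e3 : ∫ p in N₁ \ B, inner ℂ (T p) (g p) ∂μ = ∫ p in N₂ \ B, inner ℂ (T p) (g p) ∂μ := by
    rw [← integral_indicator (h1.diff hB), ← integral_indicator (h2.diff hB)]
    congr 1
    funext p
    by_cases hTp : T p = 0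
    · simp only [Set.indicator, hTp, inner_zero_left, ite_self]
    · have hiff : p ∈ N₁ \ B ↔ p ∈ N₂ \ B :=
        ⟨fun hh => ⟨(h p hTp hh.2).1 hh.1, hh.2⟩, fun hh => ⟨(h p hTp hh.2).2 hh.1, hh.2⟩⟩
      by_cases hp : p ∈ N₁ \ B
      · rw [Set.indicator_of_mem hp, Set.indicator_of_mem (hiff.1 hp)]
      · rw [Set.indicator_of_notMem hp, Set.indicator_of_notMem (fun hh => hp (hiff.2 hh))]
  rw [e1, e2, e3, add_sub_add_right_eq_sub]
  refine (norm_sub_le _ _).trans ?_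
  rw [mul_add]
  exact add_le_add (key N₁ h1 hg1) (key N₂ h2 hg2)

end Vale.Agent.P353.Z.AL
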