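import Vale.Agent.P353.AN.L.Stmt

/-! # P353, all `N`, block L: assembly of `LioStmt` -/

open MeasureTheory Filter Topology Matrix
open scoped ContDiff

namespace Vale.Agent.P353.Z.AL

variable {d dh dm r ds n : ℕ} {F : Type*} [NormedAddCommGroup F] [InnerProductSpace ℂ F]

theorem lio_spsw (ψ : Spl ds r dh) : spsw (spsw ψ) = ψ := by
  apply Equiv.ext
  intro x
  cases x <;> rfl

theorem lio_sqM {S : Setup d F} {R : ℕ → ℝ} {u : ℕ → Cfg d → F} (h : AD.Sq S R u) : SqM S R u where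
  inv := h.inv
  pos := h.pos
  lim := h.lim
  bd := by
    intro s t hs ht
    obtain ⟨C, hC⟩ := h.bd s t hs ht
    refine ⟨C, fun n => ?_⟩
    have h1 := hC n
    have h2 : 0 ≤ R n ^ 2 * AD.ena S (u n) (AD.shl d (s * R n) (t * R n)) := by
      refine mul_nonneg (sq_nonneg _) (Finset.sum_nonneg fun β _ => ?_)
      exact integral_nonneg fun x => by positivity
    linarith

theorem lio_cmb_zero (φ : Spl dh dm d) (ψ : Spl ds r dh) : emb φ (AD.cmb ψ 0 (0 : Cfg r)) 0 = 0 := by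
  ext p
  rcases h : φ.symm p.2 with A | B
  · rcases h2 : ψ.symm A with a | b
    · simp [emb, AD.cmb, h]
    · simp [emb, AD.cmb, h]
  · have h3 : ∀ i : Fin 9, Fin.lastCases (motive := fun _ => ℝ) 0 (fun j => (0 : Wsp dm) (j, B)) i = 0 := by
      intro i
      induction i using Fin.lastCases with
      | last => exact Fin.lastCases_last
      | cast j => simp
    simpa [emb, h] using h3 p.1

theorem lio_of (S : Setup d F) : LioOfStmt S := by
  intro hC hD hZ hP hF dh dm ds dz φ ψ' z₀ h hne hIC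
  obtain ⟨ψ, rfl⟩ : ∃ ψ : Spl dz ds dh, ψ' = spsw ψ := ⟨spsw ψ', (lio_spsw ψ').symm⟩
  have hz : z₀ ≠ 0 := by
    rintro rfl
    exact hne (lio_cmb_zero φ (spsw ψ))
  obtain ⟨L, Om, K, U, n, o, T, hdat⟩ := hD hF dh dm dz ds φ ψ z₀ h hIC
  obtain ⟨ε₀, hε₀, hmain⟩ := hP hF hC dh dm dz ds n φ ψ z₀ h hz L Om K U o T hdat
  refine ⟨ε₀, hε₀, fun ε hε hε' R u hSq hG hV => ⟨id, strictMono_id, ?_⟩⟩
  exact hmain ε hε hε' R u (lio_sqM hSq)
    (hZ hF hC dh dm dz ds n φ ψ z₀ h L Om K U o T hdat R u hSq hG hV)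

end Vale.Agent.P353.Z.AL
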