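import Vale.Agent.P353.AN.L.All
import Vale.Agent.P353.AN.E.All

/-! # P353, all `N`, block L: the Liouville statement, no hypothesis left but `Cless` -/

open MeasureTheory Filter Topology Matrix
open scoped ContDiff

namespace Vale.Agent.P353.Z.AL

variable {d : ℕ} {F : Type*} [NormedAddCommGroup F] [InnerProductSpace ℂ F]

theorem lioAll (S : Setup d F) (hC : AN.Cless S) : AD.LioStmt S :=
  lioE S (fun _ _ _ _ φ ψ => AE.gLimAll S φ ψ) hC

end Vale.Agent.P353.Z.AL
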