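import Vale.Agent.P353.AN.L.Stmt
import Vale.Agent.P353.AN.E.StmtG

/-! # P353, all `N`, block L (LIO): the limit equation from block E -/

open MeasureTheory Filter Topology Matrix
open scoped ContDiff

namespace Vale.Agent.P353.Z.AL

variable {d dh dm r ds n : ℕ} {F : Type*} [NormedAddCommGroup F] [InnerProductSpace ℂ F]

/-- **L-Eq** PROOF. `N = N0 S` (`FrameStmt`: `IsMass`), `μ = 0`: `QN S N (0/R²) β u = S.Q β u`. `ζ_j = b_j` (components of `b`, smooth, compact support off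
`Coll L ∪ {0}`), `o_j ∈ IZm` (`ZmStmt (S.int φ ψ …)`, `Dat.zm`, `mem`, `val`, `Bun.K_th`). `ZL S φ ψ Om (chi (R n)) (R n) = ZZ` (rfl); shift the sequences so that `1 ≤ R n` and
`chi (R n)` satisfies `CutA δ`. `GLimLStmt`: `R_nZZ_n(U pp ζ_j o_j)(Q_βu_n) - ZZ_n(U DF_β(pp ζ_j o_j))(u_n) → 0`. First term: `= ZZ_n(…)(R_nQ_βu_n)`, `SqM` sequence (`QInvStmt`), masses of shells
`≤ R_n²ena → 0`: UB (section over `tsupport ζ_j`; Iso not needed: `MemLp` as in L-Iso with `b = ζ_j e_j`). Sum over `j` (L-Lin): `∑_jU(η)DF_β(pp ζ_j o_j)(η,s) = sc U o (T.Q0 β b) η s` for a.e. `s`, every `η`: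
`DF … (η,s) = -i∑_{iA}∂_{iA}ζ_j(η)(γ^iθ^{zA})_βo_j(s)`, `θ^{zA}_αo_j = ∑_k(T.th α A e_j)_k o_k` (`thT`), `T.g = S.g`. -/
def LEqOfStmt (S : Setup d F) : Prop :=
  (∀ (dh dm r ds : ℕ) (φ : Spl dh dm d) (ψ : Spl r ds dh), AE.GLimLStmt S φ ψ) → AN.FrameStmt S → AE.QInvStmt S →
  (∀ (e : ℕ) (T : Setup e F), AE.ZmStmt T) → UBStmt S → LinStmt S → IsoStmt S → LEqStmt S

end Vale.Agent.P353.Z.AL
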