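import Vale.Agent.P353.AN.L.Stmt
import Vale.Agent.P353.AN.P.Stmt

/-! # P353, all `N`, block L (LIO): the uniform bound `UBStmt` (mass bound up to the collisions)

Only ONE frame is used: `{det D_8(η) = 0}` is a null set of `Cfg r`. `c = ∫_{|a|<ρ}|j(a)|da` does not depend on the compact set. -/

open MeasureTheory Filter Topology Matrix
open scoped ContDiff

namespace Vale.Agent.P353.Z.AL

variable {d dh dm r ds n : ℕ} {F : Type*} [NormedAddCommGroup F] [InnerProductSpace ℂ F]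

/-- scalar points where the frame is standard -/
def R8 (S : Setup d F) (φ : Spl dh dm d) (ψ : Spl r ds dh) : Set (Cfg r) := {η | (S.Dz φ ψ η 8).det ≠ 0}

/-- **U0** the stratum is parametrised injectively, with a uniform radius. PROOF from `AP.InjStmt` (block P; it only sees the structure constants: apply it to the
setup on `EuclideanSpace ℂ (Fin 0)` with the same `f`, `g`, `κ` and `th = 0`, so that the universe of `F` plays no role). `z` = colour vectors supported on the indices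
`φ (inl (ψ (inl a)))`: commuting (`cen`); `cen z = h` = vectors supported on `φ (inl ·)` (`⊇`: `cen`; `⊆`: `[v,z₀(8)] = 0` gives `D_8(z₀)v_m = 0`); for `η ∈ Rg` also `cen (range η) = h`
(`D_i(η)v_m = 0` for all `i` gives `∑D_i²v_m = 0`). `a ∈ m` is orthogonal to `h`; `tub S φ a (cmb ψ η 0, 0) = ro (exp (ad a)) (emb φ (cmb ψ η 0) 0)`, `ro` acts on each of the nine components. -/
def InjUStmt (S : Setup d F) : Prop := AN.Cless S → ∀ (dh dm r ds : ℕ) (φ : Spl dh dm d) (ψ : Spl r ds dh) (z₀ : Cfg r),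
  AD.Std2 S φ (spsw ψ) z₀ → ∃ ρ : ℝ, 0 < ρ ∧ ∀ η ∈ Rg S φ ψ, ∀ η' ∈ Rg S φ ψ, ∀ a a' : EuclideanSpace ℝ (Fin dm),
    ‖a‖ < ρ → ‖a'‖ < ρ → AN.tub S φ a (cmb ψ η 0, 0) = AN.tub S φ a' (cmb ψ η' 0, 0) → a = a' ∧ η = η'

def InjUOfStmt (S : Setup d F) : Prop := (∀ (d : ℕ) (S' : Setup d (EuclideanSpace ℂ (Fin 0))), AP.InjStmt S') → InjUStmt S

/-- **U1** tubes over compact sets are injective, the radius `ρ` does not depend on the compact set. PROOF. `ρ` smaller than the radius of `InjU` and such that `j(a) ≠ 0` for `|a| ≤ ρ`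
(`DetStmt`: `|det D tz(z)| = J(zy z)|j(zm z)|`, `j` continuous, `j 0 = 1`). Suppose there is no `ε₀` for `K`: `(a_n,p_n) ≠ (a_n',p_n')` with `|a_n|, |a_n'| < ρ`, `p_n, p_n' ∈ Nr ψ K dm 1 (1/n)`, same image. Subsequences:
`a_n → a`, `a_n' → a'` (`≤ ρ`), `p_n → (cmb ψ η 0, 0)`, `p_n' → (cmb ψ η' 0, 0)`, `η, η' ∈ K`. `tub a (η) = tub a' (η')`, so `a = a'`, `η = η'` by U0 (`K ⊆ Rg`: `D_8` invertible, `-∑D_i² > 0`). But `tz S φ` is injective near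
the point with coordinates `(a, cmb ψ η 0, 0)` (inverse function theorem, `CooStmt`): contradiction. -/
def TubKStmt (S : Setup d F) : Prop := AN.Cless S → ∀ (dh dm r ds : ℕ) (φ : Spl dh dm d) (ψ : Spl r ds dh) (z₀ : Cfg r),
  AD.Std2 S φ (spsw ψ) z₀ → ∃ ρ₀ : ℝ, 0 < ρ₀ ∧ ∀ K, IsCompact K → K ⊆ R8 S φ ψ → ∃ ε₀ : ℝ, 0 < ε₀ ∧
    ∀ (a a' : EuclideanSpace ℝ (Fin dm)) (p p' : Cfg dh × Wsp dm), ‖a‖ < ρ₀ → ‖a'‖ < ρ₀ → p ∈ Nr ψ K dm 1 ε₀ →
      p' ∈ Nr ψ K dm 1 ε₀ → AN.tub S φ a p = AN.tub S φ a' p' → a = a' ∧ p = p'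

def TubKOfStmt (S : Setup d F) : Prop := InjUStmt S → AN.DetStmt S → AN.CooStmt → TubKStmt S

/-- **U2** mass bound, `C` independent of the compact set. PROOF. Homogeneity (`tub a (R•p) = R•tub a p`, `AN/A/TubeF.lean`; `Nr ψ K dm R ε = R•Nr ψ K dm 1 ε`, `J` homogeneous) or directly at scale `R`.
Change of variables (`lintegral_image_eq_lintegral_abs_det_fderiv_mul` for `tz` on the measurable box `{|a| < ρ₀} × Nr`, injective by U1; `CooStmt`, `DetStmt`), `‖u‖` is constant along `exp(ad a)` (`gx983_norm`, as in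
`AN/A/Norm.lean`): `∫_{tube}‖u‖² = c∫_{Nr}‖res u‖²`, `c = ∫_{|a|<ρ₀}|j(a)|da > 0`. The tube lies in the shell for small `ε` (`‖tub a p‖² = ‖emb p‖² = ‖y^z‖² + ‖y^s‖² + ‖w‖²`, `y^z ∈ R·K`, `K ⊆ shl s t` compact). -/
def MasKStmt (S : Setup d F) : Prop := AN.Cless S → ∀ (dh dm r ds : ℕ) (φ : Spl dh dm d) (ψ : Spl r ds dh) (z₀ : Cfg r),
  AD.Std2 S φ (spsw ψ) z₀ → ∃ C : ℝ, 0 < C ∧ ∀ s t : ℝ, 0 < s → s < t → ∀ K, IsCompact K → K ⊆ AD.shl r s t →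
    K ⊆ R8 S φ ψ → ∃ ε₀ : ℝ, 0 < ε₀ ∧ ∀ ε : ℝ, 0 < ε → ε ≤ ε₀ → ∀ R : ℝ, 0 < R → ∀ u, AD.GInv S u →
      IntegrableOn (fun p : Cfg dh × Wsp dm => ‖S.res φ u p.1 p.2‖ ^ 2) (Nr ψ K dm R ε) (volume.prod volume) ∧
      ∫ p in Nr ψ K dm R ε, ‖S.res φ u p.1 p.2‖ ^ 2 ∂(volume.prod volume) ≤ C * AD.mas u (AD.shl d (s * R) (t * R))

def MasKOfStmt (S : Setup d F) : Prop := TubKStmt S → AN.DetStmt S → AN.CooStmt → MasKStmt S

/-- **U3** global functional = slice functional over any compact subset of `R8` (general form of L-GluA). PROOF: as L-GluA: for `z ∈ K` `GluStmt` (and `NormStmt`) at `z`; finitely many balls, Borel partition `A_k` of `K`; sections are modified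
on a null set to be strongly measurable (`ZZ`, `Sl` do not change); `ε₀` so small that `Nr ψ K dm R ε₀ ⊆ ⋃_kNb(z_k)`; tails by L-Tail, L-VG. -/
def GluCStmt (S : Setup d F) : Prop := FiniteDimensional ℂ F → ∀ (dh dm r ds : ℕ) (φ : Spl dh dm d) (ψ : Spl r ds dh)
  (z₀ : Cfg r), AD.Std2 S φ (spsw ψ) z₀ → ∀ (L : Finset (Fin r → ℝ)) (Om : Cfg r → Matrix (Fin dm) (Fin dm) ℝ)
  (K : Submodule ℂ F) (U : Cfg r → F →L[ℂ] F), AX.Bun S φ (AX.Mz S φ (spsw ψ)) L Om K U →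
  ∀ A, IsCompact A → A ⊆ R8 S φ ψ → (0 : Cfg r) ∉ A → ∃ ε₀ : ℝ, 0 < ε₀ ∧ ∀ ε : ℝ, 0 < ε → ε ≤ ε₀ →
  ∀ (R : ℕ → ℝ) (u : ℕ → Cfg d → F), SqM S R u → ∀ a, Sec2 A a →
    Tendsto (fun n => ZZ S.κ φ ψ Om a (R n) (u n) - Sl S φ ψ Om A ε a (R n) (u n)) atTop (𝓝 0)

def GluCOfStmt (S : Setup d F) : Prop := AN.GluStmt S → AN.NormStmt S → AN.MeaStmt S → AN.GauStmt → AlgStmt → RadStmt S → SupZStmt F →
  LinStmt S → TailStmt S → VGStmt S → GluCStmt S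

/-- **U4** bound with a constant depending on the compact set. PROOF. `A ⊆ Rg ⊆ AN.Reg`; `GluKStmt` with `b = chi·bG κ Om a` (`a` strongly measurable after a change on a null set; support condition for large `R`);
weighted norm: `∫(1+|X|²)^{dm+1}(Nf(Om η)e^{-½qX})²dX ≤ C` for `η ∈ A` (`MomStmt` near every point in a rotated frame `D' = ∑R₀_{ij}D_j`, or directly: `Om` is continuous and positive definite on the compact set `A`);
`u'` of L-Rad (`∫‖u'‖² ≤ C`), L-Sup. -/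
def CrdStmt (S : Setup d F) : Prop := FiniteDimensional ℂ F → ∀ (dh dm r ds : ℕ) (φ : Spl dh dm d) (ψ : Spl r ds dh)
  (z₀ : Cfg r), AD.Std2 S φ (spsw ψ) z₀ → ∀ (L : Finset (Fin r → ℝ)) (Om : Cfg r → Matrix (Fin dm) (Fin dm) ℝ)
  (K : Submodule ℂ F) (U : Cfg r → F →L[ℂ] F), AX.Bun S φ (AX.Mz S φ (spsw ψ)) L Om K U →
  ∀ A, IsCompact A → A ⊆ Rg S φ ψ → (0 : Cfg r) ∉ A → ∀ (R : ℕ → ℝ) (u : ℕ → Cfg d → F), SqM S R u →
    ∃ C : ℝ, 0 ≤ C ∧ ∀ a, Sec2 A a → ∀ᶠ n in atTop, ‖ZZ S.κ φ ψ Om a (R n) (u n)‖ ≤ C * Real.sqrt (n2 a)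

def CrdOfStmt (S : Setup d F) : Prop := AN.GluKStmt S → AN.MomStmt → RadStmt S → SupZStmt F → CrdStmt S

/-- **U5** `{det D_8 = 0}` is a null set. PROOF: `det D_8(η)` is a polynomial in `η`, nonzero at `z₀`; or `tor_Mz`, `RootStmt`, `SpStmt`: `det D_8(η) = ±∏_k l_k(η_8)`, `l_k ≠ 0`: finitely many hyperplanes. -/
def NullStmt (S : Setup d F) : Prop := ∀ (dh dm r ds : ℕ) (φ : Spl dh dm d) (ψ : Spl r ds dh) (z₀ : Cfg r),
  AD.Std2 S φ (spsw ψ) z₀ → volume {η : Cfg r | (S.Dz φ ψ η 8).det = 0} = 0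

/-- **U6** assembly. PROOF. `a ∈ Sec2 A`, `e > 0`; `C_A` of U4. `K_m = A ∩ {|det D_8(η)| ≥ 1/m}` compact `⊆ R8`; `n2 (a - 1_{K_m}a) → 0` (dominated convergence, U5), choose `m` with `C_A n2(…)^{1/2} ≤ e/3`. `ZZ(a) = ZZ(1_Ka) + ZZ(a - 1_Ka)`
(L-Lin), U4 for the second; U3 for the first (`K ⊆ shl s t`, `ε` of U2 and U3), Cauchy–Schwarz: `|Sl| ≤ ‖Ts0(vG 1_Ka)‖(∫_{Nr}‖res u‖²)^{1/2} ≤ n2(a)^{1/2}(C·mas)^{1/2}` (L-Tail first part, L-VG, U2). -/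
def UBOfStmt (S : Setup d F) : Prop := LinStmt S → AN.MeaStmt S → AN.GauStmt → AlgStmt → TailStmt S → VGStmt S → MasKStmt S → GluCStmt S →
  CrdStmt S → NullStmt S → UBStmt S

/-- L-GluA is a special case of U3. PROOF: `closedBall z₀ ε₁ ⊆ R8`, `0 ∉`; `Sl` over `A` and over `closedBall z₀ ε` agree (the section vanishes outside). -/
def GluAOfCStmt (S : Setup d F) : Prop := GluCStmt S → GluAStmt S

end Vale.Agent.P353.Z.AL
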