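import Vale.Agent.P353.AN.L.Null

/-! # P353, all `N`, block L, U6: the uniform bound -/

open MeasureTheory Filter Topology Matrix
open scoped ContDiff

namespace Vale.Agent.P353.Z.AL

variable {d dh dm r ds n : ℕ} {F : Type*} [NormedAddCommGroup F] [InnerProductSpace ℂ F]

/-- Cauchy–Schwarz on a set -/
lemma ub399_cs {X : Type*} [MeasurableSpace X] {μ : Measure X} {s : Set X} {f g : X → F}
    (hf : MemLp f 2 μ) (hg : IntegrableOn (fun x => ‖g x‖ ^ 2) s μ) :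
    ‖∫ x in s, inner ℂ (f x) (g x) ∂μ‖ ≤
      Real.sqrt (∫ x, ‖f x‖ ^ 2 ∂μ) * Real.sqrt (∫ x in s, ‖g x‖ ^ 2 ∂μ) := by
  have hf1 : MemLp (fun x => ‖f x‖) 2 (μ.restrict s) := (hf.restrict s).norm
  have hg0 : AEStronglyMeasurable (fun x => ‖g x‖) (μ.restrict s) := by
    have h1 : AEStronglyMeasurable (fun x => ‖g x‖ ^ 2) (μ.restrict s) := hg.aestronglyMeasurable
    have h2 := Real.continuous_sqrt.comp_aestronglyMeasurable h1
    refine h2.congr (Filter.Eventually.of_forall fun x => ?_)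
    exact Real.sqrt_sq (norm_nonneg _)
  have hg1 : MemLp (fun x => ‖g x‖) 2 (μ.restrict s) := (memLp_two_iff_integrable_sq hg0).2 hg
  have hf2 : Integrable (fun x => ‖f x‖ ^ 2) μ := (memLp_two_iff_integrable_sq_norm hf.1).1 hf
  have h1 : ‖∫ x in s, inner ℂ (f x) (g x) ∂μ‖ ≤ ∫ x in s, ‖f x‖ * ‖g x‖ ∂μ :=
    norm_integral_le_of_norm_le (hf1.integrable_mul hg1)
      (Filter.Eventually.of_forall fun x => norm_inner_le_norm _ _)
  have h2 : ∫ x in s, ‖f x‖ * ‖g x‖ ∂μ ≤ (∫ x in s, ‖f x‖ ^ (2 : ℝ) ∂μ) ^ (1 / (2 : ℝ)) *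
      (∫ x in s, ‖g x‖ ^ (2 : ℝ) ∂μ) ^ (1 / (2 : ℝ)) :=
    integral_mul_le_Lp_mul_Lq_of_nonneg Real.HolderConjugate.two_two
      (Filter.Eventually.of_forall fun x => norm_nonneg _)
      (Filter.Eventually.of_forall fun x => norm_nonneg _) (by simpa using hf1) (by simpa using hg1)
  simp only [Real.rpow_two, ← Real.sqrt_eq_rpow] at h2
  refine h1.trans (h2.trans (mul_le_mul_of_nonneg_right (Real.sqrt_le_sqrt ?_) (Real.sqrt_nonneg _)))
  exact setIntegral_le_integral hf2 (Filter.Eventually.of_forall fun x => by positivity)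

open Classical in
/-- restriction of a section -/
noncomputable def ub399r (K : Set (Cfg r)) (a : Cfg r → Cfg ds → F) (η : Cfg r) (s : Cfg ds) : F :=
  if η ∈ K then a η s else 0

lemma ub399r_ind (K : Set (Cfg r)) (a : Cfg r → Cfg ds → F) :
    (fun q : Cfg r × Cfg ds => ub399r K a q.1 q.2) =
      (Prod.fst ⁻¹' K).indicator (fun q : Cfg r × Cfg ds => a q.1 q.2) := by
  funext q
  unfold ub399r Set.indicator
  rfl

lemma ub399r_mem {K A : Set (Cfg r)} (hK : MeasurableSet K) {a : Cfg r → Cfg ds → F} (ha : Sec2 A a) :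
    Sec2 (A ∩ K) (ub399r K a) := by
  refine ⟨?_, fun η s h => ?_⟩
  · rw [ub399r_ind]
    exact ha.1.indicator (measurable_fst hK)
  · unfold ub399r at h
    split_ifs at h with h1
    · exact ⟨ha.2 η s h, h1⟩
    · exact absurd rfl h

lemma ub399_mono {A B : Set (Cfg r)} (h : A ⊆ B) {a : Cfg r → Cfg ds → F} (ha : Sec2 A a) : Sec2 B a :=
  ⟨ha.1, fun η s h1 => h (ha.2 η s h1)⟩

lemma ub399_int {A : Set (Cfg r)} {a : Cfg r → Cfg ds → F} (ha : Sec2 A a) :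
    Integrable (fun q : Cfg r × Cfg ds => ‖a q.1 q.2‖ ^ 2) (volume.prod volume) :=
  (memLp_two_iff_integrable_sq_norm ha.1.1).1 ha.1

lemma ub399r_norm (K : Set (Cfg r)) (a : Cfg r → Cfg ds → F) (η : Cfg r) (s : Cfg ds) :
    ‖ub399r K a η s‖ ≤ ‖a η s‖ := by
  unfold ub399r
  split_ifs with h1
  · exact le_rfl
  · rw [norm_zero]
    exact norm_nonneg _

lemma ub399r_n2 (K : Set (Cfg r)) {A : Set (Cfg r)} {a : Cfg r → Cfg ds → F} (ha : Sec2 A a) :
    n2 (ub399r K a) ≤ n2 a := by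
  refine integral_mono_of_nonneg (Filter.Eventually.of_forall fun q => by positivity) (ub399_int ha)
    (Filter.Eventually.of_forall fun q => ?_)
  exact pow_le_pow_left₀ (norm_nonneg _) (ub399r_norm K a q.1 q.2) 2

lemma ub399r_add (K : Set (Cfg r)) (a : Cfg r → Cfg ds → F) :
    (fun η s => ub399r K a η s + ub399r Kᶜ a η s) = a := by
  funext η s
  unfold ub399r
  by_cases h : η ∈ K
  · rw [if_pos h, if_neg (fun h1 => h1 h), add_zero]
  · rw [if_neg h, if_pos (show η ∈ Kᶜ from h), zero_add]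

/-- slice bound -/
lemma ub399_sl (S : Setup d F) (hfin : FiniteDimensional ℂ F) (hMea : AN.MeaStmt S) (hGau : AN.GauStmt)
    (hAlg : AlgStmt) (hTail : TailStmt S) (hVG : VGStmt S) {φ : Spl dh dm d} {ψ : Spl r ds dh}
    (hsub : S.IsSub φ) {Om : Cfg r → Matrix (Fin dm) (Fin dm) ℝ} {A : Set (Cfg r)} (hA : IsCompact A)
    (h1 : ∀ η ∈ A, Frz (AN.Dz S φ ψ η) ∧ IsOm S.κ (AN.Dz S φ ψ η) (Om η)) (h2 : ContinuousOn Om A)
    {a : Cfg r → Cfg ds → F} (ha : Sec2 A a) {ε R : ℝ} (hR : 0 < R) {u : Cfg d → F}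
    (hu : IntegrableOn (fun p : Cfg dh × Wsp dm => ‖S.res φ u p.1 p.2‖ ^ 2) (Nr ψ A dm R ε)
      (volume.prod volume)) :
    ‖Sl S φ ψ Om A ε a R u‖ ≤ Real.sqrt (n2 a) *
      Real.sqrt (∫ p in Nr ψ A dm R ε, ‖S.res φ u p.1 p.2‖ ^ 2 ∂(volume.prod volume)) := by
  have h3 := hVG hfin hGau hAlg dh dm r ds φ ψ Om A hA h1 h2 a ha
  have h4 := ((hTail hfin hMea dh dm r ds φ ψ hsub (AN.vG S φ ψ Om a) h3.1).1 R hR)
  have h5 := ub399_cs (s := Nr ψ A dm R ε) h4.1 hu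
  rw [h4.2, h3.2] at h5
  exact h5

lemma ub399_frz {S : Setup d F} {φ : Spl dh dm d} {ψ : Spl r ds dh} {z₀ : Cfg r}
    (h : AD.Std2 S φ (spsw ψ) z₀) {η : Cfg r} (hη : η ∈ R8 S φ ψ) : Frz (AN.Dz S φ ψ η) := by
  have h1 : AD.Dz S φ (spsw ψ) η = S.Dz φ ψ η := by
    rw [← AX.DM_Mz, AX.DM_Dz]
  have h2 := AX.frz_Dz h η
  rw [h1] at h2
  exact h2 hη

lemma ub399_om {S : Setup d F} {φ : Spl dh dm d} {ψ : Spl r ds dh} {L : Finset (Fin r → ℝ)}
    {Om : Cfg r → Matrix (Fin dm) (Fin dm) ℝ} {K : Submodule ℂ F} {U : Cfg r → F →L[ℂ] F}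
    (hB : AX.Bun S φ (AX.Mz S φ (spsw ψ)) L Om K U) {η : Cfg r} (hη : η ∈ Rg S φ ψ) :
    IsOm S.κ (AN.Dz S φ ψ η) (Om η) := by
  have h1 := hB.om η
  rw [AX.DM_Dz] at h1
  exact h1 hη

lemma ub399_omc {S : Setup d F} {φ : Spl dh dm d} {ψ : Spl r ds dh} {L : Finset (Fin r → ℝ)}
    {Om : Cfg r → Matrix (Fin dm) (Fin dm) ℝ} {K : Submodule ℂ F} {U : Cfg r → F →L[ℂ] F}
    (hB : AX.Bun S φ (AX.Mz S φ (spsw ψ)) L Om K U) : ContinuousOn Om (Rg S φ ψ) := by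
  have h1 : ∀ A B, ContinuousOn (fun η => Om η A B) (Rg S φ ψ) := fun A B =>
    (hB.om_smooth A B).continuousOn.mono fun η hη => by
      show (∑ i, DM (AX.Mz S φ (spsw ψ)) η i * DM (AX.Mz S φ (spsw ψ)) η i).det ≠ 0
      rw [AX.DM_Dz]
      exact hη
  exact continuousOn_pi.2 fun A => continuousOn_pi.2 fun B => h1 A B

/-- **U6** -/
theorem ub_of (S : Setup d F) : UBOfStmt S := by
  intro hLin hMea hGau hAlg hTail hVG hMasK hGluC hCrd hNull hfin hcl dh dm r ds φ ψ z₀ hstd L Om K U hB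
  obtain ⟨C0, hC0, hmas⟩ := hMasK hcl dh dm r ds φ ψ z₀ hstd
  refine ⟨Real.sqrt C0, Real.sqrt_pos.2 hC0, ?_⟩
  intro s t hs hst A hA hAsh hAR R u hSq a ha e he
  have h0A : (0 : Cfg r) ∉ A := fun h => by
    have h1 := (hAsh h).1
    rw [norm_zero] at h1
    linarith
  obtain ⟨CA, hCA, hcrd⟩ := hCrd hfin dh dm r ds φ ψ z₀ hstd L Om K U hB A hA hAR h0A R u hSq
  set Km : ℕ → Set (Cfg r) := fun m => {η | 1 / ((m : ℝ) + 1) ≤ |(S.Dz φ ψ η 8).det|} with hKm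
  have hcl : ∀ m, IsClosed (Km m) := fun m =>
    isClosed_le continuous_const ((nu399_cont S φ ψ 8).matrix_det.abs)
  have hKc : ∀ m, IsCompact (A ∩ Km m) := fun m => hA.inter_right (hcl m)
  have hK8 : ∀ m, A ∩ Km m ⊆ R8 S φ ψ := fun m η hη h => by
    have h1 : 1 / ((m : ℝ) + 1) ≤ |(S.Dz φ ψ η 8).det| := hη.2
    rw [h, abs_zero] at h1
    have h2 : 0 < 1 / ((m : ℝ) + 1) := by positivity
    linarith
  have hlim : Tendsto (fun m => n2 (ub399r (Km m)ᶜ a)) atTop (𝓝 0) := by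
    have h1 : Tendsto (fun m : ℕ => ∫ q : Cfg r × Cfg ds, ‖ub399r (Km m)ᶜ a q.1 q.2‖ ^ 2 ∂(volume.prod volume))
        atTop (𝓝 (∫ q : Cfg r × Cfg ds, (0 : ℝ) ∂((volume : Measure (Cfg r)).prod (volume : Measure (Cfg ds))))) := by
      refine tendsto_integral_of_dominated_convergence (fun q => ‖a q.1 q.2‖ ^ 2) (fun m => ?_)
        (ub399_int ha) (fun m => Filter.Eventually.of_forall fun q => ?_) ?_
      · exact ((ub399r_mem (hcl m).measurableSet.compl ha).1.1.norm.pow 2)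
      · rw [Real.norm_eq_abs, abs_of_nonneg (by positivity)]
        exact pow_le_pow_left₀ (norm_nonneg _) (ub399r_norm _ a q.1 q.2) 2
      · have h2 : ∀ᵐ η ∂(volume : Measure (Cfg r)), (S.Dz φ ψ η 8).det ≠ 0 := by
          rw [ae_iff]
          simpa using hNull dh dm r ds φ ψ z₀ hstd
        have h3 : ∀ᵐ q ∂((volume : Measure (Cfg r)).prod (volume : Measure (Cfg ds))),
            (S.Dz φ ψ q.1 8).det ≠ 0 := Measure.quasiMeasurePreserving_fst.ae h2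
        filter_upwards [h3] with q hq
        have h4 : 0 < |(S.Dz φ ψ q.1 8).det| := abs_pos.2 hq
        obtain ⟨m₀, hm₀⟩ := exists_nat_one_div_lt h4
        apply tendsto_const_nhds.congr'
        filter_upwards [eventually_ge_atTop m₀] with m hm
        have h5 : q.1 ∈ Km m := by
          show 1 / ((m : ℝ) + 1) ≤ _
          refine le_trans ?_ hm₀.le
          exact one_div_le_one_div_of_le (by positivity) (by exact_mod_cast Nat.succ_le_succ hm)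
        unfold ub399r
        rw [if_neg (fun h6 => h6 h5), norm_zero]
        norm_num
    rw [integral_zero] at h1
    exact h1
  have hlim2 : Tendsto (fun m => CA * Real.sqrt (n2 (ub399r (Km m)ᶜ a))) atTop (𝓝 0) := by
    have h1 := (hlim.sqrt).const_mul CA
    rwa [Real.sqrt_zero, mul_zero] at h1
  obtain ⟨m, hm⟩ := (hlim2.eventually_lt_const (show (0 : ℝ) < e / 3 by positivity)).exists
  have ham : Sec2 (A ∩ Km m) (ub399r (Km m) a) := ub399r_mem (hcl m).measurableSet ha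
  have hbm : Sec2 A (ub399r (Km m)ᶜ a) :=
    ub399_mono Set.inter_subset_left (ub399r_mem (hcl m).measurableSet.compl ha)
  obtain ⟨ε1, hε1, hglu⟩ := hGluC hfin dh dm r ds φ ψ z₀ hstd L Om K U hB (A ∩ Km m) (hKc m) (hK8 m)
    (fun h => h0A h.1)
  obtain ⟨ε2, hε2, hmk⟩ := hmas s t hs hst (A ∩ Km m) (hKc m) (Set.inter_subset_left.trans hAsh) (hK8 m)
  have hg := hglu (min ε1 ε2) (lt_min hε1 hε2) (min_le_left _ _) R u hSq _ ham
  have hg2 := (hg.norm).eventually_lt_const (show ‖(0 : ℂ)‖ < e / 3 by rw [norm_zero]; positivity)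
  filter_upwards [hcrd _ hbm, hg2] with k hk1 hk2
  have hlin := ((hLin hfin dh dm r ds φ ψ L Om K U hB A hA hAR (R k) (hSq.pos k) (u k) (hSq.inv k).1).2.1
    (ub399r (Km m) a) (ub399r (Km m)ᶜ a) (ub399_mono Set.inter_subset_left ham) hbm)
  rw [ub399r_add] at hlin
  obtain ⟨hi1, hi2⟩ := hmk (min ε1 ε2) (lt_min hε1 hε2) (min_le_right _ _) (R k) (hSq.pos k) (u k) (hSq.inv k)
  have hsl := ub399_sl S hfin hMea hGau hAlg hTail hVG hstd.std.sub (hKc m)
    (fun η hη => ⟨ub399_frz hstd (hK8 m hη), ub399_om hB (hAR hη.1)⟩)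
    ((ub399_omc hB).mono fun η hη => hAR hη.1) ham (hSq.pos k) hi1
  have h1 : ‖Sl S φ ψ Om (A ∩ Km m) (min ε1 ε2) (ub399r (Km m) a) (R k) (u k)‖ ≤
      Real.sqrt C0 * Real.sqrt (n2 a) * Real.sqrt (AD.mas (u k) (AD.shl d (s * R k) (t * R k))) := by
    refine hsl.trans ?_
    have h2 := mul_le_mul (Real.sqrt_le_sqrt (ub399r_n2 (Km m) ha)) (Real.sqrt_le_sqrt hi2)
      (Real.sqrt_nonneg _) (Real.sqrt_nonneg _)
    refine h2.trans (le_of_eq ?_)
    rw [Real.sqrt_mul hC0.le]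
    ring
  have h2 : ZZ S.κ φ ψ Om a (R k) (u k) =
      (ZZ S.κ φ ψ Om (ub399r (Km m) a) (R k) (u k) -
        Sl S φ ψ Om (A ∩ Km m) (min ε1 ε2) (ub399r (Km m) a) (R k) (u k)) +
      Sl S φ ψ Om (A ∩ Km m) (min ε1 ε2) (ub399r (Km m) a) (R k) (u k) +
      ZZ S.κ φ ψ Om (ub399r (Km m)ᶜ a) (R k) (u k) := by
    rw [hlin]
    ring
  rw [h2]
  refine (norm_add₃_le).trans ?_
  linarith

end Vale.Agent.P353.Z.AL
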